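import Vale.Agent.P106.U.H565.RunD

/-!
# P106 / U / H449 : the number of steps of a path is not large (helper449)

* `n_le_J` : the stop index is at most the last index of the first level behind the stop;  `N_le` : `N + 1 ≤ ha + 2 n₁ + J + 4`
  for the path of the concrete run (every value of the word, no hypothesis `Hyp`).
* `NT_le` : this number is at most `(8 + 4 K1') (h/m)` for `Good (K1' + 1/2) N0`, `J + 4 ≤ h/m`;  `NT_le'` : `(20 + 10 K1') (h/m)`.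
-/

set_option autoImplicit false

namespace Vale.Agent.P106.U.H449.NLe

open Finset Vale.Agent.P127 Vale.Agent.P127.Stk Vale.Agent.P106.U.H565
open Vale.Agent.P106.U.H823.NumW Vale.Agent.P106.U.H823.PathNum Vale.Agent.P106.U.H823.PathP
open Vale.Agent.P106.U Vale.Agent.P106.U.H449

/-- **the stop index** -/
theorem n_le_J (D : PN) {a : ℕ} (h : D.Ad ≤ D.m * a) : D.n ≤ D.L.J a :=
  Nat.find_min' D.ex_n (Or.inl (by rw [Lv.lev_J]; exact h))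

variable {Ω : Type} [Fintype Ω]

/-- the last index of a level -/
theorem J_le (c : C2 Ω) (a : ℕ) : c.D.L.J a ≤ a + 2 * c.I.pm.n + 2 := by
  have h1 := c.cn2.lv_sum (i := tw c.I.pm.n c.E1 a) (Cn.tw_le a)
  have h2 := Cn.tw_le (n := c.I.pm.n) (E := c.E1) a
  have h3 : c.D.F a ≤ c.I.pm.n := by
    show lv c.I.pm.n c.E1 (some 0) (tw c.I.pm.n c.E1 a) ≤ _
    omega
  have h4 : c.D.R a ≤ c.D.F a := (c.D.nm.RI a).trans (c.D.nm.IF a)
  have h5 : c.D.L.J a = a + (c.D.F a + 2) + c.D.R a := rfl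
  omega

/-- the stop index of the concrete path -/
theorem n_le (c : C2 Ω) : c.D.n ≤ c.I.ha + 2 * c.I.pm.n + 2 := by
  have h1 : c.D.n ≤ c.D.L.J c.I.Ab := n_le_J c.D (le_of_eq rfl)
  have h2 := J_le c c.I.Ab
  have h3 := c.good.Ab1
  have h4 := c.good.Ab2
  omega

/-- **the number of the steps** -/
theorem N_le (c : C2 Ω) : c.D.N + 1 ≤ c.I.ha + 2 * c.I.pm.n + c.I.J + 4 := by
  have h1 := n_le c
  have h2 : c.D.N = c.D.n + c.I.J := rfl
  omega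

/-- **in units of `h/m`** -/
theorem NT_le {I : H523.Nums.Inp} {K1 : ℝ} {N0 : ℕ} (G : I.Good (K1 + 1 / 2) N0)
    (hJ : (I.J : ℝ) + 4 ≤ (I.h : ℝ) / I.m) :
    ((I.ha + 2 * I.pm.n + I.J + 4 : ℕ) : ℝ) ≤ (8 + 4 * K1) * ((I.h : ℝ) / I.m) := by
  have hm : (0 : ℝ) < I.m := by exact_mod_cast G.m1
  have h1 : (I.ha : ℝ) ≤ (I.h : ℝ) / I.m := by
    rw [le_div_iff₀ hm]
    have := G.hah
    have h2 : ((I.m * I.ha : ℕ) : ℝ) ≤ (I.h : ℝ) := by exact_mod_cast this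
    push_cast at h2
    linarith
  have h2 := G.n1
  push_cast
  linarith

theorem NT_le' {I : H523.Nums.Inp} {K1 : ℝ} {N0 : ℕ} (G : I.Good (K1 + 1 / 2) N0) (hK : 0 ≤ K1)
    (hJ : (I.J : ℝ) + 4 ≤ (I.h : ℝ) / I.m) :
    ((I.ha + 2 * I.pm.n + I.J + 4 : ℕ) : ℝ) ≤ (20 + 10 * K1) * ((I.h : ℝ) / I.m) := by
  have h1 := NT_le G hJ
  have h2 : (0 : ℝ) ≤ (I.h : ℝ) / I.m := by positivity
  have h3 : (0 : ℝ) ≤ K1 * ((I.h : ℝ) / I.m) := mul_nonneg hK h2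
  linarith

/-- **the number of the indices of a run** `n + J + 1` -/
theorem nJ_le (c : C2 Ω) {K1 : ℝ} {N0 : ℕ} (G : c.I.Good (K1 + 1 / 2) N0) (hJ : (c.I.J : ℝ) + 4 ≤ (c.I.h : ℝ) / c.I.m) :
    (c.D.n : ℝ) + c.I.J + 1 ≤ (8 + 4 * K1) * ((c.I.h : ℝ) / c.I.m) := by
  have h1 := NT_le G hJ
  have h2 := N_le c
  have h3 : c.D.N = c.D.n + c.I.J := rfl
  have h4 : ((c.D.n + c.I.J + 1 : ℕ) : ℝ) ≤ ((c.I.ha + 2 * c.I.pm.n + c.I.J + 4 : ℕ) : ℝ) := by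
    exact_mod_cast (by omega : c.D.n + c.I.J + 1 ≤ c.I.ha + 2 * c.I.pm.n + c.I.J + 4)
  push_cast at h4 h1
  linarith

end Vale.Agent.P106.U.H449.NLe
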