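import Vale.Agent.P106.U.H449.Expl

/-!
# P106 / U / H449 : word 1, two kinds of r-steps (helper449)

Kinds: `none` = time, `0` = own slope `φ`, `1` = line `(t, κ)`.  Numbers of steps `nA, nF, nK` of a state.

* `ok` : a `φ`-step is allowed while `nF < QF` and `nF < nK + B₁`; a line step while `nK + B₀ < nF`.
* `frc` : forced kinds: at the end (`A ≤ nA`), or after `M` steps without a step of an allowed kind.
* `Is p e` : the rule `e` has these allowed / forced kinds.
* `tot` : the word has `p.n = A + QF + (QF - B₀)` letters; `inv`, `top` : numbers at every step, at the end.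
* `gap0`, `gap1` : an allowed kind has a step within `M + 1` (`M + 2`) steps.
* `frc_far`, `card_frc` : forced steps before the end are rare (`≤ n / (M + 1) + 1` for every kind).
* `Cn` : a law `Q`, `p Q ≤ P`, with a deterministic word; levels `lv` as functions of the word.
-/

set_option autoImplicit false

namespace Vale.Agent.P106.U.H449

open Finset Vale.Agent.P127 Vale.Agent.P127.Stk Vale.Agent.P127.U.Nonat Vale.Agent.P127.U.YPat

/-- number of letters of the kind `k` -/
def cw {K : ℕ} (k : Option (Fin K)) (w : List (Lt K)) : ℕ := w.countP fun r => decide (r.2 = k)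

/-- number of steps of the kind `k` of a state -/
def cnt {K : ℕ} {δ γ : Type} (k : Option (Fin K)) (s : Stt K δ γ) : ℕ := cw k (s.map Prod.fst)

theorem cw_cons {K : ℕ} (k : Option (Fin K)) (r : Lt K) (w : List (Lt K)) :
    cw k (r :: w) = cw k w + if r.2 = k then 1 else 0 := by
  unfold cw
  rw [List.countP_cons]
  simp

theorem cnt_cons {K : ℕ} {δ γ : Type} (k : Option (Fin K)) (r : Lt K × δ × γ) (s : Stt K δ γ) :
    cnt k (r :: s) = cnt k s + if r.1.2 = k then 1 else 0 := by
  unfold cnt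
  rw [List.map_cons, cw_cons]

@[simp] theorem cnt_nil {K : ℕ} {δ γ : Type} (k : Option (Fin K)) :
    cnt k ([] : Stt K δ γ) = 0 := rfl

/-- the parameters of the rule -/
structure Pm where
  /-- number of steps of the time -/
  A : ℕ
  /-- number of `φ`-steps -/
  QF : ℕ
  /-- lower and upper bound of the difference of the two precisions -/
  B₀ : ℕ
  B₁ : ℕ
  /-- distance of forced steps -/
  M : ℕ

namespace Pm

variable (p : Pm) {δ γ : Type}

/-- length of the word -/
def n : ℕ := p.A + p.QF + (p.QF - p.B₀)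

/-- allowed kinds -/
def ok (κ : Fin 2) (s : Stt 2 δ γ) : Prop :=
  if κ = 0 then cnt (some 0) s < p.QF ∧ cnt (some 0) s < cnt (some 1) s + p.B₁
  else cnt (some 1) s + p.B₀ < cnt (some 0) s

/-- no step of the kind `κ` among the last `M` steps -/
def quiet (κ : Fin 2) (s : Stt 2 δ γ) : Prop :=
  p.M ≤ s.length ∧ ∀ r ∈ s.take p.M, r.1.2 ≠ some κ

open Classical in
/-- forced kinds -/
noncomputable def frc (s : Stt 2 δ γ) : Option (Fin 2) :=
  if p.A ≤ cnt none s then (if p.ok 0 s then some 0 else if p.ok 1 s then some 1 else none)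
  else if p.ok 0 s ∧ p.quiet 0 s then some 0
  else if p.ok 1 s ∧ p.quiet 1 s then some 1 else none

/-- the hypotheses on the parameters -/
structure Good (p : Pm) : Prop where
  B : p.B₀ < p.B₁
  Q : p.B₀ ≤ p.QF
  M1 : 1 ≤ p.M

theorem ok0 {s : Stt 2 δ γ} : p.ok 0 s ↔ cnt (some 0) s < p.QF ∧ cnt (some 0) s < cnt (some 1) s + p.B₁ := by
  unfold ok
  rw [if_pos rfl]

theorem ok1 {s : Stt 2 δ γ} : p.ok 1 s ↔ cnt (some 1) s + p.B₀ < cnt (some 0) s := by
  unfold ok
  rw [if_neg (by decide)]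

theorem frc_ok {s : Stt 2 δ γ} {κ : Fin 2} (h : p.frc s = some κ) : p.ok κ s := by
  classical
  unfold frc at h
  split_ifs at h with h1 h2 h3 h4 h5
  · rw [← Option.some.inj h]; exact h2
  · rw [← Option.some.inj h]; exact h3
  · rw [← Option.some.inj h]; exact h4.1
  · rw [← Option.some.inj h]; exact h5.1

theorem frc_quiet {s : Stt 2 δ γ} {κ : Fin 2} (h : p.frc s = some κ) (hA : cnt none s < p.A) :
    p.quiet κ s := by
  classical
  unfold frc at h
  split_ifs at h with h1 h2 h3 h4 h5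
  · omega
  · omega
  · rw [← Option.some.inj h]; exact h4.2
  · rw [← Option.some.inj h]; exact h5.2

theorem frc_zero {s : Stt 2 δ γ} (h0 : p.ok 0 s) (hq : p.quiet 0 s) : p.frc s = some 0 := by
  classical
  unfold frc
  by_cases h1 : p.A ≤ cnt none s
  · rw [if_pos h1, if_pos h0]
  · rw [if_neg h1, if_pos ⟨h0, hq⟩]

theorem frc_one {s : Stt 2 δ γ} (hA : cnt none s < p.A) (h0 : p.ok 1 s) (hq : p.quiet 1 s) :
    p.frc s = some 0 ∨ p.frc s = some 1 := by
  classical
  unfold frc
  rw [if_neg (by omega)]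
  by_cases h4 : p.ok 0 s ∧ p.quiet 0 s
  · rw [if_pos h4]
    exact Or.inl rfl
  · rw [if_neg h4, if_pos ⟨h0, hq⟩]
    exact Or.inr rfl

theorem frc_end {s : Stt 2 δ γ} (hA : p.A ≤ cnt none s) (h : p.ok 0 s ∨ p.ok 1 s) :
    p.frc s ≠ none := by
  classical
  unfold frc
  rw [if_pos hA]
  by_cases h1 : p.ok 0 s
  · rw [if_pos h1]
    simp
  · rw [if_neg h1, if_pos (h.resolve_left h1)]
    simp

end Pm

namespace Rl

variable {Ω : Type} [Fintype Ω] {δ γ ζ₁ ζ₂ : Type}

/-- the rule has the allowed and the forced kinds of `p` -/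
structure Is (p : Pm) (e : Rl Ω 2 δ γ ζ₁ ζ₂) : Prop where
  ok : e.ok = p.ok
  frc : e.frc = p.frc

variable {e : Rl Ω 2 δ γ ζ₁ ζ₂} {P : Law Ω} {p : Pm}

theorem cnt_succ {K : ℕ} {e : Rl Ω K δ γ ζ₁ ζ₂} (k : Option (Fin K)) (i : ℕ) (ω : Ω) :
    cnt k (e.T P (i + 1) ω) = cnt k (e.T P i ω) + if e.kd P i ω = k then 1 else 0 := by
  rw [T_succ, cnt_cons]
  rfl

theorem cnt_zero {K : ℕ} {e : Rl Ω K δ γ ζ₁ ζ₂} (k : Option (Fin K)) (ω : Ω) :
    cnt k (e.T P 0 ω) = 0 := rfl

theorem kd_cases (i : ℕ) (ω : Ω) : e.kd P i ω = none ∨ e.kd P i ω = some 0 ∨ e.kd P i ω = some 1 := by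
  rcases h : e.kd P i ω with _ | κ
  · exact Or.inl rfl
  · right
    fin_cases κ
    · exact Or.inl rfl
    · exact Or.inr rfl

/-- the numbers of steps add up -/
theorem cnt_sum (i : ℕ) (ω : Ω) : cnt none (e.T P i ω) + cnt (some 0) (e.T P i ω) +
    cnt (some 1) (e.T P i ω) = i := by
  induction i with
  | zero => simp
  | succ i ih =>
    rw [cnt_succ, cnt_succ, cnt_succ]
    rcases kd_cases (e := e) (P := P) i ω with h | h | h
    · rw [h, if_pos rfl, if_neg (by simp), if_neg (by simp)]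
      omega
    · rw [h, if_neg (by simp), if_pos rfl, if_neg (by decide)]
      omega
    · rw [h, if_neg (by simp), if_neg (by decide), if_pos rfl]
      omega

theorem cnt_mono {K : ℕ} {e : Rl Ω K δ γ ζ₁ ζ₂} (k : Option (Fin K)) {i j : ℕ} (h : i ≤ j) (ω : Ω) :
    cnt k (e.T P i ω) ≤ cnt k (e.T P j ω) := by
  induction j, h using Nat.le_induction with
  | base => exact le_rfl
  | succ j _ ih =>
    rw [cnt_succ]
    omega

variable (hI : Is p e)

include hI

/-- a revealed kind is allowed -/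
theorem kd_ok {i : ℕ} {ω : Ω} {κ : Fin 2} (h : e.kd P i ω = some κ) : p.ok κ (e.T P i ω) := by
  rcases kd_some h with h1 | ⟨_, h1⟩
  · rw [hI.frc] at h1
    exact p.frc_ok h1
  · have := (st_four.1 h1).1
    rwa [hI.ok] at this

/-- the numbers of `r`-steps -/
theorem inv (i : ℕ) (ω : Ω) : cnt (some 0) (e.T P i ω) ≤ p.QF ∧
    (cnt (some 1) (e.T P i ω) = 0 ∨ cnt (some 1) (e.T P i ω) + p.B₀ ≤ cnt (some 0) (e.T P i ω)) := by
  induction i with
  | zero => simp
  | succ i ih =>
    rw [cnt_succ, cnt_succ]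
    rcases kd_cases (e := e) (P := P) i ω with h | h | h
    · rw [h, if_neg (by simp), if_neg (by simp)]
      omega
    · have h1 := p.ok0.1 (kd_ok hI h)
      rw [h, if_pos rfl, if_neg (by decide)]
      omega
    · have h1 := p.ok1.1 (kd_ok hI h)
      rw [h, if_neg (by decide), if_pos rfl]
      omega

/-- before the end of the word some kind is allowed when the time is complete -/
theorem end_ok (hp : p.Good) {i : ℕ} (hi : i < p.n) {ω : Ω} (hA : cnt none (e.T P i ω) ≤ p.A) (hA' : p.A ≤ cnt none (e.T P i ω)) :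
    p.ok 0 (e.T P i ω) ∨ p.ok 1 (e.T P i ω) := by
  have h1 := inv (P := P) hI i ω
  have h2 := cnt_sum (e := e) (P := P) i ω
  have hB := hp.B
  have hQ := hp.Q
  rw [p.ok0, p.ok1]
  unfold Pm.n at hi
  omega

theorem nA_le (hp : p.Good) (i : ℕ) (hi : i ≤ p.n) (ω : Ω) : cnt none (e.T P i ω) ≤ p.A := by
  induction i with
  | zero => simp
  | succ i ih =>
    have ih' := ih (by omega)
    rw [cnt_succ]
    by_cases hA : p.A ≤ cnt none (e.T P i ω)
    · have h1 := end_ok hI hp (by omega) ih' hA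
      have h2 : e.frc (e.T P i ω) ≠ none := by
        rw [hI.frc]
        exact p.frc_end hA h1
      have h3 := kd_forced (P := P) h2
      rw [if_neg (by rw [h3]; exact h2)]
      omega
    · split_ifs <;> omega

/-- **the numbers at the end** -/
theorem top (hp : p.Good) (ω : Ω) : cnt none (e.T P p.n ω) = p.A ∧ cnt (some 0) (e.T P p.n ω) = p.QF ∧
    cnt (some 1) (e.T P p.n ω) = p.QF - p.B₀ := by
  have h1 := inv (P := P) hI p.n ω
  have h2 := cnt_sum (e := e) (P := P) p.n ω
  have h3 := nA_le (P := P) hI hp p.n le_rfl ω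
  have hQ := hp.Q
  have h4 : p.n = p.A + p.QF + (p.QF - p.B₀) := rfl
  omega

omit hI in
/-- no step of the kind `κ` among the last `M` steps -/
theorem quiet_of {i j : ℕ} (hM : p.M ≤ i) (hij : j + p.M = i) {κ : Fin 2} {ω : Ω}
    (h : ∀ k, j ≤ k → k < i → e.kd P k ω ≠ some κ) : p.quiet κ (e.T P i ω) := by
  refine ⟨by rw [T_length]; exact hM, ?_⟩
  have key : ∀ t, t ≤ p.M → ∀ r ∈ (e.T P (j + t) ω).take t, r.1.2 ≠ some κ := by
    intro t
    induction t with
    | zero => intro _ r hr; simp at hr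
    | succ t ih =>
      intro ht r hr
      rw [← Nat.add_assoc, T_succ, List.take_succ_cons, List.mem_cons] at hr
      rcases hr with rfl | hr
      · exact h (j + t) (by omega) (by omega)
      · exact ih (by omega) r hr
  have := key p.M le_rfl
  rw [hij] at this
  exact this

omit hI in
/-- a quiet state has no step of the kind among the last `M` -/
theorem of_quiet {i : ℕ} {κ : Fin 2} {ω : Ω} (h : p.quiet κ (e.T P i ω)) {k : ℕ} (hk : k < i)
    (hk' : i ≤ k + p.M) : e.kd P k ω ≠ some κ := by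
  have h1 : p.M ≤ i := by
    have := h.1
    rwa [T_length] at this
  have key : ∀ t j, k + 1 + t = j → ((e.lt P k ω, e.val P k ω, e.D (e.T P k) ω) : Lt 2 × δ × γ) ∈
      (e.T P j ω).take (t + 1) := by
    intro t
    induction t with
    | zero =>
      intro j hj
      subst hj
      rw [Nat.add_zero, T_succ, List.take_succ_cons]
      exact List.mem_cons_self
    | succ t ih =>
      intro j hj
      obtain ⟨j', rfl⟩ : ∃ j', j = j' + 1 := ⟨j - 1, by omega⟩
      rw [T_succ, List.take_succ_cons]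
      exact List.mem_cons_of_mem _ (ih j' (by omega))
  have h2 := key (i - (k + 1)) i (by omega)
  have h3 : (e.T P i ω).take (i - (k + 1) + 1) ⊆ (e.T P i ω).take p.M :=
    (List.take_subset_take_left _ (by omega))
  exact h.2 _ (h3 h2)

/-- **a `φ`-step within `M + 1` steps** -/
theorem gap0 (i : ℕ) (ω : Ω) (h0 : p.ok 0 (e.T P i ω)) :
    ∃ j, i ≤ j ∧ j ≤ i + p.M ∧ e.kd P j ω = some 0 := by
  by_contra hcon
  push Not at hcon
  have hc : ∀ j, i ≤ j → j ≤ i + p.M → p.ok 0 (e.T P j ω) := by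
    intro j hij
    induction j, hij using Nat.le_induction with
    | base => exact fun _ => h0
    | succ j hj ih =>
      intro hj'
      have h1 := p.ok0.1 (ih (by omega))
      have h2 := hcon j hj (by omega)
      rw [p.ok0, cnt_succ, cnt_succ, if_neg h2]
      omega
  have h1 : p.quiet 0 (e.T P (i + p.M) ω) :=
    quiet_of (by omega) rfl fun k hk hk' => hcon k hk (by omega)
  have h2 := p.frc_zero (hc (i + p.M) (by omega) le_rfl) h1
  have h3 : e.kd P (i + p.M) ω = some 0 := by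
    rw [kd_forced (by rw [hI.frc, h2]; simp), hI.frc, h2]
  exact hcon (i + p.M) (by omega) le_rfl h3

/-- **a line step within `M + 2` steps**, before the end of the time -/
theorem gap1 (hp : p.Good) (i : ℕ) (ω : Ω) (h0 : p.ok 1 (e.T P i ω))
    (hA : cnt none (e.T P (i + p.M + 1) ω) < p.A) :
    ∃ j, i ≤ j ∧ j ≤ i + p.M + 1 ∧ e.kd P j ω = some 1 := by
  by_contra hcon
  push Not at hcon
  have hc : ∀ j, i ≤ j → j ≤ i + p.M + 1 → p.ok 1 (e.T P j ω) := by
    intro j hij
    induction j, hij using Nat.le_induction with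
    | base => exact fun _ => h0
    | succ j hj ih =>
      intro hj'
      have h1 := p.ok1.1 (ih (by omega))
      have h2 := hcon j hj (by omega)
      rw [p.ok1, cnt_succ, cnt_succ, if_neg h2]
      omega
  have hAj : ∀ j, j ≤ i + p.M + 1 → cnt none (e.T P j ω) < p.A := fun j hj =>
    (cnt_mono none hj ω).trans_lt hA
  have hq : ∀ j, i + p.M ≤ j → j ≤ i + p.M + 1 → p.quiet 1 (e.T P j ω) := by
    intro j hj hj'
    exact quiet_of (j := j - p.M) (by omega) (by omega) fun k hk hk' => hcon k (by omega) (by omega)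
  have h1 := p.frc_one (hAj _ (by omega)) (hc (i + p.M) (by omega) (by omega)) (hq _ le_rfl (by omega))
  rcases h1 with h1 | h1
  · have h2 : e.kd P (i + p.M) ω = some 0 := by
      rw [kd_forced (by rw [hI.frc, h1]; simp), hI.frc, h1]
    have h3 := p.frc_one (hAj _ le_rfl) (hc (i + p.M + 1) (by omega) le_rfl) (hq _ (by omega) le_rfl)
    rcases h3 with h3 | h3
    · have h4 := p.frc_quiet h3 (hAj _ le_rfl)
      exact of_quiet h4 (k := i + p.M) (by omega) (by have := hp.M1; omega) h2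
    · have h4 : e.kd P (i + p.M + 1) ω = some 1 := by
        rw [kd_forced (by rw [hI.frc, h3]; simp), hI.frc, h3]
      exact hcon _ (by omega) le_rfl h4
  · have h4 : e.kd P (i + p.M) ω = some 1 := by
      rw [kd_forced (by rw [hI.frc, h1]; simp), hI.frc, h1]
    exact hcon _ (by omega) (by omega) h4

/-- forced steps of one kind are far from each other -/
theorem frc_far {i j : ℕ} (hij : i < j) {κ : Fin 2} {ω : Ω} (hi : p.frc (e.T P i ω) = some κ)
    (hj : p.frc (e.T P j ω) = some κ) (hA : cnt none (e.T P j ω) < p.A) : i + p.M < j := by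
  by_contra hcon
  push Not at hcon
  have h1 := p.frc_quiet hj hA
  have h2 : e.kd P i ω = some κ := by
    rw [kd_forced (by rw [hI.frc, hi]; simp), hI.frc, hi]
  exact of_quiet h1 hij (by omega) h2

/-- **number of forced steps** of one kind before the end of the time -/
theorem card_frc (N : ℕ) (κ : Fin 2) (ω : Ω) (S : Finset ℕ) (hS : ∀ i ∈ S, i < N ∧
    p.frc (e.T P i ω) = some κ ∧ cnt none (e.T P i ω) < p.A) : S.card ≤ N / (p.M + 1) + 1 := by
  classical
  have hinj : Set.InjOn (fun i => i / (p.M + 1)) (S : Set ℕ) := by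
    intro i hi j hj h
    rw [Finset.mem_coe] at hi hj
    have hi' := hS i hi
    have hj' := hS j hj
    simp only at h
    have key : ∀ a b, a < b → b ≤ a + p.M ∨ a / (p.M + 1) < b / (p.M + 1) := by
      intro a b hab
      by_cases hb : b ≤ a + p.M
      · exact Or.inl hb
      · right
        have h1 : (a + (p.M + 1)) / (p.M + 1) = a / (p.M + 1) + 1 := Nat.add_div_right a (Nat.succ_pos _)
        have h2 : (a + (p.M + 1)) / (p.M + 1) ≤ b / (p.M + 1) := Nat.div_le_div_right (by omega)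
        omega
    rcases lt_trichotomy i j with hl | hl | hl
    · have h1 := frc_far hI hl hi'.2.1 hj'.2.1 hj'.2.2
      rcases key i j hl with h2 | h2 <;> omega
    · exact hl
    · have h1 := frc_far hI hl hj'.2.1 hi'.2.1 hi'.2.2
      rcases key j i hl with h2 | h2 <;> omega
  have hsub : S.image (fun i => i / (p.M + 1)) ⊆ Finset.range (N / (p.M + 1) + 1) := by
    intro x hx
    rw [Finset.mem_image] at hx
    obtain ⟨i, hi, rfl⟩ := hx
    rw [Finset.mem_range]
    have h1 := (hS i hi).1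
    have h2 : i / (p.M + 1) ≤ N / (p.M + 1) := Nat.div_le_div_right h1.le
    omega
  rw [← Finset.card_image_of_injOn hinj]
  exact (Finset.card_le_card hsub).trans (by rw [Finset.card_range])

end Rl

/-! ### Laws with a deterministic word -/

/-- `Q` is dominated by `P / q` and its word is `E` -/
structure Cn {Ω : Type} [Fintype Ω] {K : ℕ} {δ γ ζ₁ ζ₂ : Type} (e : Rl Ω K δ γ ζ₁ ζ₂) (P Q : Law Ω) (n : ℕ)
    (E : List (Lt K)) (q : ℝ) : Prop where
  hq : 0 < q
  dom : ∀ ω, q * Q.w ω ≤ P.w ω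
  hE : ∀ ω, 0 < Q.w ω → e.wd P n ω = E

/-- the letter of the step `i` -/
def le' {K : ℕ} (n : ℕ) (E : List (Lt K)) (i : ℕ) : Lt K := ((E.drop (n - (i + 1))).head?).getD (fun _ => 0, none)

/-- number of steps of the kind `k` among the first `i` -/
def lv {K : ℕ} (n : ℕ) (E : List (Lt K)) (k : Option (Fin K)) (i : ℕ) : ℕ := cw k (E.drop (n - i))

namespace Cn

variable {Ω : Type} [Fintype Ω] {K : ℕ} {δ γ ζ₁ ζ₂ : Type} {e : Rl Ω K δ γ ζ₁ ζ₂} {P Q : Law Ω} {n : ℕ}
  {E : List (Lt K)} {q : ℝ} (h : Cn e P Q n E q)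

include h

theorem pos {ω : Ω} (hω : 0 < Q.w ω) : 0 < P.w ω := (mul_pos h.hq hω).trans_le (h.dom ω)

theorem wd_eq {ω : Ω} (hω : 0 < Q.w ω) {i : ℕ} (hi : i ≤ n) : e.wd P i ω = E.drop (n - i) := by
  have h1 := Rl.wd_drop (e := e) (P := P) i (n - i) ω
  rw [Nat.add_sub_of_le hi, h.hE ω hω] at h1
  exact h1.symm

theorem lt_eq {ω : Ω} (hω : 0 < Q.w ω) {i : ℕ} (hi : i < n) : e.lt P i ω = le' n E i := by
  have h1 := h.wd_eq hω (i := i + 1) hi
  rw [Rl.wd_succ] at h1
  unfold le'
  rw [← h1]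
  rfl

theorem st_eq {ω : Ω} (hω : 0 < Q.w ω) {i : ℕ} (hi : i < n) (κ : Fin K) :
    e.st P i κ ω = (le' n E i).1 κ := by
  rw [← h.lt_eq hω hi]
  rfl

theorem kd_eq {ω : Ω} (hω : 0 < Q.w ω) {i : ℕ} (hi : i < n) : e.kd P i ω = (le' n E i).2 := by
  rw [← h.lt_eq hω hi]
  rfl

theorem cnt_eq {ω : Ω} (hω : 0 < Q.w ω) {i : ℕ} (hi : i ≤ n) (k : Option (Fin K)) :
    cnt k (e.T P i ω) = lv n E k i := by
  unfold cnt lv
  rw [← h.wd_eq hω hi]
  rfl

omit h in
theorem exists_om : ∃ ω, 0 < Q.w ω := by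
  by_contra hcon
  push Not at hcon
  have : ∑ ω, Q.w ω ≤ 0 := Finset.sum_nonpos fun ω _ => hcon ω
  rw [Q.sum_one] at this
  linarith

theorem lv_zero (k : Option (Fin K)) : lv n E k 0 = 0 := by
  obtain ⟨ω, hω⟩ := exists_om (Q := Q)
  rw [← h.cnt_eq hω (Nat.zero_le n)]
  rfl

theorem lv_succ (k : Option (Fin K)) {i : ℕ} (hi : i < n) :
    lv n E k (i + 1) = lv n E k i + if (le' n E i).2 = k then 1 else 0 := by
  obtain ⟨ω, hω⟩ := exists_om (Q := Q)
  rw [← h.cnt_eq hω (Nat.succ_le_of_lt hi), ← h.cnt_eq hω hi.le, Rl.cnt_succ, h.kd_eq hω hi]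

theorem lv_mono (k : Option (Fin K)) {i j : ℕ} (hij : i ≤ j) (hj : j ≤ n) :
    lv n E k i ≤ lv n E k j := by
  obtain ⟨ω, hω⟩ := exists_om (Q := Q)
  rw [← h.cnt_eq hω hj, ← h.cnt_eq hω (hij.trans hj)]
  exact Rl.cnt_mono k hij ω

end Cn

/-- the conditioned law -/
theorem cn_of {Ω : Type} [Fintype Ω] {K : ℕ} {δ γ ζ₁ ζ₂ : Type} (e : Rl Ω K δ γ ζ₁ ζ₂) (P : Law Ω) {η : Type*}
    (X : Ω → η) (n : ℕ) (E : List (Lt K)) (x : η) (h : 0 < P.pr (fun ω => (e.wd P n ω, X ω)) (E, x)) :
    Cn e P (P.cond (fun ω => (e.wd P n ω, X ω)) (E, x)) n E (P.pr (fun ω => (e.wd P n ω, X ω)) (E, x)) := by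
  classical
  refine ⟨h, fun ω => ?_, fun ω hω => ?_⟩
  · rw [P.cond_w _ _ h]
    split_ifs
    · rw [mul_div_cancel₀ _ h.ne']
    · rw [mul_zero]
      exact P.nn ω
  · rw [P.cond_w _ _ h] at hω
    split_ifs at hω with hc
    · exact (Prod.mk.inj hc).1
    · exact absurd hω (lt_irrefl _)

end Vale.Agent.P106.U.H449
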