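import Vale.Agent.P106.U.H565.RunD
import Vale.Agent.P106.U.H565.Sel5

/-!
# P106 / U / H449 : the cap of the concrete run (helper449), row [CAPN] of helper565

* `cap_c` : the fields of `S3.Run.Cap` from `8 B < b1 < nBl (δ1 / 2) h m` and the activity.
-/

set_option autoImplicit false

namespace Vale.Agent.P106.U.H449

open Finset Vale.Agent.P127 Vale.Agent.P127.Stk Vale.Agent.P106.U.H565
open Vale.Agent.P127.U.Mic (colp)

namespace CapC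

variable {Ω : Type} [Fintype Ω]

/-- **the cap** -/
theorem cap_c (c : C2 Ω) {B : ℕ} {ε : ℝ} (hδ : 0 < c.I.δ1) (hδ3 : 3 * c.I.δ1 ≤ 1)
    (hh : ((c.I.m * (2 * B + 8 * c.I.B + 2) : ℕ) : ℝ) ≤ c.I.δ1 / 2 * c.I.h)
    (low : 8 * B < c.b1) (hb : c.b1 < nBl (c.I.δ1 / 2) c.I.h c.I.m)
    (act : colp c.Q (c.Yb c.b1) c.G ≤ ε) : c.run.Cap c.num B ε := by
  have hm := c.good.m1
  have hmr : (0 : ℝ) < c.I.m := by exact_mod_cast hm
  have hh0 : (0 : ℝ) ≤ c.I.h := Nat.cast_nonneg _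
  have b0 : ((c.b1 + 1 : ℕ) : ℝ) ≤ nBl (c.I.δ1 / 2) c.I.h c.I.m := by exact_mod_cast hb
  have b1 : ((c.I.m * nBl (c.I.δ1 / 2) c.I.h c.I.m : ℕ) : ℝ) ≤ c.I.δ1 / 2 * c.I.h := nBl_le (by positivity) hm
  have b2 : (c.I.m : ℝ) * (c.b1 + 1) ≤ c.I.δ1 / 2 * c.I.h := by
    push_cast at b0 b1
    have := mul_le_mul_of_nonneg_left b0 hmr.le
    linarith
  push_cast at hh
  have hB0 : (0 : ℝ) ≤ c.I.m * c.I.B := by positivity
  have hB1 : (0 : ℝ) ≤ c.I.m * B := by positivity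
  have b3 : (c.I.m : ℝ) * (c.b1 + B) + c.I.m ≤ c.I.δ1 * c.I.h := by
    nlinarith
  refine ⟨low, ?_, ?_, act⟩
  · show c.I.m * (c.b1 + B) ≤ c.I.m * c.I.B1b
    refine Nat.mul_le_mul_left _ ?_
    unfold H523.Nums.Inp.B1b
    refine Nat.le_floor ?_
    rw [le_div_iff₀ hmr]
    push_cast
    linarith
  · show c.I.m * c.I.A'b + 2 * (c.I.m * (c.b1 + B)) + 8 * (c.I.m * c.I.B) ≤ c.I.h
    have a1 : (c.I.A'b : ℝ) ≤ (1 - 3 * c.I.δ1) * c.I.h / c.I.m := by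
      unfold H523.Nums.Inp.A'b
      exact Nat.floor_le (div_nonneg (mul_nonneg (by linarith) hh0) hmr.le)
    rw [le_div_iff₀ hmr] at a1
    have a2 : ((c.I.m * c.I.A'b + 2 * (c.I.m * (c.b1 + B)) + 8 * (c.I.m * c.I.B) : ℕ) : ℝ) ≤ c.I.h := by
      push_cast
      nlinarith
    exact_mod_cast a2

end CapC

end Vale.Agent.P106.U.H449
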