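import Vale.Agent.P106.U.H449.Wrd1

/-!
# P106 / U / H449 : index of the steps of the time (helper449)

`f i` = number of steps of the time among the first `i` steps (`f 0 = 0`, increments `0` or `1`),
`ti f n a` = the step of the time of the level `a` (`n` for `a ≥ f n`).

* `ti_le`, `ti_lt`, `ti_f` (`f (ti a) = a`), `ti_succ` (it is a step of the time), `ti_mono`, `ti_strict`.
* `ti_of` : every step of the time is `ti (f i)`;  `f_between`.
* `Cn` versions: `tw n E a`, `RIw n E k a = lv (some k) (tw a)` : monotone, `kd`.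
* `image_ti`, `card_ti`.
* `sum_ti` : sums over the steps of the time = sums over the levels.
-/

set_option autoImplicit false

namespace Vale.Agent.P106.U.H449

open Finset Vale.Agent.P127 Vale.Agent.P127.Stk

namespace TI

variable {f : ℕ → ℕ} {n : ℕ}

/-- the step of the time of the level `a` -/
def ti (f : ℕ → ℕ) (n a : ℕ) : ℕ := Nat.findGreatest (fun i => f i ≤ a) n

/-- counting function -/
structure Ct (f : ℕ → ℕ) (n : ℕ) : Prop where
  z : f 0 = 0
  s : ∀ i < n, f (i + 1) = f i ∨ f (i + 1) = f i + 1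

theorem ti_le (a : ℕ) : ti f n a ≤ n := Nat.findGreatest_le _

theorem Ct.mono (h : Ct f n) {i j : ℕ} (hij : i ≤ j) (hj : j ≤ n) : f i ≤ f j := by
  induction j, hij using Nat.le_induction with
  | base => exact le_rfl
  | succ k hk ih =>
    have h1 := ih (by omega)
    rcases h.s k (by omega) with h2 | h2 <;> omega

theorem Ct.le_self (h : Ct f n) {i : ℕ} (hi : i ≤ n) : f i ≤ i := by
  induction i with
  | zero => rw [h.z]
  | succ i ih =>
    have h1 := ih (by omega)
    rcases h.s i (by omega) with h2 | h2 <;> omega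

theorem ti_ge {a : ℕ} (h : f n ≤ a) : ti f n a = n :=
  le_antisymm (ti_le a) (Nat.le_findGreatest le_rfl h)

theorem le_ti {a i : ℕ} (hi : i ≤ n) (h : f i ≤ a) : i ≤ ti f n a := Nat.le_findGreatest hi h

theorem f_ti_le (h : Ct f n) (a : ℕ) : f (ti f n a) ≤ a :=
  Nat.findGreatest_spec (P := fun i => f i ≤ a) (Nat.zero_le n) (by rw [h.z]; exact Nat.zero_le a)

theorem ti_lt (h : Ct f n) {a : ℕ} (ha : a < f n) : ti f n a < n := by
  rcases Nat.lt_or_ge (ti f n a) n with h1 | h1
  · exact h1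
  · exfalso
    have h2 := f_ti_le h a
    rw [le_antisymm (ti_le a) h1] at h2
    omega

/-- **the next step raises the level** -/
theorem ti_succ (h : Ct f n) {a : ℕ} (ha : a < f n) : f (ti f n a + 1) = a + 1 ∧ f (ti f n a) = a := by
  have h1 := ti_lt h ha
  have h2 := f_ti_le h a
  have h3 : ¬ f (ti f n a + 1) ≤ a := fun hc => by
    have := le_ti (f := f) (n := n) (a := a) (i := ti f n a + 1) h1 hc
    omega
  rcases h.s _ h1 with h4 | h4 <;> omega

theorem ti_f (h : Ct f n) {a : ℕ} (ha : a ≤ f n) : f (ti f n a) = a := by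
  rcases ha.lt_or_eq with h1 | h1
  · exact (ti_succ h h1).2
  · rw [ti_ge h1.ge, h1]

theorem ti_mono {a b : ℕ} (hab : a ≤ b) : ti f n a ≤ ti f n b :=
  Nat.findGreatest_mono_left (fun i hi => by exact le_trans hi hab) n

theorem ti_monotone : Monotone (ti f n) := fun _ _ h => ti_mono h

theorem ti_strict (h : Ct f n) {a b : ℕ} (hab : a < b) (ha : a < f n) : ti f n a < ti f n b := by
  have h1 := ti_succ h ha
  have h2 : ti f n a + 1 ≤ ti f n b := le_ti (ti_lt h ha) (by omega)
  exact h2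

/-- **every step of the time has an index** -/
theorem ti_of (h : Ct f n) {i : ℕ} (hi : i < n) (hf : f (i + 1) = f i + 1) : ti f n (f i) = i := by
  refine le_antisymm ?_ (le_ti hi.le le_rfl)
  by_contra hcon
  push Not at hcon
  have h1 : f (i + 1) ≤ f (ti f n (f i)) := h.mono hcon (ti_le _)
  have h2 := f_ti_le h (f i)
  omega

/-- the level between two consecutive steps of the time -/
theorem f_between (h : Ct f n) {a i : ℕ} (ha : a < f n) (h1 : ti f n a < i) (h2 : i ≤ ti f n (a + 1)) :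
    f i = a + 1 := by
  have h3 := (ti_succ h ha).1
  have h4 : f (ti f n a + 1) ≤ f i := h.mono h1 (h2.trans (ti_le _))
  have h5 : f i ≤ f (ti f n (a + 1)) := h.mono h2 (ti_le _)
  have h6 := f_ti_le h (a + 1)
  omega

/-- the level up to the first step of the time -/
theorem f_first (h : Ct f n) {i : ℕ} (h2 : i ≤ ti f n 0) : f i = 0 := by
  have h5 : f i ≤ f (ti f n 0) := h.mono h2 (ti_le _)
  have h6 := f_ti_le h 0
  omega

/-- no step of the time strictly between two consecutive steps of the time -/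
theorem not_between (h : Ct f n) {a i : ℕ} (ha : a < f n) (h1 : ti f n a < i) (h2 : i < ti f n (a + 1)) :
    f (i + 1) = f i := by
  rw [f_between h ha h1 h2.le, f_between h ha (h1.trans (Nat.lt_succ_self i)) h2]

/-- the set of the steps of the time -/
def St (f : ℕ → ℕ) (n : ℕ) : Finset ℕ := (range n).filter fun i => f (i + 1) = f i + 1

theorem mem_St {i : ℕ} : i ∈ St f n ↔ i < n ∧ f (i + 1) = f i + 1 := by
  unfold St
  rw [mem_filter, mem_range]

theorem image_ti (h : Ct f n) : (range (f n)).image (ti f n) = St f n := by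
  ext i
  rw [mem_image, mem_St]
  constructor
  · rintro ⟨a, ha, rfl⟩
    rw [mem_range] at ha
    have h1 := ti_succ h ha
    exact ⟨ti_lt h ha, by omega⟩
  · rintro ⟨h1, h2⟩
    refine ⟨f i, ?_, ti_of h h1 h2⟩
    rw [mem_range]
    have := h.mono (show i + 1 ≤ n by omega) le_rfl
    omega

theorem inj_ti (h : Ct f n) : Set.InjOn (ti f n) (range (f n) : Finset ℕ) := by
  intro a ha b hb hab
  have ha' : a < f n := by simpa using ha
  have hb' : b < f n := by simpa using hb
  have h1 := (ti_succ h ha').2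
  have h2 := (ti_succ h hb').2
  rw [hab] at h1
  omega

/-- **sums over the steps of the time are sums over the levels** -/
theorem sum_ti {M : Type*} [AddCommMonoid M] (h : Ct f n) (g : ℕ → M) :
    ∑ i ∈ St f n, g i = ∑ a ∈ range (f n), g (ti f n a) := by
  rw [← image_ti h, Finset.sum_image (inj_ti h)]

theorem card_St (h : Ct f n) : (St f n).card = f n := by
  rw [← image_ti h, Finset.card_image_of_injOn (inj_ti h), card_range]

/-- a monotone quantity at the steps of the time is monotone in the level -/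
theorem mono_ti {g : ℕ → ℕ} (hg : ∀ i j, i ≤ j → j ≤ n → g i ≤ g j) :
    Monotone fun a => g (ti f n a) := fun _ _ hab => hg _ _ (ti_mono hab) (ti_le _)

end TI

/-! ### Words -/

section

variable {K : ℕ}

/-- the step of the time of the level `a` of a word -/
def tw (n : ℕ) (E : List (Lt K)) (a : ℕ) : ℕ := TI.ti (lv n E none) n a

/-- the number of steps of the kind `κ` before the step of the time of the level `a` -/
def Rw (n : ℕ) (E : List (Lt K)) (κ : Fin K) (a : ℕ) : ℕ := lv n E (some κ) (tw n E a)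

namespace Cn

variable {Ω : Type} [Fintype Ω] {δ γ ζ₁ ζ₂ : Type} {e : Rl Ω K δ γ ζ₁ ζ₂} {P Q : Law Ω} {n : ℕ}
  {E : List (Lt K)} {q : ℝ} (h : Cn e P Q n E q)

include h

theorem ct : TI.Ct (lv n E none) n where
  z := h.lv_zero none
  s := fun i hi => by
    rw [h.lv_succ none hi]
    split_ifs
    · exact Or.inr rfl
    · exact Or.inl rfl

theorem step_iff {i : ℕ} (hi : i < n) : lv n E none (i + 1) = lv n E none i + 1 ↔
    (le' n E i).2 = none := by
  rw [h.lv_succ none hi]
  by_cases h1 : (le' n E i).2 = none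
  · simp [h1]
  · simp [h1]

/-- the precision at the steps of the time is monotone in the level -/
theorem Rw_mono (κ : Fin K) : Monotone (Rw n E κ) :=
  TI.mono_ti fun _ _ h1 h2 => h.lv_mono (some κ) h1 h2

omit h in
theorem tw_le (a : ℕ) : tw n E a ≤ n := TI.ti_le a

omit h in
theorem tw_mono {a b : ℕ} (hab : a ≤ b) : tw n E a ≤ tw n E b := TI.ti_mono hab

theorem tw_lt {a : ℕ} (ha : a < lv n E none n) : tw n E a < n := TI.ti_lt h.ct ha

theorem tw_lv {a : ℕ} (ha : a ≤ lv n E none n) : lv n E none (tw n E a) = a := TI.ti_f h.ct ha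

theorem tw_kd {a : ℕ} (ha : a < lv n E none n) : (le' n E (tw n E a)).2 = none :=
  (h.step_iff (h.tw_lt ha)).1 (by have := TI.ti_succ h.ct ha; unfold tw; omega)

theorem tw_strict {a b : ℕ} (hab : a < b) (ha : a < lv n E none n) : tw n E a < tw n E b :=
  TI.ti_strict h.ct hab ha

theorem tw_of {i : ℕ} (hi : i < n) (hk : (le' n E i).2 = none) : tw n E (lv n E none i) = i :=
  TI.ti_of h.ct hi ((h.step_iff hi).2 hk)

/-- a sum over the steps of the time -/
theorem sum_tw {M : Type*} [AddCommMonoid M] (g : ℕ → M) :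
    ∑ i ∈ (range n).filter (fun i => (le' n E i).2 = none), g i =
      ∑ a ∈ range (lv n E none n), g (tw n E a) := by
  have h1 : (range n).filter (fun i => (le' n E i).2 = none) = TI.St (lv n E none) n := by
    ext i
    rw [mem_filter, mem_range, TI.mem_St]
    constructor
    · rintro ⟨g1, g2⟩
      exact ⟨g1, (h.step_iff g1).2 g2⟩
    · rintro ⟨g1, g2⟩
      exact ⟨g1, (h.step_iff g1).1 g2⟩
  rw [h1]
  exact TI.sum_ti h.ct g

theorem card_tw : ((range n).filter (fun i => (le' n E i).2 = none)).card = lv n E none n := by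
  have h1 := h.sum_tw fun _ => (1 : ℕ)
  simpa using h1

/-- the steps strictly between two consecutive steps of the time are not steps of the time -/
theorem tw_between {a i : ℕ} (ha : a < lv n E none n) (h1 : tw n E a < i) (h2 : i < tw n E (a + 1)) :
    (le' n E i).2 ≠ none := by
  intro hc
  have hi : i < n := h2.trans_le (tw_le _)
  have h3 := TI.not_between h.ct ha h1 h2
  have h4 := (h.step_iff hi).2 hc
  omega

end Cn

end

/-! ### Two kinds -/

namespace Cn

variable {Ω : Type} [Fintype Ω] {δ γ ζ₁ ζ₂ : Type} {e : Rl Ω 2 δ γ ζ₁ ζ₂} {P Q : Law Ω} {p : Pm}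
  {E : List (Lt 2)} {q : ℝ}

/-- numbers of the three kinds -/
theorem lv_sum {n : ℕ} (h : Cn e P Q n E q) {i : ℕ} (hi : i ≤ n) :
    lv n E none i + lv n E (some 0) i + lv n E (some 1) i = i := by
  obtain ⟨ω, hω⟩ := exists_om (Q := Q)
  rw [← h.cnt_eq hω hi, ← h.cnt_eq hω hi, ← h.cnt_eq hω hi]
  exact Rl.cnt_sum i ω

/-- the last numbers -/
theorem lv_top (hp : p.Good) (he : Rl.Is p e) (h : Cn e P Q p.n E q) :
    lv p.n E none p.n = p.A ∧ lv p.n E (some 0) p.n = p.QF ∧ lv p.n E (some 1) p.n = p.QF - p.B₀ := by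
  obtain ⟨ω, hω⟩ := exists_om (Q := Q)
  rw [← h.cnt_eq hω le_rfl, ← h.cnt_eq hω le_rfl, ← h.cnt_eq hω le_rfl]
  exact Rl.top he hp ω

/-- the difference of the precisions -/
theorem _root_.Vale.Agent.P106.U.H449.Rl.inv2 (he : Rl.Is p e) (i : ℕ) (ω : Ω) :
    cnt (some 0) (e.T P i ω) ≤ cnt (some 1) (e.T P i ω) + p.B₁ := by
  induction i with
  | zero => simp
  | succ i ih =>
    rw [Rl.cnt_succ, Rl.cnt_succ]
    rcases Rl.kd_cases (e := e) (P := P) i ω with h | h | h
    · rw [h, if_neg (by simp), if_neg (by simp)]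
      omega
    · have h1 := p.ok0.1 (Rl.kd_ok he h)
      rw [h, if_pos rfl, if_neg (by decide)]
      omega
    · have h1 := p.ok1.1 (Rl.kd_ok he h)
      rw [h, if_neg (by decide), if_pos rfl]
      omega

/-- **the bounds of the numbers** -/
theorem lv_inv {n : ℕ} (he : Rl.Is p e) (h : Cn e P Q n E q) {i : ℕ} (hi : i ≤ n) :
    lv n E (some 0) i ≤ p.QF ∧ lv n E (some 0) i ≤ lv n E (some 1) i + p.B₁ ∧
      (lv n E (some 1) i = 0 ∨ lv n E (some 1) i + p.B₀ ≤ lv n E (some 0) i) := by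
  obtain ⟨ω, hω⟩ := exists_om (Q := Q)
  have h1 := Rl.inv (P := P) he i ω
  have h2 := Rl.inv2 (P := P) he i ω
  rw [h.cnt_eq hω hi, h.cnt_eq hω hi] at h1 h2
  exact ⟨h1.1, h2, h1.2⟩

/-- `φ` is allowed -/
theorem ok0_iff {n : ℕ} (h : Cn e P Q n E q) {i : ℕ} (hi : i ≤ n) {ω : Ω} (hω : 0 < Q.w ω) :
    p.ok 0 (e.T P i ω) ↔ lv n E (some 0) i < p.QF ∧ lv n E (some 0) i < lv n E (some 1) i + p.B₁ := by
  rw [p.ok0, h.cnt_eq hω hi, h.cnt_eq hω hi]

/-- the line is allowed -/
theorem ok1_iff {n : ℕ} (h : Cn e P Q n E q) {i : ℕ} (hi : i ≤ n) {ω : Ω} (hω : 0 < Q.w ω) :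
    p.ok 1 (e.T P i ω) ↔ lv n E (some 1) i + p.B₀ < lv n E (some 0) i := by
  rw [p.ok1, h.cnt_eq hω hi, h.cnt_eq hω hi]

/-- **a `φ`-step within `M + 1` steps** -/
theorem gap0 {n : ℕ} (he : Rl.Is p e) (h : Cn e P Q n E q) {i : ℕ} (hi : i + p.M < n)
    (h0 : lv n E (some 0) i < p.QF) (h1 : lv n E (some 0) i < lv n E (some 1) i + p.B₁) :
    ∃ j, i ≤ j ∧ j ≤ i + p.M ∧ (le' n E j).2 = some 0 := by
  obtain ⟨ω, hω⟩ := exists_om (Q := Q)
  obtain ⟨j, g1, g2, g3⟩ := Rl.gap0 (P := P) he i ω ((h.ok0_iff (by omega) hω).2 ⟨h0, h1⟩)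
  exact ⟨j, g1, g2, by rw [← h.kd_eq hω (by omega), g3]⟩

/-- **a line step within `M + 2` steps**, before the end of the time -/
theorem gap1 {n : ℕ} (hp : p.Good) (he : Rl.Is p e) (h : Cn e P Q n E q) {i : ℕ} (hi : i + p.M + 1 < n)
    (h0 : lv n E (some 1) i + p.B₀ < lv n E (some 0) i)
    (hA : lv n E none (i + p.M + 1) < p.A) :
    ∃ j, i ≤ j ∧ j ≤ i + p.M + 1 ∧ (le' n E j).2 = some 1 := by
  obtain ⟨ω, hω⟩ := exists_om (Q := Q)
  obtain ⟨j, g1, g2, g3⟩ := Rl.gap1 (P := P) he hp i ω ((h.ok1_iff (by omega) hω).2 h0)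
    (by rw [h.cnt_eq hω (by omega)]; exact hA)
  exact ⟨j, g1, g2, by rw [← h.kd_eq hω (by omega), g3]⟩

/-- a revealed kind is allowed -/
theorem kd_ok0 {n : ℕ} (he : Rl.Is p e) (h : Cn e P Q n E q) {i : ℕ} (hi : i < n)
    (hk : (le' n E i).2 = some 0) : lv n E (some 0) i < p.QF ∧ lv n E (some 0) i < lv n E (some 1) i + p.B₁ := by
  obtain ⟨ω, hω⟩ := exists_om (Q := Q)
  exact (h.ok0_iff hi.le hω).1 (Rl.kd_ok he (by rw [h.kd_eq hω hi, hk]))

theorem kd_ok1 {n : ℕ} (he : Rl.Is p e) (h : Cn e P Q n E q) {i : ℕ} (hi : i < n)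
    (hk : (le' n E i).2 = some 1) : lv n E (some 1) i + p.B₀ < lv n E (some 0) i := by
  obtain ⟨ω, hω⟩ := exists_om (Q := Q)
  exact (h.ok1_iff hi.le hω).1 (Rl.kd_ok he (by rw [h.kd_eq hω hi, hk]))

/-- **number of forced steps** before the end of the time -/
theorem card_frc {n : ℕ} (he : Rl.Is p e) (h : Cn e P Q n E q) (κ : Fin 2) (S : Finset ℕ)
    (hS : ∀ i ∈ S, i < n ∧ lv n E none i < p.A ∧ (le' n E i).2 = some κ ∧ (le' n E i).1 κ ≠ 4) :
    S.card ≤ n / (p.M + 1) + 1 := by
  obtain ⟨ω, hω⟩ := exists_om (Q := Q)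
  refine Rl.card_frc (P := P) he n κ ω S fun i hi => ?_
  obtain ⟨g1, g2, g3, g4⟩ := hS i hi
  refine ⟨g1, ?_, by rw [h.cnt_eq hω g1.le]; exact g2⟩
  have k1 : e.kd P i ω = some κ := by rw [h.kd_eq hω g1, g3]
  rcases Rl.kd_some k1 with k2 | ⟨_, k2⟩
  · rwa [he.frc] at k2
  · rw [h.st_eq hω g1] at k2
    exact absurd k2 g4

end Cn

end Vale.Agent.P106.U.H449
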