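import Vale.Agent.P106.U.H449.DetF2

/-!
# P106 / U / H449 : the stop index is not small (helper449)

* `n_ge` : `5 δ1 h / m ≤ n` for the path of 523's numbers (`Good.r10`), every value of the word (no hypothesis `Hyp`).
* `F2b_ge`, `tD_ge` : deterministic lower bounds of the right sides of `S3.F2o`.
-/

set_option autoImplicit false

namespace Vale.Agent.P106.U.H449.NGe

open Finset Vale.Agent.P127 Vale.Agent.P127.Stk Vale.Agent.P106.U.H565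
open Vale.Agent.P127.U.CellD (q2)
open Vale.Agent.P106.U.H823.NumW Vale.Agent.P106.U.H823.PathNum
open Vale.Agent.P106.U Vale.Agent.P106.U.H449

/-- **the stop index of a path** -/
theorem n_ge_pn (D : PN) {x : ℝ} (h1 : (D.m : ℝ) * x ≤ D.Ad) (h2 : (D.r0 : ℝ) + D.m * x ≤ D.QK) : x ≤ D.n := by
  have hm : (0 : ℝ) < D.m := by exact_mod_cast D.m1
  have hs := D.L.sum_eq D.n
  rcases D.n_spec with h | h
  · have e1 : (D.Ad : ℝ) ≤ D.m * (D.L.lev D.n : ℝ) := by exact_mod_cast h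
    have e2 : (D.L.lev D.n : ℝ) ≤ D.n := by
      exact_mod_cast (show D.L.lev D.n ≤ D.n by omega)
    have e3 : (D.m : ℝ) * x ≤ D.m * (D.n : ℝ) := (h1.trans e1).trans (mul_le_mul_of_nonneg_left e2 hm.le)
    exact le_of_mul_le_mul_left e3 hm
  · have e1 : (D.QK : ℝ) ≤ D.r0 + D.m * (D.L.k D.n : ℝ) := by exact_mod_cast h
    have e2 : (D.L.k D.n : ℝ) ≤ D.n := by
      exact_mod_cast (show D.L.k D.n ≤ D.n by omega)
    have e3 : (D.m : ℝ) * x ≤ D.m * (D.n : ℝ) := by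
      have := mul_le_mul_of_nonneg_left e2 hm.le
      linarith
    exact le_of_mul_le_mul_left e3 hm

section

variable {Ω : Type} [Fintype Ω]

/-- **the stop index of the concrete path, for every value of the word** -/
theorem n_ge (c : C2 Ω) (hC1 : 1 ≤ c.I.C1) (hδ : 0 ≤ c.I.δ1) (hδ8 : 8 * c.I.δ1 ≤ 1 / 4) :
    5 * c.I.δ1 * ((c.I.h : ℝ) / c.I.m) ≤ c.D.n := by
  have hm : (0 : ℝ) < c.I.m := by exact_mod_cast c.good.m1
  have hh0 : (0 : ℝ) ≤ c.I.h := Nat.cast_nonneg _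
  have hx0 : 0 ≤ c.I.δ1 * c.I.h := mul_nonneg hδ hh0
  have hy : 1 * (c.I.δ1 * c.I.h) ≤ c.I.C1 * (c.I.δ1 * c.I.h) := mul_le_mul_of_nonneg_right hC1 hx0
  have hz : 8 * c.I.δ1 * c.I.h ≤ 1 / 4 * c.I.h := mul_le_mul_of_nonneg_right hδ8 hh0
  refine n_ge_pn c.D ?_ ?_
  · show (c.I.m : ℝ) * (5 * c.I.δ1 * ((c.I.h : ℝ) / c.I.m)) ≤ (c.I.num.A : ℝ)
    have e1 : (c.I.m : ℝ) * (5 * c.I.δ1 * ((c.I.h : ℝ) / c.I.m)) = 5 * c.I.δ1 * c.I.h := by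
      field_simp
    have e2 := c.good.A2
    rw [e1]
    linarith
  · show (c.I.rs : ℝ) + (c.I.m : ℝ) * (5 * c.I.δ1 * ((c.I.h : ℝ) / c.I.m)) ≤ (c.I.num.QK : ℝ)
    have e1 : (c.I.m : ℝ) * (5 * c.I.δ1 * ((c.I.h : ℝ) / c.I.m)) = 5 * c.I.δ1 * c.I.h := by
      field_simp
    have e2 := c.good.QK2
    have e3 := c.good.r10
    rw [e1]
    nlinarith

variable {τ υ : Type}

/-- **lower bound of `F2b`** for a run over these numbers (in particular the run with a further letter) -/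
theorem F2b_ge (c : C2 Ω) {R : S3.Run Ω τ υ} {p : S3.Run.Num} (e1 : R.n = c.D.n) (e2 : R.m = c.I.m) (e3 : R.h = c.I.h)
    (hC1 : 1 ≤ c.I.C1) (hδ : 0 ≤ c.I.δ1) (hδ8 : 8 * c.I.δ1 ≤ 1 / 4) {B μ d : ℕ} {K' : ℝ} (hK : 0 ≤ K') :
    (c.I.h : ℝ) / B + K' * (d + 1) ^ 2 * (c.I.m + μ + 1) * q2 (μ / 8) * (5 * c.I.δ1 * ((c.I.h : ℝ) / c.I.m)) ≤
      S3.F2b R p B μ K' d := by
  have h1 := n_ge c hC1 hδ hδ8
  have h2 : 5 * c.I.δ1 * ((c.I.h : ℝ) / c.I.m) ≤ (R.n : ℝ) + p.J + 1 := by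
    rw [e1]
    have : (0 : ℝ) ≤ p.J := Nat.cast_nonneg _
    linarith
  unfold S3.F2b
  rw [e2, e3]
  have h3 : (0 : ℝ) ≤ K' * (d + 1) ^ 2 * (c.I.m + μ + 1) * q2 (μ / 8) := by
    have := Vale.Agent.P127.U.CellD.q2_pos (μ / 8)
    positivity
  linarith [mul_le_mul_of_nonneg_left h2 h3]

/-- **lower bound of the right sides of `off`, `offK`, `offP`, `offL`** -/
theorem tD_ge (c : C2 Ω) {R : S3.Run Ω τ υ} {p : S3.Run.Num} (e1 : R.n = c.D.n)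
    (hC1 : 1 ≤ c.I.C1) (hδ : 0 ≤ c.I.δ1) (hδ8 : 8 * c.I.δ1 ≤ 1 / 4) {μ d : ℕ} {K' : ℝ} :
    K' ^ 2 * (d + 1) ^ 2 * (5 * c.I.δ1 * ((c.I.h : ℝ) / c.I.m)) * q2 (μ / 4) ≤
      K' ^ 2 * (d + 1) ^ 2 * (R.n + p.J + 1) * q2 (μ / 4) := by
  have h1 := n_ge c hC1 hδ hδ8
  have h2 : 5 * c.I.δ1 * ((c.I.h : ℝ) / c.I.m) ≤ (R.n : ℝ) + p.J + 1 := by
    rw [e1]
    have : (0 : ℝ) ≤ p.J := Nat.cast_nonneg _
    linarith
  have h4 := (Vale.Agent.P127.U.CellD.q2_pos (μ / 4)).le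
  have h3 : (0 : ℝ) ≤ K' ^ 2 * (d + 1) ^ 2 := by positivity
  exact mul_le_mul_of_nonneg_right (mul_le_mul_of_nonneg_left h2 h3) h4

end

end Vale.Agent.P106.U.H449.NGe
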