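import Vale.Agent.P106.U.H449.RayRun

/-!
# P106 / U / H449 : the numbers of the ray side (helper449)

`thrc cr m = 2^(- cr m)`.

* `gU_le` : the price of the letters of the ray side is at most `η h`: `cr`, `M`, `Md` depend on `η` and on `K1` only.
* `HasU.light` : **`S3.Run.Light`** with `e = T h / m` and `κ₀ = C / m` from the field `time` with `e₂ ≤ T² h / (1600 m)`,
  `κ₂ ≤ k₂ / m`, and the weight of the words `log (1 / q) ≤ CA h / m`.
-/

set_option autoImplicit false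

namespace Vale.Agent.P106.U.H449

open Finset Vale.Agent.P127 Vale.Agent.P127.Stk Vale.Agent.P106.U.StripL
open Vale.Agent.P106.U.StripE Vale.Agent.P106.U.InsL Vale.Agent.P106.U.H823
open Vale.Agent.P106.U.H823.PathNum
open Vale.Agent.P127.U.CellD (q2 rd)
open Vale.Agent.P127.U.Mic (colp)

namespace Ray

/-- the threshold -/
noncomputable def thrc (cr : ℝ) (m : ℕ) : ℝ := Real.exp (-(cr * m * Real.log 2))

theorem thrc_pos (cr : ℝ) (m : ℕ) : 0 < thrc cr m := Real.exp_pos _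

theorem log_thrc (cr : ℝ) (m : ℕ) : Real.log (1 / thrc cr m) = cr * m * Real.log 2 := by
  unfold thrc
  rw [one_div, Real.log_inv, Real.log_exp, neg_neg]

theorem thrc_lt {cr : ℝ} (hc : 0 < cr) {m : ℕ} (hm : 1 ≤ m) : thrc cr m < 1 := by
  unfold thrc
  rw [Real.exp_lt_one_iff]
  have h1 : 0 < Real.log 2 := Real.log_pos (by norm_num)
  have h2 : (0 : ℝ) < m := by exact_mod_cast hm
  have : 0 < cr * m * Real.log 2 := by positivity
  linarith

theorem log2_lb : (1 / 2 : ℝ) < Real.log 2 := by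
  have := Real.log_two_gt_d9
  linarith

theorem log2_ub : Real.log 2 < 1 := by
  have := Real.log_two_lt_d9
  linarith

/-- `log 99 ≤ 5` -/
theorem log99 : Real.log 99 ≤ 5 := by
  have h1 : (99 : ℝ) ≤ 2 ^ 7 := by norm_num
  have h2 := Real.log_le_log (by norm_num) h1
  rw [Real.log_pow] at h2
  have := Real.log_two_lt_d9
  push_cast at h2
  linarith

theorem log3 : Real.log 3 ≤ 2 := by
  have h1 := Real.log_le_sub_one_of_pos (show (0 : ℝ) < 3 by norm_num)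
  linarith

section scalar

variable {c1 cr m h L η X M : ℝ}

theorem sc1 (hX : X ≤ c1 * (h / m)) (hc : 0 ≤ cr) (hm : 0 < m) (hL : 0 ≤ L) (hL1 : L ≤ 1) (hh : 0 ≤ h)
    (hcr : cr * c1 ≤ η / 8) (hc1 : 0 ≤ c1) : X * (cr * m * L) ≤ η / 8 * h := by
  have h1 : X * (cr * m * L) ≤ c1 * (h / m) * (cr * m * L) :=
    mul_le_mul_of_nonneg_right hX (by positivity)
  have h2 : c1 * (h / m) * (cr * m * L) = (cr * c1) * h * L := by field_simp
  rw [h2] at h1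
  have h3 : (cr * c1) * h * L ≤ (cr * c1) * h * 1 := mul_le_mul_of_nonneg_left hL1 (by positivity)
  have h4 : (cr * c1) * h ≤ η / 8 * h := mul_le_mul_of_nonneg_right hcr hh
  linarith

theorem sc2 {y : ℝ} (hy : y ≤ c1 * (h / m) / M) (hm : 6 ≤ m) (hL : 0 ≤ L) (hL1 : L ≤ 1) (hh : 0 ≤ h)
    (hc1 : 0 ≤ c1) (hM : 0 < M) (hη : 0 < η) (hM2 : 32 * c1 / η < M) :
    2 * (y + 1) * ((m + 6) * L) ≤ η / 8 * h + 4 * m := by
  have hm0 : 0 < m := by linarith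
  have h1 : (m + 6) * L ≤ 2 * m := by
    have : (m + 6) * L ≤ (m + 6) * 1 := mul_le_mul_of_nonneg_left hL1 (by linarith)
    linarith
  have h3 : 2 * (y + 1) * ((m + 6) * L) ≤ 2 * (c1 * (h / m) / M + 1) * (2 * m) :=
    mul_le_mul (by linarith) h1 (by positivity) (by positivity)
  have h4 : 2 * (c1 * (h / m) / M + 1) * (2 * m) = (4 * c1 / M) * h + 4 * m := by
    field_simp
    ring
  have h5 : 4 * c1 / M ≤ η / 8 := by
    rw [div_le_iff₀ hM]
    rw [div_lt_iff₀ hη] at hM2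
    linarith
  have h6 : (4 * c1 / M) * h ≤ η / 8 * h := mul_le_mul_of_nonneg_right h5 hh
  linarith

theorem sc3 (hX : X ≤ c1 * (h / m)) (hm : 0 < m) (hh : 0 ≤ h) (hc1 : 0 ≤ c1) (hη : 0 < η)
    (hm2 : 40 * c1 / η < m) : X * Real.log 99 ≤ η / 8 * h := by
  have h1 : X * Real.log 99 ≤ c1 * (h / m) * 5 := mul_le_mul hX log99 (Real.log_nonneg (by norm_num)) (by positivity)
  have h2 : c1 * (h / m) * 5 = (5 * c1 / m) * h := by
    field_simp
  have h3 : 5 * c1 / m ≤ η / 8 := by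
    rw [div_le_iff₀ hm]
    rw [div_lt_iff₀ hη] at hm2
    linarith
  have h4 : (5 * c1 / m) * h ≤ η / 8 * h := mul_le_mul_of_nonneg_right h3 hh
  linarith

theorem sc4 {y Md : ℝ} (hy : y ≤ c1 * (h / m) / Md) (hm : 6 ≤ m) (hL : 0 ≤ L) (hL1 : L ≤ 1) (hh : 0 ≤ h)
    (hc1 : 0 ≤ c1) (hM : 0 < M) (hMd : 0 < Md) (hη : 0 < η) (hM2 : 40 * (M + 4) * c1 / η < Md) :
    (M + 4) * (y + 1) * ((3 * m + 12) * L) ≤ η / 8 * h + 5 * (M + 4) * m := by
  have hm0 : 0 < m := by linarith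
  have h1 : (3 * m + 12) * L ≤ 5 * m := by
    have : (3 * m + 12) * L ≤ (3 * m + 12) * 1 := mul_le_mul_of_nonneg_left hL1 (by linarith)
    linarith
  have h3 : (M + 4) * (y + 1) * ((3 * m + 12) * L) ≤ (M + 4) * (c1 * (h / m) / Md + 1) * (5 * m) :=
    mul_le_mul (mul_le_mul_of_nonneg_left (by linarith) (by positivity)) h1 (by positivity) (by positivity)
  have h4 : (M + 4) * (c1 * (h / m) / Md + 1) * (5 * m) = (5 * (M + 4) * c1 / Md) * h + 5 * (M + 4) * m := by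
    field_simp
  have h5 : 5 * (M + 4) * c1 / Md ≤ η / 8 := by
    rw [div_le_iff₀ hMd]
    rw [div_lt_iff₀ hη] at hM2
    linarith
  have h6 : (5 * (M + 4) * c1 / Md) * h ≤ η / 8 * h := mul_le_mul_of_nonneg_right h5 hh
  linarith

theorem sc5 {C A x q b : ℝ} (hcm : 0 < cr * m) (hL : 1 / 2 < L) (hA : A ≤ x) (hx : 0 ≤ x) (hb : 0 ≤ b)
    (hq : q ≤ C * x) (hC : 0 ≤ C) : (b * q + A) / (cr * m * L) ≤ ((b * C + 1) * x) * (2 / (cr * m)) := by
  have b1 : b * q + A ≤ (b * C + 1) * x := by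
    have : b * q ≤ b * (C * x) := mul_le_mul_of_nonneg_left hq hb
    linarith
  have b2 : 0 ≤ (b * C + 1) * x := by positivity
  have hL0 : 0 < L := by linarith
  have b3 : 1 / (cr * m * L) ≤ 2 / (cr * m) := by
    rw [div_le_div_iff₀ (by positivity) hcm]
    have : cr * m * (1 / 2) ≤ cr * m * L := mul_le_mul_of_nonneg_left hL.le hcm.le
    linarith
  calc (b * q + A) / (cr * m * L)
      ≤ (b * C + 1) * x / (cr * m * L) := div_le_div_of_nonneg_right b1 (by positivity)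
    _ = (b * C + 1) * x * (1 / (cr * m * L)) := by ring
    _ ≤ _ := mul_le_mul_of_nonneg_left b3 b2

theorem sc6 {T x k : ℝ} (hcm : 0 < cr * m) (hx : 0 ≤ x) (h : 80 * k ≤ T * (cr * m)) :
    (k * x) * (2 / (cr * m)) ≤ T / 40 * x := by
  have c1 : k * (2 / (cr * m)) ≤ T / 40 := by
    rw [mul_div_assoc', div_le_iff₀ hcm]
    linarith
  have c3 := mul_le_mul_of_nonneg_right c1 hx
  linarith

end scalar

/-- **price of the letters of the ray side** -/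
theorem gU_le {K1 η : ℝ} (hK1 : 0 ≤ K1) (hη : 0 < η) : ∃ cr : ℝ, 0 < cr ∧ cr ≤ 1 ∧ ∃ M Md : ℕ, 1 ≤ M ∧ M + 2 ≤ Md ∧
    ∃ m0 : ℕ, ∀ m : ℕ, m0 ≤ m → ∃ h0 : ℕ, ∀ h : ℕ, h0 ≤ h → ∀ (p : Pm) (E : List (Lt 2)) (A' : ℕ), p.M = M →
      (p.n : ℝ) ≤ (2 + 2 * K1) * (h / m) → Rw p.n E 0 A' + Rw p.n E 1 A' ≤ p.n →
      HasU.gU m p E Md (thrc cr m) 3 A' ≤ η * h := by
  set c1 : ℝ := 2 + 2 * K1 with hc1
  have c10 : 0 < c1 := by positivity
  obtain ⟨M, hM⟩ := exists_nat_gt (max 1 (32 * c1 / η))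
  obtain ⟨Md, hMd⟩ := exists_nat_gt (max (M + 2 : ℝ) (40 * (M + 4) * c1 / η))
  obtain ⟨m0, hm0⟩ := exists_nat_gt (max 6 (40 * c1 / η))
  have hM1 : (1 : ℝ) < M := (le_max_left _ _).trans_lt hM
  have hM2 : 32 * c1 / η < M := (le_max_right _ _).trans_lt hM
  have hMd1 : (M + 2 : ℝ) < Md := (le_max_left _ _).trans_lt hMd
  have hMd2 : 40 * (M + 4) * c1 / η < Md := (le_max_right _ _).trans_lt hMd
  refine ⟨min 1 (η / (8 * c1)), by positivity, min_le_left _ _, M, Md, by exact_mod_cast hM1.le,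
    by exact_mod_cast hMd1.le, m0, fun m hm => ?_⟩
  set cr := min 1 (η / (8 * c1)) with hcr
  have hcr0 : 0 < cr := by positivity
  have hcr1 : cr * c1 ≤ η / 8 := by
    have h1 : cr ≤ η / (8 * c1) := min_le_right _ _
    calc cr * c1 ≤ η / (8 * c1) * c1 := mul_le_mul_of_nonneg_right h1 c10.le
      _ = η / 8 := by field_simp
  have hmr : (m0 : ℝ) ≤ m := by exact_mod_cast hm
  have hm6 : (6 : ℝ) < m := ((le_max_left _ _).trans_lt hm0).trans_le hmr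
  have hm40 : 40 * c1 / η < m := ((le_max_right _ _).trans_lt hm0).trans_le hmr
  have hmp : (0 : ℝ) < m := by linarith
  obtain ⟨h0, hh0⟩ := exists_nat_gt (8 * (2 + 4 * m + 5 * (M + 4) * m) / η)
  refine ⟨h0, fun h hh p E A' hpM hpn hRw => ?_⟩
  have hhr : (h0 : ℝ) ≤ h := by exact_mod_cast hh
  have hh1 : 2 + 4 * m + 5 * (M + 4) * m ≤ η / 8 * h := by
    have h1 : 8 * (2 + 4 * m + 5 * (M + 4) * m) / η < h := hh0.trans_le hhr
    rw [div_lt_iff₀ hη] at h1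
    linarith
  have hM0 : (0 : ℝ) < M := by linarith
  have hMd0 : (0 : ℝ) < Md := by linarith
  have hh : (0 : ℝ) ≤ h := Nat.cast_nonneg _
  have l1 := log2_lb
  have l2 := log2_ub
  set L := Real.log 2 with hL
  have L0 : 0 < L := by linarith
  unfold HasU.gU
  rw [log_thrc, ← hL, hpM]
  set T : ℝ := (tw p.n E A' : ℝ) with hT
  have hTn : T ≤ c1 * (h / m) := by
    have : (tw p.n E A' : ℝ) ≤ p.n := by exact_mod_cast Cn.tw_le A'
    linarith
  have hT0 : 0 ≤ T := Nat.cast_nonneg _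
  have hRr : ((Rw p.n E 0 A' + Rw p.n E 1 A' : ℕ) : ℝ) ≤ c1 * (h / m) := by
    have : ((Rw p.n E 0 A' + Rw p.n E 1 A' : ℕ) : ℝ) ≤ p.n := by exact_mod_cast hRw
    linarith
  have d1 : ((tw p.n E A' / (M + 1) : ℕ) : ℝ) ≤ c1 * (h / m) / M := by
    have h1 : ((tw p.n E A' / (M + 1) : ℕ) : ℝ) ≤ T / ((M + 1 : ℕ) : ℝ) := Nat.cast_div_le
    have h2 : T / ((M + 1 : ℕ) : ℝ) ≤ T / M := by
      push_cast
      exact div_le_div_of_nonneg_left hT0 hM0 (by linarith)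
    have h3 : T / M ≤ c1 * (h / m) / M := div_le_div_of_nonneg_right hTn hM0.le
    linarith
  have d2 : ((tw p.n E A' / Md : ℕ) : ℝ) ≤ c1 * (h / m) / Md := by
    have h1 : ((tw p.n E A' / Md : ℕ) : ℝ) ≤ T / (Md : ℝ) := Nat.cast_div_le
    have h3 : T / Md ≤ c1 * (h / m) / Md := div_le_div_of_nonneg_right hTn hMd0.le
    linarith
  have t1 := sc1 hRr hcr0.le hmp L0.le l2.le hh hcr1 c10.le
  have t2 := sc2 d1 hm6.le L0.le l2.le hh c10.le hM0 hη hM2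
  have t3 := sc3 hTn hmp hh c10.le hη hm40
  have t4 := sc4 d2 hm6.le L0.le l2.le hh c10.le hM0 hMd0 hη hMd2
  have t0 := log3
  have e2 : ((2 * (tw p.n E A' / (M + 1) + 1) : ℕ) : ℝ) = 2 * (((tw p.n E A' / (M + 1) : ℕ) : ℝ) + 1) := by
    push_cast
    rfl
  have e4 : (((M + 4) * (tw p.n E A' / Md + 1) : ℕ) : ℝ) = ((M : ℝ) + 4) * (((tw p.n E A' / Md : ℕ) : ℝ) + 1) := by
    push_cast
    rfl
  have e0 : Real.log ((3 : ℕ) : ℝ) = Real.log 3 := by norm_num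
  rw [e2, e4, e0]
  have hηh : 0 ≤ η * h := by positivity
  linarith

variable {Ω : Type} [Fintype Ω]

/-- number of steps of the two precisions -/
theorem Hy.Rw_le {ρ : Type} {m κ0 : ℕ} {d0 : Ld} {tW κ pp : Ω → ℝ} {ry : Ω → ρ} {Md : ℕ} {P Q : Law Ω} {p : Pm}
    {thr : ℝ} {E : List (Lt 2)} {q : ℝ} (h : Hy m κ0 d0 tW κ pp ry Md P p thr E Q q) (a : ℕ) :
    Rw p.n E 0 a + Rw p.n E 1 a ≤ p.n := by
  have h1 := h.cn.lv_sum (i := tw p.n E a) (Cn.tw_le a)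
  have h2 := Cn.tw_le (n := p.n) (E := E) a
  unfold Rw
  omega

/-- the second threshold -/
theorem eps1 {cr : ℝ} {m : ℕ} (hcm : 0 < cr * m) : ∃ ε1 : ℝ, thrc cr m < ε1 ∧ 0 < ε1 ∧
    Real.log (ε1 / thrc cr m) = cr * m * (Real.log 2 / 2) ∧ ε1 ≤ 4 / (cr * m) := by
  have l1 := log2_lb
  set L := Real.log 2 with hL
  have L0 : 0 < L := by linarith
  have ht := thrc_pos cr m
  refine ⟨Real.exp (-(cr * m * (L / 2))), ?_, Real.exp_pos _, ?_, ?_⟩
  · unfold thrc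
    rw [Real.exp_lt_exp]
    have : 0 < cr * m * L := by positivity
    linarith
  · rw [Real.log_div (Real.exp_pos _).ne' ht.ne', Real.log_exp]
    unfold thrc
    rw [Real.log_exp]
    ring
  · have h1 : cr * m * (L / 2) + 1 ≤ Real.exp (cr * m * (L / 2)) := Real.add_one_le_exp _
    rw [Real.exp_neg, ← one_div]
    have h2 : cr * m * (1 / 2) ≤ cr * m * L := mul_le_mul_of_nonneg_left l1.le hcm.le
    have h3 : cr * m / 4 ≤ Real.exp (cr * m * (L / 2)) := by linarith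
    rw [div_le_div_iff₀ (Real.exp_pos _) hcm]
    linarith

namespace HasU

variable {τ : Type} {m κ0 : ℕ} {d0 : Ld} {tW κ pp : Ω → ℝ} {ry : Ω → Vale.Agent.P106.K.Ry} {Md : ℕ}
  {P : Law Ω} {p : Pm} {cr : ℝ} {E : List (Lt 2)} {Q : Law Ω} {q : ℝ} {D : PN} {R : S3.Run Ω τ (ℤ × S1)}
  {p' : S3.Run.Num}

/-- the part `phi` -/
theorem lnum_phi (H : HasU m κ0 d0 tW κ pp ry Md P p (thrc cr m) E Q q D R p') {T CA x : ℝ}
    (hcr : 0 < cr) (hCA : 0 ≤ CA) (hx : 0 ≤ x)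
    (hm1 : 80 * ((p.M + 1) * CA + 1) ≤ T * (cr * m))
    (hm3 : 64 ≤ T * (cr * m)) (hA : (p.A : ℝ) ≤ x) (hq : Real.log (1 / q) ≤ CA * x) (δ : Type) (X : ℕ → Ω → δ) :
    ∑ i ∈ R.aF p', colp R.Q (R.fb i) (fun ω => (R.Z i ω, X i ω)) ≤
      T * x + (10 / cr) / m * ∑ i ∈ R.aF p', mi R.Q (R.fb i) (X i) (R.Z i) := by
  have l1 := log2_lb
  have hmN : 1 ≤ m := H.m1
  have hm0 : (0 : ℝ) < m := by exact_mod_cast hmN
  have hcm : 0 < cr * m := by positivity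
  obtain ⟨ε1, h1, h2, h3, h4⟩ := eps1 hcm
  have key := H.light_phi (thrc_pos cr m) h1 δ X
  rw [h3] at key
  set L := Real.log 2 with hL
  have L0 : 0 < L := by linarith
  have a1 : (p.A : ℝ) * ε1 ≤ x * (4 / (cr * m)) := mul_le_mul hA h4 h2.le hx
  have a2 : ((p.M + 1 : ℕ) * Real.log (1 / q) + p.A) / (cr * m * (L / 2)) ≤
      2 * ((((p.M + 1 : ℕ) * CA + 1) * x) * (2 / (cr * m))) := by
    have b := sc5 (b := ((p.M + 1 : ℕ) : ℝ)) hcm l1 hA hx (Nat.cast_nonneg _) hq hCA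
    have e : ((p.M + 1 : ℕ) * Real.log (1 / q) + p.A) / (cr * m * (L / 2)) =
        2 * (((p.M + 1 : ℕ) * Real.log (1 / q) + p.A) / (cr * m * L)) := by
      field_simp
    rw [e]
    linarith
  have a3 := sc6 (T := T) (k := ((p.M + 1 : ℕ) : ℝ) * CA + 1) hcm hx (by push_cast; exact hm1)
  have a4 : x * (4 / (cr * m)) ≤ T / 16 * x := by
    have : 4 / (cr * m) ≤ T / 16 := by
      rw [div_le_iff₀ hcm]
      linarith
    have := mul_le_mul_of_nonneg_left this hx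
    linarith
  have a5 : 1 / (cr * m * (L / 2)) ≤ (10 / cr) / m := by
    rw [div_div, div_le_div_iff₀ (by positivity) hcm]
    have h2 : cr * m * (1 / 2) ≤ cr * m * L := mul_le_mul_of_nonneg_left l1.le hcm.le
    linarith
  have hS : 0 ≤ ∑ i ∈ R.aF p', mi R.Q (R.fb i) (X i) (R.Z i) := Finset.sum_nonneg fun i _ => mi_nonneg R.Q _ _ _
  have a6 := mul_le_mul_of_nonneg_right a5 hS
  have hTx : 0 ≤ T * x := by
    have : 0 ≤ T := by
      by_contra hc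
      push Not at hc
      have := mul_neg_of_neg_of_pos hc hcm
      linarith
    positivity
  linarith

/-- the part `line` -/
theorem lnum_line (H : HasU m κ0 d0 tW κ pp ry Md P p (thrc cr m) E Q q D R p') {T k₂ CA x e₂ κ₂ : ℝ}
    (hT : 0 < T) (hcr : 0 < cr) (hCA : 0 ≤ CA) (hx : 0 ≤ x)
    (hm2 : 80 * ((Md + 1) * CA + 1) ≤ T * (cr * m))
    (hA : (p.A : ℝ) ≤ x) (hq : Real.log (1 / q) ≤ CA * x) (he : e₂ ≤ T ^ 2 / 1600 * x)
    (hκ0 : 0 ≤ κ₂) (hκ : κ₂ ≤ k₂ / m)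
    (htime : ∀ (δ : Type) (X : ℕ → Ω → δ), ∑ i ∈ R.aS, colp R.Q (R.tb i) (fun ω => (R.Z i ω, X i ω)) ≤
      e₂ + κ₂ * ∑ i ∈ R.aS, mi R.Q (R.tb i) (X i) (R.Z i)) (δ : Type) (X : ℕ → Ω → δ)
    (y : ℕ → (Vale.Agent.P106.K.Ry × (ℤ × S1)) × δ → ℝ × ℝ) :
    ∑ i ∈ R.aK, prE R.Q (fun ω => |R.κ ω - ((y i (R.Z i ω, X i ω)).1 + (y i (R.Z i ω, X i ω)).2 * R.tW ω)| ≤
        q2 (R.rI i + R.m)) ≤
      T * x + (10 / cr + 200 * k₂ / T) / m * ∑ i ∈ R.aK, mi R.Q (R.V i) (X i) (R.Z i) := by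
  have l1 := log2_lb
  have hmN : 1 ≤ m := H.m1
  have hm0 : (0 : ℝ) < m := by exact_mod_cast hmN
  have hcm : 0 < cr * m := by positivity
  have key := H.light_line (thrc_pos cr m) (thrc_lt hcr hmN) (δ₀ := T / 40) (by positivity) hκ0 htime δ X y
  rw [log_thrc] at key
  set L := Real.log 2 with hL
  have L0 : 0 < L := by linarith
  have a2 := sc5 (b := ((Md + 1 : ℕ) : ℝ)) hcm l1 hA hx (Nat.cast_nonneg _) hq hCA
  have a3 := sc6 (T := T) (k := ((Md + 1 : ℕ) : ℝ) * CA + 1) hcm hx (by push_cast; exact hm2)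
  have a4 : T / 40 * (p.A : ℝ) ≤ T / 40 * x := mul_le_mul_of_nonneg_left hA (by positivity)
  have a5 : e₂ / (T / 40) ≤ T / 40 * x := by
    rw [div_le_iff₀ (by positivity)]
    have e : T / 40 * x * (T / 40) = T ^ 2 / 1600 * x := by ring
    rw [e]
    exact he
  have a6 : 5 * (1 / (cr * m * L)) ≤ (10 / cr) / m := by
    rw [mul_one_div, div_div, div_le_div_iff₀ (by positivity) hcm]
    have h2 : cr * m * (1 / 2) ≤ cr * m * L := mul_le_mul_of_nonneg_left l1.le hcm.le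
    linarith
  have a7 : 5 * κ₂ / (T / 40) ≤ (200 * k₂ / T) / m := by
    have h3 : 5 * κ₂ / (T / 40) = 200 / T * κ₂ := by field_simp; ring
    rw [h3]
    calc 200 / T * κ₂ ≤ 200 / T * (k₂ / m) := mul_le_mul_of_nonneg_left hκ (by positivity)
      _ = (200 * k₂ / T) / m := by ring
  have hS : 0 ≤ ∑ i ∈ R.aK, mi R.Q (R.V i) (X i) (R.Z i) := Finset.sum_nonneg fun i _ => mi_nonneg R.Q _ _ _
  have a8 : 5 * (1 / (cr * m * L)) + 5 * κ₂ / (T / 40) ≤ (10 / cr + 200 * k₂ / T) / m := by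
    rw [add_div]
    linarith
  have a9 := mul_le_mul_of_nonneg_right a8 hS
  have hTx : 0 ≤ T * x := by positivity
  linarith

/-- **the light blocks of a run** -/
theorem light (H : HasU m κ0 d0 tW κ pp ry Md P p (thrc cr m) E Q q D R p') {T k₂ CA x e₂ κ₂ : ℝ}
    (hT : 0 < T) (hT1 : T ≤ 1) (hcr : 0 < cr) (hk : 0 ≤ k₂) (hCA : 0 ≤ CA) (hx : 0 ≤ x)
    (hm1 : 80 * ((p.M + 1) * CA + 1) ≤ T * (cr * m)) (hm2 : 80 * ((Md + 1) * CA + 1) ≤ T * (cr * m))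
    (hm3 : 64 ≤ T * (cr * m)) (hA : (p.A : ℝ) ≤ x) (hq : Real.log (1 / q) ≤ CA * x) (he : e₂ ≤ T ^ 2 / 1600 * x)
    (hκ0 : 0 ≤ κ₂) (hκ : κ₂ ≤ k₂ / m)
    (htime : ∀ (δ : Type) (X : ℕ → Ω → δ), ∑ i ∈ R.aS, colp R.Q (R.tb i) (fun ω => (R.Z i ω, X i ω)) ≤
      e₂ + κ₂ * ∑ i ∈ R.aS, mi R.Q (R.tb i) (X i) (R.Z i)) :
    R.Light p' (T * x) ((10 / cr + 200 * k₂ / T + k₂) / m) := by
  have hmN : 1 ≤ m := H.m1
  have hm0 : (0 : ℝ) < m := by exact_mod_cast hmN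
  have z1 : 0 ≤ 10 / cr := by positivity
  have z2 : 0 ≤ 200 * k₂ / T := by positivity
  refine ⟨fun δ X => ?_, fun δ X => ?_, fun δ X y => ?_⟩
  · refine (htime δ X).trans (add_le_add ?_ (mul_le_mul_of_nonneg_right ?_
      (Finset.sum_nonneg fun i _ => mi_nonneg R.Q _ _ _)))
    · refine he.trans (mul_le_mul_of_nonneg_right ?_ hx)
      nlinarith
    · exact hκ.trans (div_le_div_of_nonneg_right (by linarith) hm0.le)
  · refine (H.lnum_phi hcr hCA hx hm1 hm3 hA hq δ X).trans (add_le_add le_rfl (mul_le_mul_of_nonneg_right ?_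
      (Finset.sum_nonneg fun i _ => mi_nonneg R.Q _ _ _)))
    exact div_le_div_of_nonneg_right (by linarith) hm0.le
  · refine (H.lnum_line hT hcr hCA hx hm2 hA hq he hκ0 hκ htime δ X y).trans (add_le_add le_rfl
      (mul_le_mul_of_nonneg_right ?_ (Finset.sum_nonneg fun i _ => mi_nonneg R.Q _ _ _)))
    exact div_le_div_of_nonneg_right (by linarith) hm0.le

end HasU

end Ray

end Vale.Agent.P106.U.H449
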