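import Vale.Agent.P106.U.H449.RayR
import Vale.Agent.P106.U.H823.PathNum
import Vale.Agent.P106.U.S3.LightL

/-!
# P106 / U / H449 : the fields of the ray side of `S3.Run.Ok` (helper449)

* `Cn.sub`, `Hy.sub` : smaller laws.
* `HasU` : the run `R` has the levels of helper823's `PN` and the ray side `Ur, alr, Vr` of word 1.
* `Um Ut Uf Ua Jf JV alB alD lin prU` : the fields of `S3.Run.Ok`;  `light_phi` : the field `phi` of `S3.Run.Light`;
  `cell_aK` : the event form for the field `line`.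
-/

set_option autoImplicit false

namespace Vale.Agent.P106.U.H449

open Finset Vale.Agent.P127 Vale.Agent.P127.Stk Vale.Agent.P106.U.StripL
open Vale.Agent.P106.U.StripE Vale.Agent.P106.U.InsL Vale.Agent.P106.U.H823
open Vale.Agent.P106.U.H823.PathNum
open Vale.Agent.P127.U.CellD (q2 rd)
open Vale.Agent.P127.U.Mic (colp)

/-- a smaller law -/
theorem Cn.sub {Ω : Type} [Fintype Ω] {K : ℕ} {δ γ ζ₁ ζ₂ : Type} {e : Rl Ω K δ γ ζ₁ ζ₂} {P Q : Law Ω} {n : ℕ}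
    {E : List (Lt K)} {q : ℝ} (h : Cn e P Q n E q) {Q' : Law Ω} {q' : ℝ} (hq' : 0 < q')
    (hd : ∀ ω, q' * Q'.w ω ≤ Q.w ω) : Cn e P Q' n E (q * q') where
  hq := mul_pos h.hq hq'
  dom := fun ω => by
    calc q * q' * Q'.w ω = q * (q' * Q'.w ω) := by ring
      _ ≤ q * Q.w ω := mul_le_mul_of_nonneg_left (hd ω) h.hq.le
      _ ≤ P.w ω := h.dom ω
  hE := fun ω hω => h.hE ω ((mul_pos hq' hω).trans_le (hd ω))

namespace Ray

theorem fl_rd {k h : ℕ} (hk : k ≤ h) (x : ℝ) : fl1 k (rd h x) = fl1 k x := by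
  unfold rd
  have hp : (0 : ℝ) < 2 ^ h := by positivity
  have e : fl1 h ((fl1 h x : ℝ) / 2 ^ h) = fl1 h x := by
    conv_lhs => unfold fl1
    rw [mul_div_cancel₀ _ hp.ne', Int.floor_intCast]
    rfl
  exact Del.fl_nest hk e

variable {Ω : Type} [Fintype Ω] {ρ : Type}

section

variable {m κ0 : ℕ} {d0 : Ld} {tW κ pp : Ω → ℝ} {ry : Ω → ρ} {Md : ℕ} {P Q : Law Ω} {p : Pm} {thr : ℝ}
  {E : List (Lt 2)} {q : ℝ}

/-- a smaller law -/
theorem Hy.sub (h : Hy m κ0 d0 tW κ pp ry Md P p thr E Q q) {Q' : Law Ω} {q' : ℝ} (hq' : 0 < q')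
    (hd : ∀ ω, q' * Q'.w ω ≤ Q.w ω) : Hy m κ0 d0 tW κ pp ry Md P p thr E Q' (q * q') where
  s0 := h.s0
  a0 := h.a0
  k0 := h.k0
  in0 := h.in0
  m6 := h.m6
  good := h.good
  Md2 := h.Md2
  cn := h.cn.sub hq' hd

/-- **the own slope has one more block** -/
theorem Hy.gainF (h : Hy m κ0 d0 tW κ pp ry Md P p thr E Q q) {a b : ℕ}
    (hb : tw p.n E a + p.M + 1 ≤ tw p.n E b) (h0 : Rw p.n E 0 a < p.QF)
    (h1 : Rw p.n E 0 a < Rw p.n E 1 a + p.B₁) : Rw p.n E 0 a + 1 ≤ Rw p.n E 0 b := by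
  have hbn : tw p.n E b ≤ p.n := Cn.tw_le b
  obtain ⟨j, g1, g2, g3⟩ := Cn.gap0 (Hy.isR (m := m) (κ0 := κ0) (d0 := d0) (tW := tW) (κ := κ) (pp := pp)
    (ry := ry) (Md := Md) (P := P) (p := p) (thr := thr)) h.cn (i := tw p.n E a) (by omega) h0 h1
  have e1 := h.cn.lv_succ (some 0) (i := j) (by omega)
  rw [g3, if_pos rfl] at e1
  have e2 := h.cn.lv_mono (some 0) g1 (by omega)
  have e3 := h.cn.lv_mono (some 0) (show j + 1 ≤ tw p.n E b by omega) hbn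
  unfold Rw
  omega

end

/-- **the run has the ray side of word 1** -/
structure HasU {τ : Type} (m κ0 : ℕ) (d0 : Ld) (tW κ pp : Ω → ℝ) (ry : Ω → Vale.Agent.P106.K.Ry) (Md : ℕ)
    (P : Law Ω) (p : Pm) (thr : ℝ) (E : List (Lt 2)) (Q : Law Ω) (q : ℝ) (D : PN) (R : S3.Run Ω τ (ℤ × S1))
    (p' : S3.Run.Num) : Prop where
  hy : Hy m κ0 d0 tW κ pp ry Md P p thr E Q q
  has : Has D R p'
  κ2 : 2 ≤ κ0
  Dm : D.m = m
  Dr : D.r0 = m * (κ0 - 2)
  Do : D.o = 2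
  DF : D.F = Rw p.n E 0
  DI : D.I = Rw p.n E 1
  DA : D.A = p.A
  DQ : D.QF = p.QF
  DB₁ : D.B₁ = p.B₁
  DB₀ : p.B₀ = 0
  J : (3 + D.s) * (Md + 1) ≤ p'.J
  /-- 823's `tw_gap` -/
  gap : ∀ i j, D.L.kd i = 0 → i ≤ j → D.L.lev j ≤ p.A →
    (j - i) + (3 + D.s) * tw p.n E (D.L.lev i) ≤ (3 + D.s) * tw p.n E (D.L.lev j)
  eh : ∀ ω, tW ω = rd R.h (R.t ω)
  eQ : R.Q = Q
  ery : R.ry = ry
  eκ : R.κ = κ
  ep : R.C.p = pp
  eU : R.U = fun i => Ur m κ0 d0 tW κ pp ry Md P p thr p.n E (D.li i)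
  eal : R.al = fun i => alr m κ0 d0 tW κ pp ry Md P p thr p.n E (D.li i)
  eV : R.V = fun i => Vr m κ0 d0 tW κ pp ry Md P p thr p.n E (D.li i)

namespace HasU

variable {τ : Type} {m κ0 : ℕ} {d0 : Ld} {tW κ pp : Ω → ℝ} {ry : Ω → Vale.Agent.P106.K.Ry} {Md : ℕ}
  {P : Law Ω} {p : Pm} {thr : ℝ} {E : List (Lt 2)} {Q : Law Ω} {q : ℝ} {D : PN} {R : S3.Run Ω τ (ℤ × S1)}
  {p' : S3.Run.Num} (H : HasU m κ0 d0 tW κ pp ry Md P p thr E Q q D R p')

include H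

theorem li_lt (i : ℕ) : D.li i < p.A := by
  rw [← H.DA]
  exact H.has.levN i

theorem ra (i : ℕ) : R.C.a i = m * D.li i := by
  rw [H.has.a, ← H.Dm]
  rfl

theorem rI (i : ℕ) : R.rI i = m * Ir κ0 p.n E (D.li i) := by
  rw [H.has.rI]
  unfold PN.lI Ir
  rw [H.Dr, H.Dm, H.Do, H.DI, ← Nat.mul_add]
  have := H.κ2
  congr 1
  omega

theorem rf_le (i : ℕ) : ∃ j, R.C.rf i = m * j ∧ j ≤ Fr κ0 p.n E (D.li i) := by
  refine ⟨κ0 - 2 + D.L.f (D.ix i), ?_, ?_⟩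
  · rw [H.has.rf]
    unfold PN.lf
    rw [H.Dr, H.Dm, ← Nat.mul_add]
  · have h1 : D.L.f (D.ix i) ≤ D.F (D.L.lev (D.ix i)) + D.o := D.L.f_le _
    rw [H.DF, H.Do] at h1
    unfold Fr PN.li
    have := H.κ2
    omega

/-- at the steps of the time -/
theorem rf_A {i : ℕ} (hi : i < D.N) (hA : R.IsA i) : R.C.rf i = m * Fr κ0 p.n E (D.li i) := by
  obtain ⟨h1, -⟩ := H.has.lev_of_isA hi hA
  rw [H.has.rf, D.lf_eq hi.le, h1, H.Dr, H.Dm, H.Do, H.DF, ← Nat.mul_add, D.li_eq hi.le]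
  unfold Fr
  have := H.κ2
  congr 1
  omega

theorem m1 : 1 ≤ m := by have := H.hy.m6; omega

theorem Zeq (i : ℕ) : R.Z i = fun ω => (ry ω, Ur m κ0 d0 tW κ pp ry Md P p thr p.n E (D.li i) ω) := by
  funext ω
  unfold S3.Run.Z
  rw [H.ery, H.eU]

theorem Um (i j : ℕ) (hij : i ≤ j) : Fn R.Q (R.Z i) (R.Z j) := by
  rw [H.Zeq, H.Zeq]
  exact Hy.Um (D.li_mono hij)

theorem Ut (i : ℕ) : Fn R.Q (fun ω => fl1 (R.C.a i) (R.t ω)) (R.Z i) := by
  rw [H.Zeq, H.eQ]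
  have h1 := H.hy.Ut (a := D.li i) (H.li_lt i).le
  have h2 : m * D.li i ≤ R.h := by
    have e1 := D.lev_N i
    have e2 := H.has.Ah
    rw [H.has.A, H.has.J] at e2
    rw [← H.ra i, H.has.a]
    omega
  intro ω ω' hω hω' e
  have h3 := h1 ω ω' hω hω' e
  simp only at h3 ⊢
  rw [H.eh, H.eh, fl_rd h2, fl_rd h2] at h3
  rw [H.ra]
  exact h3

theorem Uf (i : ℕ) : Fn R.Q (fun ω => fl1 (R.C.rf i) (R.C.p ω)) (R.Z i) := by
  rw [H.Zeq, H.eQ]
  obtain ⟨j, h1, h2⟩ := H.rf_le i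
  rw [h1, H.ep]
  exact H.hy.Uf h2

theorem Ua (i : ℕ) : Fn R.Q (R.al i) (R.Z i) := by
  rw [H.Zeq, H.eQ, H.eal]
  exact Hy.Ua _

/-- levels of word 1 after `J` steps -/
theorem tw_J {i : ℕ} (hi : i < R.n) (hA : R.IsA i) :
    tw p.n E (D.li i) + (Md + 1) ≤ tw p.n E (D.li (i + p'.J)) := by
  have hN := H.has.N
  have h1 : i + p'.J ≤ D.N := by omega
  have h2 := H.gap i (i + p'.J) ((H.has.isA (by omega)).1 hA) (Nat.le_add_right _ _)
    (by rw [← D.li_eq h1]; exact (H.li_lt _).le)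
  rw [← D.li_eq h1, ← D.li_eq (i := i) (by omega), Nat.add_sub_cancel_left] at h2
  have h3 := H.J
  have h4 : (3 + D.s) * (tw p.n E (D.li i) + (Md + 1)) ≤ (3 + D.s) * tw p.n E (D.li (i + p'.J)) := by
    rw [Nat.mul_add]
    omega
  exact Nat.le_of_mul_le_mul_left h4 (by omega)

theorem B₁' : p'.B₁ = m * p.B₁ := by rw [H.has.B₁, H.Dm, H.DB₁]

theorem QF' : p'.QF = m * (κ0 + p.QF) := by
  rw [H.has.QF, H.Dr, H.Dm, H.Do, H.DQ, ← Nat.mul_add]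
  have := H.κ2
  congr 1
  omega

theorem fb_eq {i : ℕ} (hi : i < R.n) (hA : R.IsA i) :
    R.fb i = fun ω => fl1 (m * (Fr κ0 p.n E (D.li i) + 1)) (pp ω) := by
  have hN := H.has.N
  funext ω
  unfold S3.Run.fb
  rw [H.rf_A (by omega) hA, H.ep, H.has.m, H.Dm, Nat.mul_add, Nat.mul_one]

/-- a `φ`-step is allowed -/
theorem okF {i : ℕ} (hi : i < R.n) (hA : R.IsA i) (h1 : R.C.rf i < p'.QF) (h2 : R.C.rf i < R.rI i + p'.B₁) :
    Rw p.n E 0 (D.li i) < p.QF ∧ Rw p.n E 0 (D.li i) < Rw p.n E 1 (D.li i) + p.B₁ := by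
  have hN := H.has.N
  have e := H.rf_A (by omega) hA
  rw [e, H.QF'] at h1
  rw [e, H.rI, H.B₁', ← Nat.mul_add] at h2
  have h3 := Nat.lt_of_mul_lt_mul_left h1
  have h4 := Nat.lt_of_mul_lt_mul_left h2
  unfold Fr at h3 h4
  unfold Ir at h4
  omega

/-- a line step is allowed -/
theorem okL {i : ℕ} (hi : i < R.n) (hA : R.IsA i) (h1 : R.rI i < R.C.rf i) :
    Rw p.n E 1 (D.li i) + p.B₀ < Rw p.n E 0 (D.li i) := by
  have hN := H.has.N
  have e := H.rf_A (by omega) hA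
  rw [e, H.rI] at h1
  have h3 := Nat.lt_of_mul_lt_mul_left h1
  unfold Fr Ir at h3
  rw [H.DB₀]
  omega

theorem Jf (i : ℕ) (hi : i < R.n) (hA : R.IsA i) (h1 : R.C.rf i < p'.QF) (h2 : R.C.rf i < R.rI i + p'.B₁) :
    Fn R.Q (R.fb i) (R.Z (i + p'.J)) := by
  obtain ⟨k1, k2⟩ := H.okF hi hA h1 h2
  have k3 := H.tw_J hi hA
  have k4 := H.hy.gainF (a := D.li i) (b := D.li (i + p'.J))
    (by have := H.hy.Md2; omega) k1 k2
  rw [H.Zeq, H.eQ, H.fb_eq hi hA]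
  refine H.hy.Uf ?_
  unfold Fr
  omega

theorem JV (i : ℕ) (hi : i < R.n) (hA : R.IsA i) : Fn R.Q (R.V i) (R.Z (i + p'.J)) := by
  have k3 := H.tw_J hi hA
  rw [H.Zeq, H.eQ, H.eV]
  exact H.hy.JV (by omega) (H.li_lt i)

theorem alB {K : ℝ} (hK : |d0.al| + 1 ≤ K) (i : ℕ) (ω : Ω) (hω : 0 < R.Q.w ω) :
    |R.al i ω| * q2 (R.C.a i) ≤ K := by
  rw [H.eal, H.ra]
  exact (H.hy.alB (H.li_lt i).le H.κ2 (by rw [← H.eQ]; exact hω)).trans hK

theorem alD {K : ℝ} (hK : 4 ≤ K) (i j : ℕ) (hij : i ≤ j) (ω : Ω) (hω : 0 < R.Q.w ω) :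
    |R.al j ω - R.al i ω| * q2 (R.C.a j + R.m) ≤ K * q2 (R.rI i) := by
  have h1 := H.hy.alD (D.li_mono hij) (H.li_lt j).le (ω := ω) (by rw [← H.eQ]; exact hω)
  have e1 : R.m = m := by rw [H.has.m, H.Dm]
  have e2 : q2 (m * D.li j + m) = q2 (m * D.li j) * q2 m := Vale.Agent.P127.U.CellD.q2_add _ _
  have e3 : (2 : ℝ) ^ (m + 2) * q2 m = 4 := by
    unfold q2
    rw [pow_add, div_pow, one_pow]
    field_simp
    norm_num
  rw [H.eal, H.ra, H.rI, e1, e2]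
  have hq := (Vale.Agent.P127.U.CellD.q2_pos m).le
  have h2 := mul_le_mul_of_nonneg_right h1 hq
  calc _ = |alr m κ0 d0 tW κ pp ry Md P p thr p.n E (D.li j) ω -
        alr m κ0 d0 tW κ pp ry Md P p thr p.n E (D.li i) ω| * q2 (m * D.li j) * q2 m := by ring
    _ ≤ 2 ^ (m + 2) * q2 (m * Ir κ0 p.n E (D.li i)) * q2 m := h2
    _ = (2 ^ (m + 2) * q2 m) * q2 (m * Ir κ0 p.n E (D.li i)) := by ring
    _ = 4 * q2 (m * Ir κ0 p.n E (D.li i)) := by rw [e3]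
    _ ≤ _ := mul_le_mul_of_nonneg_right hK (Vale.Agent.P127.U.CellD.q2_pos _).le

theorem tWe (ω : Ω) : R.tW ω = tW ω := by
  rw [H.eh]
  rfl

theorem lin {K : ℝ} (hK : 2 ≤ K) (i : ℕ) (ω ω' : Ω) (hω : 0 < R.Q.w ω) (e : R.Z i ω = R.Z i ω') :
    |R.κ ω' - R.κ ω + R.al i ω * (R.tW ω' - R.tW ω)| ≤ K * q2 (R.rI i) := by
  rw [H.Zeq] at e
  have h1 := H.hy.lin (a := D.li i) (ω := ω) (ω' := ω') (by rw [← H.eQ]; exact hω) (Prod.mk.inj e).2
  rw [H.eκ, H.eal, H.tWe, H.tWe, H.rI]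
  exact h1.trans (mul_le_mul_of_nonneg_right hK (Vale.Agent.P127.U.CellD.q2_pos _).le)

omit H [Fintype Ω] in
theorem lev (D : PN) : Lev D.li where
  z := by
    rw [D.li_eq (Nat.zero_le _)]
    exact D.L.lev_zero
  s := fun i => by
    rcases Nat.lt_or_ge i D.N with h | h
    · rw [D.li_eq h.le, D.li_eq (i := i + 1) h]
      have := D.L.lev_succ_le i
      omega
    · left
      unfold PN.li PN.ix
      rw [min_eq_right h, min_eq_right (by omega)]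

/-- the price -/
noncomputable def gU (m : ℕ) (p : Pm) (E : List (Lt 2)) (Md : ℕ) (thr : ℝ) (NS A' : ℕ) : ℝ :=
  Real.log NS + (((Rw p.n E 0 A' + Rw p.n E 1 A' : ℕ) : ℝ) * Real.log (1 / thr) +
        (2 * (tw p.n E A' / (p.M + 1) + 1) : ℕ) * ((m + 6 : ℝ) * Real.log 2) +
        ((tw p.n E A' : ℕ) * Real.log 99 +
          ((p.M + 4) * (tw p.n E A' / Md + 1) : ℕ) * ((3 * m + 12 : ℝ) * Real.log 2)))

theorem prU (ht0 : 0 < thr) (ht1 : thr ≤ 1) {SP : Finset ℤ}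
    (hph : ∀ j ω, 0 < Q.w ω → phB m κ0 pp j ω ∈ SP) (hSP : SP.card ≤ 2 ^ (m + 6)) {NS : ℕ}
    (hNS : Few Q (fun ω => fl1 (m * κ0) (pp ω)) ry NS) :
    Stk.hc R.Q (R.U 0) R.ry + ∑ i ∈ range (R.n + p'.J), Stk.hc R.Q (R.U (i + 1))
      (fun ω => (R.Z i ω, fl1 (R.C.a (i + 1)) (R.t ω))) ≤ gU m p E Md thr NS (p.A - 1) := by
  have hA0 : D.li (R.n + p'.J) < p.A := H.li_lt _
  have key := H.hy.prU_run ht0 ht1 (lev D) (N := R.n + p'.J) (A' := p.A - 1) (by omega) (by omega) hph hSP hNS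
  rw [H.eQ, H.ery]
  refine le_trans (add_le_add ?_ (Finset.sum_le_sum fun i hi => ?_)) key
  · rw [H.eU]
  · have e1 := H.ra (i + 1)
    have h2 : m * D.li (i + 1) ≤ R.h := by
      have e1 := D.lev_N (i + 1)
      have e2 := H.has.Ah
      rw [H.has.A, H.has.J] at e2
      rw [← H.ra, H.has.a]
      omega
    rw [H.eU]
    refine hc_mono_right Q _ fun ω ω' _ _ e => ?_
    have h3 := (Prod.mk.inj e).1
    have h4 := (Prod.mk.inj e).2
    rw [H.Zeq] at h3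
    rw [e1] at h4
    refine Prod.ext h3 ?_
    show fl1 (m * D.li (i + 1)) (tW ω) = fl1 (m * D.li (i + 1)) (tW ω')
    rw [H.eh, H.eh, fl_rd h2, fl_rd h2]
    exact h4

/-! ### Light blocks -/

omit H in
theorem sub_li {A : Finset ℕ} (hA : A ⊆ R.aS) : ∀ i ∈ A, i < R.n ∧ R.IsA i := fun i hi => by
  classical
  have h1 := hA hi
  unfold S3.Run.aS at h1
  obtain ⟨h2, h3⟩ := mem_filter.1 h1
  exact ⟨mem_range.1 h2, h3⟩

theorem li_succ {i : ℕ} (hA : R.IsA i) : D.li (i + 1) = D.li i + 1 := by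
  unfold S3.Run.IsA at hA
  have e1 : R.m = m := by rw [H.has.m, H.Dm]
  rw [H.ra, H.ra, e1] at hA
  have h2 : m * D.li (i + 1) = m * (D.li i + 1) := by rw [hA]; ring
  exact Nat.eq_of_mul_eq_mul_left (by have := H.m1; omega) h2

/-- number of time steps -/
theorem card_aS : R.aS.card ≤ p.A := by
  classical
  have hinj := (lev D).inj (A := R.aS) fun i hi =>
    H.li_succ (sub_li (Finset.Subset.refl _) i hi).2
  rw [← Finset.card_image_of_injOn hinj]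
  refine (Finset.card_le_card (t := range p.A) fun a ha => ?_).trans (by rw [card_range])
  obtain ⟨i, -, rfl⟩ := mem_image.1 ha
  exact mem_range.2 (H.li_lt i)

/-- **the field `phi` of `Light`** -/
theorem light_phi (ht : 0 < thr) {ε : ℝ} (hε : thr < ε) (δ : Type) (X : ℕ → Ω → δ) :
    ∑ i ∈ R.aF p', colp R.Q (R.fb i) (fun ω => (R.Z i ω, X i ω)) ≤
      (p.A * ε + ((p.M + 1 : ℕ) * Real.log (1 / q) + p.A) / Real.log (ε / thr)) +
        1 / Real.log (ε / thr) * ∑ i ∈ R.aF p', mi R.Q (R.fb i) (X i) (R.Z i) := by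
  classical
  have hL : 0 < Real.log (ε / thr) := Real.log_pos (by rwa [one_lt_div ht])
  have hsub : R.aF p' ⊆ R.aS := by unfold S3.Run.aF; exact Finset.filter_subset _ _
  have hF : ∀ i ∈ R.aF p', R.C.rf i < p'.QF ∧ R.C.rf i < R.rI i + p'.B₁ := fun i hi => by
    unfold S3.Run.aF at hi
    exact (mem_filter.1 hi).2
  have key := H.hy.phi_run ht hε (lev D) (R.aF p') (fun i hi => by
    obtain ⟨h1, h2⟩ := sub_li hsub i hi
    obtain ⟨h3, h4⟩ := hF i hi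
    exact ⟨H.li_succ h2, H.li_lt i, H.okF h1 h2 h3 h4⟩) X
  have hc : ((R.aF p').card : ℝ) ≤ p.A := by
    exact_mod_cast (Finset.card_le_card hsub).trans H.card_aS
  have e1 : ∀ i ∈ R.aF p', R.fb i = fun ω => fl1 (m * (Fr κ0 p.n E (D.li i) + 1)) (pp ω) := fun i hi =>
    H.fb_eq (sub_li hsub i hi).1 (sub_li hsub i hi).2
  have hε0 : 0 < ε := ht.trans hε
  have h5 : ((R.aF p').card * ε + ((p.M + 1 : ℕ) * Real.log (1 / q) + (R.aF p').card) / Real.log (ε / thr)) ≤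
      (p.A * ε + ((p.M + 1 : ℕ) * Real.log (1 / q) + p.A) / Real.log (ε / thr)) := by
    refine add_le_add (mul_le_mul_of_nonneg_right hc hε0.le) ?_
    exact div_le_div_of_nonneg_right (by linarith) hL.le
  refine le_trans (le_of_eq (Finset.sum_congr rfl fun i hi => ?_)) (key.trans (add_le_add h5 (le_of_eq ?_)))
  · rw [e1 i hi, H.eQ, H.Zeq]
  · congr 1
    exact Finset.sum_congr rfl fun i hi => by rw [e1 i hi, H.eQ, H.Zeq]

/-- no net line has mass at the steps `aK` -/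
theorem cell_aK (ht : 0 < thr) (ht1 : thr < 1) (δ : Type) (X : ℕ → Ω → δ)
    (s : ℕ → (Vale.Agent.P106.K.Ry × (ℤ × S1)) × δ → ℤ × ℤ) :
    ∑ i ∈ R.aK, prE R.Q (fun ω => inc R.m (s i (R.Z i ω, X i ω)) (R.V i ω)) ≤
      ((Md + 1 : ℕ) * Real.log (1 / q) + p.A) / Real.log (1 / thr) +
        1 / Real.log (1 / thr) * ∑ i ∈ R.aK, mi R.Q (R.V i) (X i) (R.Z i) := by
  classical
  have hL : 0 < Real.log (1 / thr) := Real.log_pos (by rwa [one_lt_div ht])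
  have hsub : R.aK ⊆ R.aS := by unfold S3.Run.aK; exact Finset.filter_subset _ _
  have hF : ∀ i ∈ R.aK, R.rI i < R.C.rf i := fun i hi => by
    unfold S3.Run.aK at hi
    exact (mem_filter.1 hi).2
  have key := H.hy.cell_run ht ht1 (lev D) R.aK (fun i hi => by
    obtain ⟨h1, h2⟩ := sub_li hsub i hi
    exact ⟨H.li_succ h2, H.li_lt i, H.okL h1 h2 (hF i hi)⟩) X s
  have hc : (R.aK.card : ℝ) ≤ p.A := by
    exact_mod_cast (Finset.card_le_card hsub).trans H.card_aS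
  have e1 : R.m = m := by rw [H.has.m, H.Dm]
  have h5 : ((Md + 1 : ℕ) * Real.log (1 / q) + R.aK.card) / Real.log (1 / thr) ≤
      ((Md + 1 : ℕ) * Real.log (1 / q) + p.A) / Real.log (1 / thr) :=
    div_le_div_of_nonneg_right (by linarith) hL.le
  refine le_trans (le_of_eq (Finset.sum_congr rfl fun i hi => ?_)) (key.trans (add_le_add h5 (le_of_eq ?_)))
  · rw [e1, H.eQ, H.Zeq, H.eV]
  · congr 1
    exact Finset.sum_congr rfl fun i hi => by rw [H.eQ, H.Zeq, H.eV]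

/-- **the field `line` of `Light`**, from the time (helper404's `line_of`) -/
theorem light_line (ht : 0 < thr) (ht1 : thr < 1) {e₂ κ₂ δ₀ : ℝ} (hδ : 0 < δ₀) (hκ₂ : 0 ≤ κ₂)
    (htime : ∀ (δ : Type) (X : ℕ → Ω → δ), ∑ i ∈ R.aS, colp R.Q (R.tb i) (fun ω => (R.Z i ω, X i ω)) ≤
      e₂ + κ₂ * ∑ i ∈ R.aS, mi R.Q (R.tb i) (X i) (R.Z i)) (δ : Type) (X : ℕ → Ω → δ)
    (x : ℕ → (Vale.Agent.P106.K.Ry × (ℤ × S1)) × δ → ℝ × ℝ) :
      ∑ i ∈ R.aK, prE R.Q (fun ω => |R.κ ω - ((x i (R.Z i ω, X i ω)).1 + (x i (R.Z i ω, X i ω)).2 * R.tW ω)| ≤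
        q2 (R.rI i + R.m)) ≤
        (5 * (((Md + 1 : ℕ) * Real.log (1 / q) + p.A) / Real.log (1 / thr)) + 5 * (δ₀ * p.A + e₂ / δ₀)) +
          (5 * (1 / Real.log (1 / thr)) + 5 * κ₂ / δ₀) * ∑ i ∈ R.aK, mi R.Q (R.V i) (X i) (R.Z i) := by
  classical
  have hsub : R.aK ⊆ R.aS := by unfold S3.Run.aK; exact Finset.filter_subset _ _
  have hF : ∀ i ∈ R.aK, R.rI i < R.C.rf i := fun i hi => by
    unfold S3.Run.aK at hi
    exact (mem_filter.1 hi).2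
  have eM : R.m = m := by rw [H.has.m, H.Dm]
  have e2 : ∀ i ω, (R.Z i ω).2.2 = (e1 m κ0 d0 tW κ pp ry Md P p thr).T P (tw p.n E (D.li i)) ω := by
    intro i ω
    rw [H.Zeq]
    rfl
  have hm1 := H.m1
  have hc : (R.aK.card : ℝ) ≤ p.A := by
    exact_mod_cast (Finset.card_le_card hsub).trans H.card_aS
  have key := R.line_of (path H.has) (fun _ z => ld m d0 z.2.2)
    (fun i hi ω hω => by
      simp only [e2]
      rw [H.eQ] at hω
      rw [ld_k, H.hy.cnt_R 1 hω, H.hy.k0, H.rI, ← Nat.mul_add]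
      rfl)
    (fun i hi ω hω => by
      simp only [e2]
      rw [H.eQ] at hω
      rw [ld_a, H.hy.cnt_none (H.li_lt i).le hω, H.hy.a0, H.ra, Nat.zero_add])
    (fun i hi ω hω => by
      simp only [e2]
      rw [H.eQ] at hω
      have h1 := s0_T (P := P) H.hy.isL' (tw p.n E (D.li i)) ω
      rw [H.hy.cnt_none (H.li_lt i).le hω] at h1
      rw [h1, H.ra]
      unfold tR
      rw [H.hy.s0, H.hy.a0, Nat.zero_add, zero_add]
      exact ⟨_, rfl⟩)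
    (fun i hi ω hω => by
      simp only [e2]
      rw [H.tWe, H.eκ]
      exact in_T H.hy.isL' (tw p.n E (D.li i)) ω)
    (fun i hi ω hω => by
      simp only [e2]
      obtain ⟨h1, h2⟩ := sub_li hsub i hi
      rw [H.eV, H.tWe, H.eκ, eM]
      exact if_pos (H.okL h1 h2 (hF i hi)))
    hδ hκ₂ (fun δ X s => H.cell_aK ht ht1 δ X s) htime δ X x
  refine key.trans (add_le_add (add_le_add le_rfl ?_) le_rfl)
  have := mul_le_mul_of_nonneg_left hc hδ.le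
  linarith

end HasU

end Ray

end Vale.Agent.P106.U.H449
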