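import Vale.Agent.P106.U.H449.Full
import Vale.Agent.P106.U.H449.RayRun
import Vale.Agent.P106.U.H465.FWn

/-!
# P106 / U / H449 : the start strip of word 1 from the normal form (helper449)

`Nrm .. P l t L h q r0 W S`, `ν = (- sin θ, cos θ)`; `tW = qa h t`, `κ = (FW θ h W t).ka = - W.κ`, own slope
`pp = pW θ h W l t` (helper465).

* `sgn` : the sign of `SlbOk.frm` is constant on the support.
* `dS` : start strip; `in_dS` : the points are in the strip, at every point (after `Full.full`).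
* `fewS` : at most `3` values of `fl1 (m κ0) pp` given the ray.
* `phB_mem` : the blocks of a number are in `[0, 2^m)`.
* `hy` : `Ray.Hy` for the law of word 1.
-/

set_option autoImplicit false

namespace Vale.Agent.P106.U.H449

open Finset Vale.Agent.P127 Vale.Agent.P127.Stk Vale.Agent.P127.U Vale.Agent.P106.W
open Vale.Agent.P106.K (Ry RyOk bl Bin)
open Vale.Agent.P106.U.H61 Vale.Agent.P106.U.H786 Vale.Agent.P106.U.H786.Adp Vale.Agent.P106.U.H465.FWn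
open Vale.Agent.P106.U.H428 (nv nv_sub nrm_eq)
open Vale.Agent.P106.U.StripL Vale.Agent.P106.U.H823
open Vale.Agent.P122.C2 (fw fn)
open Vale.Agent.P127.U.CellD (rd q2)

namespace Start

variable {Ω : Type} [Fintype Ω] {K0 K1 lam N k β d : ℝ} {Rm L h q r0 : ℕ} {P : Law Ω} {l : Ω → Ry} {t : Ω → ℝ}
  {W : Ω → Cbx} {S : Cbx}

/-- the normal of `S` changes slowly -/
theorem nrm_dist {S : Cbx} (h1 : |S.α| ≤ 1 / 8) (h2 : |S.κ| ≤ 1 / 8) {l l' : Ry} (hl : RyOk l) (hl' : RyOk l')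
    (k : Fin 2) : |nrm S l k - nrm S l' k| ≤ 3 / 4 := by
  rw [nrm_eq, nrm_eq, nv_sub S l l' k]
  have e : nv S l' k + S.κ * (l.s k - l'.s k) - 2 * S.α * (l.y k - l'.y k) - nv S l' k =
      S.κ * (l.s k - l'.s k) - 2 * S.α * (l.y k - l'.y k) := by ring
  rw [e]
  have a1 : |l.s k - l'.s k| ≤ 2 := by
    have := abs_sub (l.s k) (l'.s k)
    have := hl.2.1 k
    have := hl'.2.1 k
    linarith
  have a2 : |l.y k - l'.y k| ≤ 2 := by
    have := abs_sub (l.y k) (l'.y k)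
    have := hl.1 k
    have := hl'.1 k
    linarith
  refine (abs_sub _ _).trans ?_
  rw [abs_mul, abs_mul, abs_mul, abs_two]
  have b1 : |S.κ| * |l.s k - l'.s k| ≤ 1 / 8 * 2 := mul_le_mul h2 a1 (abs_nonneg _) (by norm_num)
  have b2 : 2 * |S.α| * |l.y k - l'.y k| ≤ 2 * (1 / 8) * 2 :=
    mul_le_mul (by linarith) a2 (abs_nonneg _) (by norm_num)
  linarith

/-- **the sign is constant** -/
theorem sgn (H : Nrm K0 K1 Rm lam N k β d P l t L h q r0 W S) (hRm : 5 ≤ Rm)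
    (hK : K0 * (1 / 2 : ℝ) ^ r0 ≤ 1 / 16) (hq : 3 ≤ q) :
    ∃ σ : ℝ, (σ = 1 ∨ σ = -1) ∧ ∀ ω, 0 < P.w ω →
      (∀ k, |nrm (W ω) (bl h (l ω) (t ω)) k - σ * nrm S (l ω) k| ≤ K0 * (1 / 2 : ℝ) ^ r0) ∧
      |(W ω).κ - σ * (S.κ + 2 * qa h (t ω) * S.α)| ≤ K0 * (1 / 2 : ℝ) ^ r0 := by
  obtain ⟨ω0, h0⟩ : ∃ ω, 0 < P.w ω := by
    by_contra hcon
    push Not at hcon
    have : (1 : ℝ) ≤ 0 := by
      rw [← P.sum_one]
      exact Finset.sum_nonpos fun ω _ => hcon ω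
    linarith
  obtain ⟨ν, ρ, hν, hρ, hn⟩ := H.nu
  obtain ⟨σ, hσ, f1, f2⟩ := (H.slb ω0 h0).frm
  refine ⟨σ, hσ, fun ω hω => ?_⟩
  obtain ⟨σ', hσ', g1, g2⟩ := (H.slb ω hω).frm
  by_cases he : σ' = σ
  · rw [← he]
    exact ⟨g1, g2⟩
  exfalso
  have hne : σ' = -σ := by
    rcases hσ with rfl | rfl <;> rcases hσ' with rfl | rfl <;> simp at he ⊢
  have hR : (1 / 2 : ℝ) ^ Rm ≤ 1 / 32 := by
    calc (1 / 2 : ℝ) ^ Rm ≤ (1 / 2 : ℝ) ^ 5 := pow_le_pow_of_le_one (by norm_num) (by norm_num) hRm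
      _ = 1 / 32 := by norm_num
  have hq8 : (1 / 2 : ℝ) ^ q ≤ 1 / 8 := by
    calc (1 / 2 : ℝ) ^ q ≤ (1 / 2 : ℝ) ^ 3 := pow_le_pow_of_le_one (by norm_num) (by norm_num) hq
      _ = 1 / 8 := by norm_num
  have hρ1 : 99 / 100 ≤ ρ := by
    have := (abs_le.1 hρ).1
    nlinarith
  -- one coordinate of `ν` is large
  have key : ∀ k, ρ * |ν k| ≤ 1 / 2 := by
    intro k
    have c1 := f1 k
    have c2 := g1 k
    have c3 := hn ω0 h0 k
    have c4 := hn ω hω k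
    have c5 := nrm_dist (S := S) (H.slb ω hω).α8 (H.slb ω hω).κ8 (H.nex.ok ω hω).1 (H.nex.ok ω0 h0).1 k
    rw [hne] at c2
    have e1 : |σ| = 1 := by rcases hσ with rfl | rfl <;> simp
    have e2 : 2 * (ρ * ν k) = σ * (nrm S (l ω0) k - nrm S (l ω) k) +
        (nrm (W ω0) (bl h (l ω0) (t ω0)) k - σ * nrm S (l ω0) k) +
        (nrm (W ω) (bl h (l ω) (t ω)) k - -σ * nrm S (l ω) k) -
        (nrm (W ω0) (bl h (l ω0) (t ω0)) k - ρ * ν k) - (nrm (W ω) (bl h (l ω) (t ω)) k - ρ * ν k) := by ring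
    have e3 : |2 * (ρ * ν k)| ≤ 3 / 4 + 1 / 16 + 1 / 16 + 1 / 32 + 1 / 32 := by
      rw [e2]
      have d1 : |σ * (nrm S (l ω0) k - nrm S (l ω) k)| ≤ 3 / 4 := by
        rw [abs_mul, e1, one_mul, abs_sub_comm]
        exact c5
      refine (abs_sub _ _).trans ?_
      have d2 := abs_sub (σ * (nrm S (l ω0) k - nrm S (l ω) k) +
        (nrm (W ω0) (bl h (l ω0) (t ω0)) k - σ * nrm S (l ω0) k) +
        (nrm (W ω) (bl h (l ω) (t ω)) k - -σ * nrm S (l ω) k)) (nrm (W ω0) (bl h (l ω0) (t ω0)) k - ρ * ν k)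
      have d3 := abs_add_le (σ * (nrm S (l ω0) k - nrm S (l ω) k) +
        (nrm (W ω0) (bl h (l ω0) (t ω0)) k - σ * nrm S (l ω0) k))
        (nrm (W ω) (bl h (l ω) (t ω)) k - -σ * nrm S (l ω) k)
      have d4 := abs_add_le (σ * (nrm S (l ω0) k - nrm S (l ω) k))
        (nrm (W ω0) (bl h (l ω0) (t ω0)) k - σ * nrm S (l ω0) k)
      linarith
    rw [abs_mul, abs_two, abs_mul, abs_of_pos (by linarith : (0 : ℝ) < ρ)] at e3
    linarith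
  have k0 := key 0
  have k1 := key 1
  have n0 := abs_nonneg (ν 0)
  have n1 := abs_nonneg (ν 1)
  have s0 := sq_abs (ν 0)
  have s1 := sq_abs (ν 1)
  have t0 : |ν 0| ≤ 51 / 100 := by nlinarith
  have t1 : |ν 1| ≤ 51 / 100 := by nlinarith
  nlinarith

/-- the start strip -/
noncomputable def dS (σ : ℝ) (S : Cbx) (r : ℕ) : Ld := ⟨0, -(σ * S.κ), -(σ * (2 * S.α)), 0, r⟩

theorem dS_al {σ : ℝ} (hσ : σ = 1 ∨ σ = -1) {S : Cbx} (h : |S.α| ≤ 1 / 8) (r : ℕ) : |(dS σ S r).al| ≤ 1 / 4 := by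
  have e1 : |σ| = 1 := by rcases hσ with rfl | rfl <;> simp
  show |-(σ * (2 * S.α))| ≤ 1 / 4
  rw [abs_neg, abs_mul, e1, abs_mul, abs_two]
  linarith

/-- **the point is in the strip** -/
theorem in_dS {σ K : ℝ} {r r0 h : ℕ} {S W : Cbx} {θ t : ℝ} (h0 : 0 ≤ t) (h1 : t < 1) (hK : K * 2 ^ r ≤ 2 ^ r0)
    (hf : |W.κ - σ * (S.κ + 2 * qa h t * S.α)| ≤ K * (1 / 2 : ℝ) ^ r0) :
    (dS σ S r).In (qa h t) (FW θ h W t).ka := by
  have hp : (0 : ℝ) < 2 ^ h := by positivity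
  have hp0 : (0 : ℝ) < 2 ^ r0 := by positivity
  refine ⟨?_, ?_, ?_⟩
  · show 0 ≤ qa h t - 0
    rw [sub_zero]
    unfold qa
    have : (0 : ℤ) ≤ fl1 h t := by
      unfold fl1
      exact Int.floor_nonneg.2 (by positivity)
    have h3 : (0 : ℝ) ≤ (fl1 h t : ℝ) := by exact_mod_cast this
    positivity
  · show 2 ^ 0 * (qa h t - 0) < 1
    rw [pow_zero, one_mul, sub_zero]
    unfold qa
    rw [div_lt_one hp]
    refine (Int.floor_le _).trans_lt ?_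
    nlinarith
  · show 2 ^ r * |(FW θ h W t).ka - (-(σ * S.κ) + -(σ * (2 * S.α)) * (qa h t - 0))| ≤ 1
    rw [FW_ka]
    have e : -W.κ - (-(σ * S.κ) + -(σ * (2 * S.α)) * (qa h t - 0)) = -(W.κ - σ * (S.κ + 2 * qa h t * S.α)) := by ring
    rw [e, abs_neg]
    have h2 : (0 : ℝ) ≤ 2 ^ r := by positivity
    calc 2 ^ r * |W.κ - σ * (S.κ + 2 * qa h t * S.α)| ≤ 2 ^ r * (K * (1 / 2 : ℝ) ^ r0) :=
          mul_le_mul_of_nonneg_left hf h2
      _ = (K * 2 ^ r) / 2 ^ r0 := by rw [div_pow, one_pow]; ring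
      _ ≤ 1 := (div_le_one hp0).2 hK

omit [Fintype Ω] in
/-- blocks of a number -/
theorem phB_mem (m κ0 : ℕ) (hκ : 1 ≤ κ0) (pp : Ω → ℝ) (j : ℕ) (ω : Ω) :
    Ray.phB m κ0 pp j ω ∈ Finset.Ico (0 : ℤ) (2 ^ m) := by
  unfold Ray.phB
  set n := κ0 + j - 1 with hn
  have e1 : κ0 + j = n + 1 := by omega
  rw [e1, Finset.mem_Ico]
  unfold fl1
  set x := (2 : ℝ) ^ (m * n) * pp ω with hx
  have e2 : (2 : ℝ) ^ (m * (n + 1)) * pp ω = 2 ^ m * x := by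
    rw [Nat.mul_add, Nat.mul_one, pow_add, hx]
    ring
  rw [e2]
  have hp : (0 : ℝ) < 2 ^ m := by positivity
  have a1 := Int.floor_le x
  have a2 := Int.lt_floor_add_one x
  have a3 := Int.floor_le (2 ^ m * x)
  have a4 := Int.lt_floor_add_one (2 ^ m * x)
  constructor
  · have : (2 : ℝ) ^ m * ⌊x⌋ < ⌊2 ^ m * x⌋ + 1 := by
      have := mul_le_mul_of_nonneg_left a1 hp.le
      linarith
    have h2 : (2 : ℤ) ^ m * ⌊x⌋ < ⌊2 ^ m * x⌋ + 1 := by exact_mod_cast this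
    omega
  · have : (⌊2 ^ m * x⌋ : ℝ) < 2 ^ m * ⌊x⌋ + 2 ^ m := by
      have := mul_lt_mul_of_pos_left a2 hp
      rw [mul_add, mul_one] at this
      linarith
    have h2 : ⌊2 ^ m * x⌋ < (2 : ℤ) ^ m * ⌊x⌋ + 2 ^ m := by exact_mod_cast this
    omega

theorem card_SP (m : ℕ) : (Finset.Ico (0 : ℤ) (2 ^ m)).card ≤ 2 ^ (m + 6) := by
  rw [Int.card_Ico, sub_zero]
  have h : ((2 : ℤ) ^ m).toNat = 2 ^ m := by
    rw [show ((2 : ℤ) ^ m) = ((2 ^ m : ℕ) : ℤ) by push_cast; rfl]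
    exact Int.toNat_natCast _
  rw [h]
  exact Nat.pow_le_pow_right (by norm_num) (by omega)

/-- own slopes of two labels of one ray -/
theorem pW_near {θ : ℝ} {h : ℕ} {W W' : Cbx} {l : Ry} {t t' η : ℝ} (hη : 0 ≤ η)
    (h1 : ∀ k, |nv W (bl h l t) k - nv W' (bl h l t') k| ≤ 2 * η) (c : 3 / 4 ≤ fn θ (nv W (bl h l t)))
    (c' : 3 / 4 ≤ fn θ (nv W' (bl h l t'))) (f : |fw θ (nv W (bl h l t))| ≤ 1 / 4) :
    |pW θ h W l t - pW θ h W' l t'| ≤ 8 * η := by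
  unfold pW
  rw [cN_eq, cV_eq, cN_eq, cV_eq]
  set n := nv W (bl h l t) with hn
  set n' := nv W' (bl h l t') with hn'
  have a1 : |fw θ n - fw θ n'| ≤ 4 * η := by
    rw [fw_sub]
    refine (fw_le θ h1).trans (by linarith)
  have a2 : |fn θ n - fn θ n'| ≤ 4 * η := by
    rw [fn_sub]
    refine (fn_le θ h1).trans (by linarith)
  have p1 : 0 < fn θ n := by linarith
  have p2 : 0 < fn θ n' := by linarith
  have e : -fw θ n / fn θ n - -fw θ n' / fn θ n' =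
      (-(fw θ n - fw θ n') + (fw θ n / fn θ n) * (fn θ n - fn θ n')) / fn θ n' := by
    field_simp
    ring
  rw [e, abs_div, abs_of_pos p2, div_le_iff₀ p2]
  refine (abs_add_le _ _).trans ?_
  rw [abs_neg, abs_mul, abs_div, abs_of_pos p1]
  have b1 : |fw θ n| / fn θ n ≤ 1 / 3 := by
    rw [div_le_iff₀ p1]
    linarith
  have b2 : |fw θ n| / fn θ n * |fn θ n - fn θ n'| ≤ 1 / 3 * (4 * η) :=
    mul_le_mul b1 a2 (abs_nonneg _) (by norm_num)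
  nlinarith

/-- **few values of the own slope** given the ray -/
theorem fewS (H : Nrm K0 K1 Rm lam N k β d P l t L h q r0 W S) (hRm : 6 ≤ Rm)
    (hK : K0 * (1 / 2 : ℝ) ^ r0 ≤ 1 / 16) (hq : 3 ≤ q) (hK0 : 0 ≤ K0) {θ : ℝ}
    (hθ : ∀ ω, 0 < P.w ω → FWok θ h q (Rm - 1) (W ω) (l ω) (t ω)) {r : ℕ} (hr : 8 * K0 * 2 ^ r ≤ 2 ^ r0) {Q : Law Ω}
    (hQ : ∀ ω, 0 < Q.w ω → 0 < P.w ω) :
    Few Q (fun ω => fl1 r (pW θ h (W ω) (l ω) (t ω))) l 3 := by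
  classical
  obtain ⟨σ, hσ, hs⟩ := sgn H (by omega) hK hq
  intro ω hω
  set z := fl1 r (pW θ h (W ω) (l ω) (t ω)) with hz
  refine ⟨{z - 1, z, z + 1}, ?_, fun ω' hω' hl => ?_⟩
  · refine (Finset.card_insert_le _ _).trans ?_
    have := Finset.card_insert_le z ({z + 1} : Finset ℤ)
    rw [Finset.card_singleton] at this
    omega
  have o1 := hQ ω hω
  have o2 := hQ ω' hω'
  set η := K0 * (1 / 2 : ℝ) ^ r0 with hη
  have hη0 : 0 ≤ η := by positivity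
  have fk := hθ ω o1
  have fk' := hθ ω' o2
  have e1 : ∀ ω, (FW θ h (W ω) (t ω)).cN (toR θ (l ω)) (rd h (t ω)) = fn θ (nv (W ω) (bl h (l ω) (t ω))) :=
    fun ω => cN_eq θ h (W ω) (l ω) (t ω)
  have e2 : ∀ ω, (FW θ h (W ω) (t ω)).cV (toR θ (l ω)) (rd h (t ω)) = -(fw θ (nv (W ω) (bl h (l ω) (t ω)))) :=
    fun ω => cV_eq θ h (W ω) (l ω) (t ω)
  have f : |fw θ (nv (W ω) (bl h (l ω) (t ω)))| ≤ 1 / 4 := by
    have g1 := fk.cp
    rw [e1, e2] at g1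
    have g2 := fk.p1
    have g3 := fk.c2
    have g4 := fk.c1
    rw [e1] at g3 g4
    have g5 : fw θ (nv (W ω) (bl h (l ω) (t ω))) =
        -(pW θ h (W ω) (l ω) (t ω) * fn θ (nv (W ω) (bl h (l ω) (t ω)))) := by linarith
    rw [g5, abs_neg, abs_mul, abs_of_pos (by linarith : 0 < fn θ (nv (W ω) (bl h (l ω) (t ω))))]
    have g6 : q2 (Rm - 1) ≤ 1 / 32 := by
      unfold q2
      calc (1 / 2 : ℝ) ^ (Rm - 1) ≤ (1 / 2 : ℝ) ^ 5 := pow_le_pow_of_le_one (by norm_num) (by norm_num) (by omega)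
        _ = 1 / 32 := by norm_num
    have g7 : |pW θ h (W ω) (l ω) (t ω)| ≤ 1 / 8 := by linarith
    nlinarith [abs_nonneg (pW θ h (W ω) (l ω) (t ω))]
  have near : |pW θ h (W ω) (l ω) (t ω) - pW θ h (W ω') (l ω') (t ω')| ≤ 8 * η := by
    rw [hl]
    refine pW_near hη0 (fun k => ?_) ?_ ?_ f
    · have c1 := (hs ω o1).1 k
      have c2 := (hs ω' o2).1 k
      rw [nrm_eq] at c1 c2
      rw [hl] at c2
      have e : nv (W ω) (bl h (l ω) (t ω)) k - nv (W ω') (bl h (l ω) (t ω')) k =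
          (nv (W ω) (bl h (l ω) (t ω)) k - σ * nrm S (l ω) k) -
          (nv (W ω') (bl h (l ω) (t ω')) k - σ * nrm S (l ω) k) := by ring
      rw [e]
      refine (abs_sub _ _).trans ?_
      linarith
    · rw [← e1]
      exact fk.c1
    · have := fk'.c1
      rw [e1, hl] at this
      exact this
  have hz' : |(2 : ℝ) ^ r * pW θ h (W ω) (l ω) (t ω) - 2 ^ r * pW θ h (W ω') (l ω') (t ω')| ≤ 1 := by
    rw [← mul_sub, abs_mul, abs_of_pos (by positivity : (0 : ℝ) < 2 ^ r)]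
    calc (2 : ℝ) ^ r * |pW θ h (W ω) (l ω) (t ω) - pW θ h (W ω') (l ω') (t ω')| ≤ 2 ^ r * (8 * η) :=
          mul_le_mul_of_nonneg_left near (by positivity)
      _ = (8 * K0 * 2 ^ r) / 2 ^ r0 := by rw [hη, div_pow, one_pow]; ring
      _ ≤ 1 := (div_le_one (by positivity)).2 hr
  have b1 := (abs_le.1 hz').1
  have b2 := (abs_le.1 hz').2
  have c1 : fl1 r (pW θ h (W ω') (l ω') (t ω')) ≤ z + 1 := by
    rw [hz]
    unfold fl1
    rw [Int.floor_le_iff]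
    have := Int.lt_floor_add_one ((2 : ℝ) ^ r * pW θ h (W ω) (l ω) (t ω))
    push_cast
    linarith
  have c2 : z - 1 ≤ fl1 r (pW θ h (W ω') (l ω') (t ω')) := by
    rw [hz]
    unfold fl1
    rw [Int.le_floor]
    have := Int.floor_le ((2 : ℝ) ^ r * pW θ h (W ω) (l ω) (t ω))
    push_cast
    linarith
  simp only [Finset.mem_insert, Finset.mem_singleton]
  omega

/-- the output of helper465's `fwok` for a system in normal form -/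
theorem fwok_of (H : Nrm K0 K1 Rm lam N k β d P l t L h q r0 W S) (hRm : 4 ≤ Rm) (hq : Rm ≤ q) :
    ∃ θ : ℝ, ∀ ω, 0 < P.w ω → FWok θ h q (Rm - 1) (W ω) (l ω) (t ω) := by
  obtain ⟨ν, ρ, hν, hρ, hn⟩ := H.nu
  obtain ⟨θ, e0, e1⟩ := angle hν
  refine ⟨θ, fun ω hω => ?_⟩
  obtain ⟨a1, a2, a3⟩ := H.nex.ok ω hω
  obtain ⟨-, b2, b3⟩ := H.nex.lb ω hω
  have hW := Vale.Agent.P106.U.H428.W0.of a1 a2 a3 (H.str ω hω) b2 b3
  have hqR : (1 / 2 : ℝ) ^ q ≤ (1 / 2 : ℝ) ^ Rm := pow_le_pow_of_le_one (by norm_num) (by norm_num) hq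
  have eR : (1 / 2 : ℝ) ^ (Rm - 1) = 2 * (1 / 2 : ℝ) ^ Rm := by
    obtain ⟨n, rfl⟩ : ∃ n, Rm = n + 1 := ⟨Rm - 1, by omega⟩
    rw [Nat.add_sub_cancel, pow_succ]
    ring
  have hp : (0 : ℝ) < (1 / 2 : ℝ) ^ Rm := by positivity
  have key : ∀ k, |nrm (W ω) (bl h (l ω) (t ω)) k - ν k| ≤ (1 / 2 : ℝ) ^ (Rm - 1) := by
    intro k
    have h1 := hn ω hω k
    have h2 : |ν k| ≤ 1 := by
      rw [abs_le_one_iff_mul_self_le_one]
      have s0 := sq_nonneg (ν 0)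
      have s1 := sq_nonneg (ν 1)
      fin_cases k
      · show ν 0 * ν 0 ≤ 1
        nlinarith
      · show ν 1 * ν 1 ≤ 1
        nlinarith
    have e : nrm (W ω) (bl h (l ω) (t ω)) k - ν k = (nrm (W ω) (bl h (l ω) (t ω)) k - ρ * ν k) + (ρ - 1) * ν k := by
      ring
    rw [e, eR]
    refine (abs_add_le _ _).trans ?_
    rw [abs_mul]
    have h3 : |ρ - 1| * |ν k| ≤ |ρ - 1| * 1 := mul_le_mul_of_nonneg_left h2 (abs_nonneg _)
    have h4 : (1 / 100 : ℝ) * (1 / 2 : ℝ) ^ q ≤ (1 / 2 : ℝ) ^ Rm := by nlinarith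
    linarith
  refine fwok hW (by omega) ?_ ?_
  · have := key 0
    rw [e0] at this
    rwa [sub_neg_eq_add] at this
  · have := key 1
    rw [e1] at this
    exact this

/-- **[START]** : all data of the start, at every point -/
theorem start (H : Nrm K0 K1 Rm lam N k β d P l t L h q r0 W S) (hRm : 6 ≤ Rm) (hq : Rm ≤ q)
    (hK0 : 0 ≤ K0) (hK : K0 * (1 / 2 : ℝ) ^ r0 ≤ 1 / 16) :
    ∃ (r : Ω → Ω) (θ σ : ℝ), (∀ ω, 0 < P.w (r ω)) ∧ (∀ ω, 0 < P.w ω → r ω = ω) ∧ (σ = 1 ∨ σ = -1) ∧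
      Nrm K0 K1 Rm lam N k β d P (fun ω => l (r ω)) (fun ω => t (r ω)) L h q r0 (fun ω => W (r ω)) S ∧
      (∀ ω, RyOk (l (r ω)) ∧ 0 ≤ t (r ω) ∧ t (r ω) < 1 ∧ FWok θ h q (Rm - 1) (W (r ω)) (l (r ω)) (t (r ω)) ∧
        Vale.Agent.P106.U.H428.W0 (1 / 1000) h q (W (r ω)) (l (r ω)) (t (r ω)) ∧
        SlbOk K0 r0 S h (W (r ω)) (l (r ω)) (t (r ω)) ∧
        (∀ k, |nrm (W (r ω)) (bl h (l (r ω)) (t (r ω))) k - σ * nrm S (l (r ω)) k| ≤ K0 * (1 / 2 : ℝ) ^ r0) ∧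
        |(W (r ω)).κ - σ * (S.κ + 2 * qa h (t (r ω)) * S.α)| ≤ K0 * (1 / 2 : ℝ) ^ r0) ∧
      (∀ R : ℕ, K0 * 2 ^ R ≤ 2 ^ r0 → ∀ ω, (dS σ S R).In (qa h (t (r ω))) (FW θ h (W (r ω)) (t (r ω))).ka) ∧
      (∀ R : ℕ, |(dS σ S R).al| ≤ 1 / 4) ∧
      ∀ (R : ℕ) (Q : Law Ω), 8 * K0 * 2 ^ R ≤ 2 ^ r0 → (∀ ω, 0 < Q.w ω → 0 < P.w ω) →
        Few Q (fun ω => fl1 R (pW θ h (W (r ω)) (l (r ω)) (t (r ω)))) (fun ω => l (r ω)) 3 := by
  obtain ⟨r, r1, r2, HN⟩ := Full.full H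
  obtain ⟨θ, hθ⟩ := fwok_of H (by omega) hq
  obtain ⟨σ, hσ, hs⟩ := sgn H (by omega) hK (by omega)
  obtain ⟨ω0, -⟩ : ∃ ω : Ω, True := by
    by_contra hcon
    push Not at hcon
    have h1 := P.sum_one
    rw [Finset.sum_eq_zero fun ω _ => (hcon ω).elim] at h1
    exact zero_ne_one h1
  refine ⟨r, θ, σ, r1, r2, hσ, HN, fun ω => ?_, fun R hR ω => ?_, fun R => ?_, fun R Q hR hQ => ?_⟩
  · obtain ⟨a1, a2, a3⟩ := H.nex.ok (r ω) (r1 ω)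
    obtain ⟨-, b2, b3⟩ := H.nex.lb (r ω) (r1 ω)
    exact ⟨a1, a2, H.t1 _ (r1 ω), hθ _ (r1 ω), Vale.Agent.P106.U.H428.W0.of a1 a2 a3 (H.str _ (r1 ω)) b2 b3,
      H.slb _ (r1 ω), (hs _ (r1 ω)).1, (hs _ (r1 ω)).2⟩
  · exact in_dS (H.nex.ok (r ω) (r1 ω)).2.1 (H.t1 _ (r1 ω)) hR (hs _ (r1 ω)).2
  · exact dS_al hσ (H.slb _ (r1 ω0)).α8 R
  · exact fewS HN hRm hK (by omega) hK0 (fun ω hω => hθ _ (r1 ω)) hR hQ

/-- **word 1 of a run**, start data -/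
theorem hy {r : Ω → Ω} {θ σ : ℝ} {m κ0 Md : ℕ} {p : Pm} {thr : ℝ} {E : List (Lt 2)} {Q : Law Ω} {g : ℝ}
    (hin : ∀ ω, (dS σ S (m * κ0)).In (qa h (t (r ω))) (FW θ h (W (r ω)) (t (r ω))).ka) (hm : 6 ≤ m) (hp : p.Good)
    (hMd : p.M + 2 ≤ Md)
    (hc : Cn (Ray.e1 m κ0 (dS σ S (m * κ0)) (fun ω => qa h (t (r ω))) (fun ω => (FW θ h (W (r ω)) (t (r ω))).ka)
      (fun ω => pW θ h (W (r ω)) (l (r ω)) (t (r ω))) (fun ω => l (r ω)) Md P p thr) P Q p.n E g) :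
    Ray.Hy m κ0 (dS σ S (m * κ0)) (fun ω => qa h (t (r ω))) (fun ω => (FW θ h (W (r ω)) (t (r ω))).ka)
      (fun ω => pW θ h (W (r ω)) (l (r ω)) (t (r ω))) (fun ω => l (r ω)) Md P p thr E Q g where
  s0 := rfl
  a0 := rfl
  k0 := rfl
  in0 := hin
  m6 := hm
  good := hp
  Md2 := hMd
  cn := hc

end Start

end Vale.Agent.P106.U.H449
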