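import Vale.Agent.P106.U.H449.Ti
import Vale.Agent.P106.U.H824.InsL
import Vale.Agent.P106.U.H823.Cost1

/-!
# P106 / U / H449 : number of values of the delayed letter and of the forced letters (helper449)

Rule `e = (dtL m d0 t κ Z ph Md).rule P p thr`.  Delayed letter at the step `j = i + Md` : true cell `V_i` of the state
`i` (if `i` is a step of the time with allowed line).

* `few_all` : `V` has at most `2^(3m+12)` values.
* `fst_eq`, `snd_near` : `V_i` given a later state: the time digits are exact functions, the digit of the line has few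
  values, as soon as a line step and then three steps of the time have taken place.
* `badD` : the bad steps; `few_D` : `99` values at the good steps, `2^(3m+12)` at the bad ones.
* `card_bad` : at most `(M + 4) (N / Md + 1)` bad steps.
* `few_F` : the forced letters.
-/

set_option autoImplicit false

namespace Vale.Agent.P106.U.H449

open Finset Vale.Agent.P127 Vale.Agent.P127.Stk Vale.Agent.P106.U.StripL
open Vale.Agent.P106.U.StripE Vale.Agent.P106.U.InsL Vale.Agent.P106.U.H823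

namespace Del

/-! ### Geometry -/

theorem fl_le {b c : ℕ} (h : b ≤ c) {x y : ℝ} (e : ⌊2 ^ c * x⌋ = ⌊2 ^ c * y⌋) :
    ⌊(2 : ℝ) ^ b * x⌋ ≤ ⌊(2 : ℝ) ^ b * y⌋ := by
  have hp : (0 : ℝ) < 2 ^ (c - b) := by positivity
  have hc : (2 : ℝ) ^ c = 2 ^ (c - b) * 2 ^ b := by rw [← pow_add, Nat.sub_add_cancel h]
  rw [Int.le_floor]
  have h1 := Int.floor_le ((2 : ℝ) ^ b * x)
  have h2 : ((2 ^ (c - b) * ⌊(2 : ℝ) ^ b * x⌋ : ℤ) : ℝ) ≤ 2 ^ c * x := by
    push_cast
    rw [hc, mul_assoc]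
    exact mul_le_mul_of_nonneg_left h1 hp.le
  have h3 := Int.le_floor.2 h2
  rw [e] at h3
  have h4 : ((2 ^ (c - b) * ⌊(2 : ℝ) ^ b * x⌋ : ℤ) : ℝ) ≤ 2 ^ c * y := Int.le_floor.1 h3
  push_cast at h4
  rw [hc, mul_assoc] at h4
  exact le_of_mul_le_mul_left h4 hp

/-- nested floors -/
theorem fl_nest {b c : ℕ} (h : b ≤ c) {x y : ℝ} (e : ⌊2 ^ c * x⌋ = ⌊2 ^ c * y⌋) :
    ⌊(2 : ℝ) ^ b * x⌋ = ⌊(2 : ℝ) ^ b * y⌋ := le_antisymm (fl_le h e) (fl_le h e.symm)

theorem tR_inj {m : ℕ} {d0 : Ld} {j : ℕ} {t t' : ℝ} (h : tR m d0 j t = tR m d0 j t') :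
    ⌊2 ^ (d0.a + m * j) * (t - d0.s0)⌋ = ⌊2 ^ (d0.a + m * j) * (t' - d0.s0)⌋ := by
  unfold tR at h
  have h1 := add_left_cancel h
  have hp : (0 : ℝ) < 2 ^ (d0.a + m * j) := by positivity
  rw [div_left_inj' hp.ne'] at h1
  exact_mod_cast h1

/-- the digits of the time -/
theorem tcell {m : ℕ} {d0 : Ld} {c : ℕ} {t : ℝ} (b : ℕ) :
    ⌊2 ^ b * (2 ^ (d0.a + m * c) * (t - tR m d0 c t))⌋ =
      ⌊2 ^ (d0.a + m * c + b) * (t - d0.s0)⌋ - 2 ^ b * ⌊2 ^ (d0.a + m * c) * (t - d0.s0)⌋ := by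
  have h1 : (2 : ℝ) ^ b * (2 ^ (d0.a + m * c) * (t - tR m d0 c t)) =
      2 ^ (d0.a + m * c + b) * (t - d0.s0) -
        ((2 ^ b * ⌊2 ^ (d0.a + m * c) * (t - d0.s0)⌋ : ℤ) : ℝ) := by
    unfold tR
    push_cast
    rw [pow_add]
    field_simp
    ring
  rw [h1, Int.floor_sub_intCast]

variable {Ω : Type} [Fintype Ω] {γ ζ₁ ζ₂ : Type}

section

variable {m : ℕ} {d0 : Ld} {t κ : Ω → ℝ} {e : Rl Ω 2 (ℤ × ℤ) γ ζ₁ ζ₂} {P : Law Ω}

/-- **the digits of the time of the true cell are known later** -/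
theorem fst_eq (h : IsL m d0 t κ e) {i j : ℕ} (hij : i ≤ j) {ω ω' : Ω} (hT : e.T P j ω = e.T P j ω')
    (hc : m * cnt none (e.T P i ω) + (2 * m + 6) ≤ m * cnt none (e.T P j ω)) :
    (tru m d0 t κ (e.T P i ω) ω).1 = (tru m d0 t κ (e.T P i ω') ω').1 := by
  have hTi : e.T P i ω = e.T P i ω' := Rl.T_mono hij hT
  have h0 := s0_T (P := P) h i ω
  have h0' := s0_T (P := P) h i ω'
  have h1 := s0_T (P := P) h j ω
  have h1' := s0_T (P := P) h j ω'
  have ha := ld_a m d0 (e.T P i ω)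
  have ha' := ld_a m d0 (e.T P i ω')
  have k1 : tR m d0 (cnt none (e.T P j ω)) (t ω) = tR m d0 (cnt none (e.T P j ω)) (t ω') := by
    rw [← h1, hT, h1']
  have k0 : tR m d0 (cnt none (e.T P i ω)) (t ω) = tR m d0 (cnt none (e.T P i ω)) (t ω') := by
    rw [← h0, hTi, h0']
  have f1 := tR_inj k1
  have f0 := tR_inj k0
  show ⌊2 ^ (2 * m + 6) * (ld m d0 (e.T P i ω)).sN (t ω)⌋ =
    ⌊2 ^ (2 * m + 6) * (ld m d0 (e.T P i ω')).sN (t ω')⌋
  unfold Ld.sN
  rw [h0, h0', ha, ha', ← hTi, tcell, tcell, f0]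
  congr 1
  exact fl_nest (by omega) f1

/-- **the digit of the line of the true cell is nearly known later** -/
theorem snd_near (h : IsL m d0 t κ e) (hm : 2 ≤ m) {i i' j : ℕ} (hi : i ≤ i') (hj : i' ≤ j) {ω ω' : Ω}
    (hT : e.T P j ω = e.T P j ω')
    (hk : cnt (some 1) (e.T P i ω) + 1 ≤ cnt (some 1) (e.T P i' ω))
    (hc : cnt none (e.T P i' ω) + 3 ≤ cnt none (e.T P j ω)) :
    |(ld m d0 (e.T P i ω)).uN (t ω) (κ ω) - (ld m d0 (e.T P i ω')).uN (t ω') (κ ω')| ≤
      3 / 2 ^ m := by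
  have hTi : e.T P i ω = e.T P i ω' := Rl.T_mono (hi.trans hj) hT
  have hTi' : e.T P i' ω = e.T P i' ω' := Rl.T_mono hj hT
  have ha := ld_a m d0 (e.T P i ω)
  have hkk := ld_k m d0 (e.T P i ω)
  have hkk' := ld_k m d0 (e.T P i' ω)
  have haj := ld_a m d0 (e.T P j ω)
  have u1 := (in_T (P := P) h i' ω).u
  have u2 := (in_T (P := P) h i' ω').u
  have t1 := in_T (P := P) h j ω
  have t2 := in_T (P := P) h j ω'
  have hal := al_T (P := P) h (by omega) hi ω
  rw [← hTi]
  rw [← hTi'] at u2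
  rw [← hT] at t2
  set di := ld m d0 (e.T P i ω) with hdi
  set d' := ld m d0 (e.T P i' ω) with hd'
  set dj := ld m d0 (e.T P j ω) with hdj
  set ci := cnt none (e.T P i ω) with hci
  set ki := cnt (some 1) (e.T P i ω) with hki
  set c' := cnt none (e.T P i' ω) with hc'
  set k' := cnt (some 1) (e.T P i' ω) with hk'
  set cj := cnt none (e.T P j ω) with hcj
  have p1 : (0 : ℝ) < 2 ^ di.k := by positivity
  have p2 : (0 : ℝ) < 2 ^ d'.k := by positivity
  have p3 : (0 : ℝ) < 2 ^ dj.a := by positivity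
  have pm : (0 : ℝ) < 2 ^ m := by positivity
  -- the strip of the state `i'`
  have hkle : di.k + m ≤ d'.k := by
    rw [hkk, hkk']
    have : m * (ki + 1) ≤ m * k' := Nat.mul_le_mul_left m hk
    rw [Nat.mul_add, Nat.mul_one] at this
    omega
  have v : ∀ x : ℝ, 2 ^ d'.k * |x| ≤ 1 → 2 ^ di.k * |x| ≤ 1 / 2 ^ m := by
    intro x hx
    rw [le_div_iff₀ pm]
    calc 2 ^ di.k * |x| * 2 ^ m = 2 ^ (di.k + m) * |x| := by rw [pow_add]; ring
      _ ≤ 2 ^ d'.k * |x| := by
        gcongr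
        norm_num
      _ ≤ 1 := hx
  have v1 := v _ u1
  have v2 := v _ u2
  -- the time
  have ht : |t ω - t ω'| ≤ 1 / 2 ^ dj.a := by
    have a1 := t1.t0
    have a2 := t1.t1
    have b1 := t2.t0
    have b2 := t2.t1
    have a3 : t ω - dj.s0 < 1 / 2 ^ dj.a := by
      rw [lt_div_iff₀ p3, mul_comm]
      exact a2
    have b3 : t ω' - dj.s0 < 1 / 2 ^ dj.a := by
      rw [lt_div_iff₀ p3, mul_comm]
      exact b2
    rw [abs_le]
    constructor <;> linarith
  -- the slopes
  have hal2 : |d'.al - di.al| ≤ 2 ^ (d0.a + m * c' + m + 2) * (1 / 2 ^ di.k) := by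
    refine hal.trans ?_
    rw [hkk]
    refine mul_le_mul_of_nonneg_left ?_ (by positivity)
    have : (0 : ℝ) < 1 / 2 ^ (d0.k + m * k') := by positivity
    linarith
  have hs : 2 ^ di.k * |(d'.al - di.al) * (t ω - t ω')| ≤ 1 / 2 ^ m := by
    rw [abs_mul]
    have g1 : |d'.al - di.al| * |t ω - t ω'| ≤
        2 ^ (d0.a + m * c' + m + 2) * (1 / 2 ^ di.k) * (1 / 2 ^ dj.a) :=
      mul_le_mul hal2 ht (abs_nonneg _) (by positivity)
    have g2 : d0.a + m * c' + m + 2 + m ≤ dj.a := by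
      rw [haj]
      have : m * (c' + 3) ≤ m * cj := Nat.mul_le_mul_left m hc
      rw [Nat.mul_add] at this
      omega
    calc 2 ^ di.k * (|d'.al - di.al| * |t ω - t ω'|)
        ≤ 2 ^ di.k * (2 ^ (d0.a + m * c' + m + 2) * (1 / 2 ^ di.k) * (1 / 2 ^ dj.a)) := by gcongr
      _ = 2 ^ (d0.a + m * c' + m + 2) / 2 ^ dj.a := by field_simp
      _ ≤ 1 / 2 ^ m := by
        rw [div_le_div_iff₀ p3 pm, one_mul, ← pow_add]
        exact pow_le_pow_right₀ (by norm_num) g2
  -- the difference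
  have e1 : di.uN (t ω) (κ ω) - di.uN (t ω') (κ ω') =
      2 ^ di.k * (κ ω - d'.line (t ω)) - 2 ^ di.k * (κ ω' - d'.line (t ω')) +
        2 ^ di.k * ((d'.al - di.al) * (t ω - t ω')) := by
    unfold Ld.uN Ld.line
    ring
  rw [e1]
  refine (abs_add_le _ _).trans ((add_le_add (abs_sub _ _) le_rfl).trans ?_)
  rw [abs_mul, abs_mul, abs_mul (2 ^ di.k) ((d'.al - di.al) * (t ω - t ω')), abs_of_pos p1]
  have e3 : (3 : ℝ) / 2 ^ m = 1 / 2 ^ m + 1 / 2 ^ m + 1 / 2 ^ m := by ring
  rw [e3]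
  linarith

/-- the true cell lies in a finite set -/
theorem tru_mem (h : IsL m d0 t κ e) (i : ℕ) (ω : Ω) :
    tru m d0 t κ (e.T P i ω) ω ∈ Finset.Ico (0 : ℤ) (2 ^ (2 * m + 6)) ×ˢ
      Finset.Icc (-(2 : ℤ) ^ (m + 4)) (2 ^ (m + 4)) := by
  have h1 := in_T (P := P) h i ω
  have s0 := Ld.sN_nonneg h1
  have s1 := Ld.sN_lt h1
  have u := abs_le.1 (Ld.uN_le h1)
  have p : (0 : ℝ) < 2 ^ (2 * m + 6) := by positivity
  have p' : (0 : ℝ) < 2 ^ (m + 4) := by positivity
  rw [Finset.mem_product, Finset.mem_Ico, Finset.mem_Icc]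
  refine ⟨⟨?_, ?_⟩, ?_, ?_⟩
  · exact Int.floor_nonneg.2 (mul_nonneg p.le s0)
  · refine Int.floor_lt.2 ?_
    push_cast
    calc (2 : ℝ) ^ (2 * m + 6) * (ld m d0 (e.T P i ω)).sN (t ω) < 2 ^ (2 * m + 6) * 1 := by gcongr
      _ = _ := mul_one _
  · refine Int.le_floor.2 ?_
    push_cast
    nlinarith [u.1]
  · refine Int.floor_le_iff.2 ?_
    push_cast
    nlinarith [u.2]

end

theorem card_box (m : ℕ) : (Finset.Ico (0 : ℤ) (2 ^ (2 * m + 6)) ×ˢ
    Finset.Icc (-(2 : ℤ) ^ (m + 4)) (2 ^ (m + 4))).card ≤ 2 ^ (3 * m + 12) := by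
  rw [Finset.card_product, Int.card_Ico, Int.card_Icc]
  have e1 : ((2 : ℤ) ^ (2 * m + 6) - 0).toNat = 2 ^ (2 * m + 6) := by
    rw [sub_zero]
    have : ((2 : ℤ) ^ (2 * m + 6)) = ((2 ^ (2 * m + 6) : ℕ) : ℤ) := by push_cast; rfl
    rw [this, Int.toNat_natCast]
  have e2 : ((2 : ℤ) ^ (m + 4) + 1 - -(2 : ℤ) ^ (m + 4)).toNat = 2 ^ (m + 5) + 1 := by
    have : ((2 : ℤ) ^ (m + 4) + 1 - -(2 : ℤ) ^ (m + 4)) = ((2 ^ (m + 5) + 1 : ℕ) : ℤ) := by
      push_cast
      ring
    rw [this, Int.toNat_natCast]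
  rw [e1, e2]
  have h1 : 1 ≤ 2 ^ (m + 5) := Nat.one_le_two_pow
  calc 2 ^ (2 * m + 6) * (2 ^ (m + 5) + 1) ≤ 2 ^ (2 * m + 6) * (2 ^ (m + 5) * 2) := by
        gcongr
        omega
    _ = 2 ^ (3 * m + 12) := by
        rw [← pow_succ, ← pow_add]
        congr 1
        ring

/-! ### The delayed letter -/

/-- bad steps of the delayed letter -/
def Bad (p : Pm) (Md n : ℕ) (E : List (Lt 2)) (j : ℕ) : Prop :=
  Md ≤ j ∧ (le' n E (j - Md)).2 = none ∧
    lv n E (some 1) (j - Md) + p.B₀ < lv n E (some 0) (j - Md) ∧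
    lv n E none j < lv n E none (j - Md + p.M + 2) + 3

section few

variable {ζ : Type} {m : ℕ} {d0 : Ld} {t κ : Ω → ℝ} {Z : Ω → ζ} {ph : ℕ → Ω → ℤ} {Md : ℕ}
  {P Q : Law Ω} {p : Pm} {thr : ℝ} {n : ℕ} {E : List (Lt 2)} {q : ℝ}

/-- the delayed letter -/
theorem D_at (hMd : 1 ≤ Md) (i : ℕ) (ω : Ω) :
    ((dtL m d0 t κ Z ph Md).rule P p thr).D (((dtL m d0 t κ Z ph Md).rule P p thr).T P (i + Md)) ω =
      (open Classical in if ((dtL m d0 t κ Z ph Md).rule P p thr).kd P i ω = none ∧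
          p.ok 1 (((dtL m d0 t κ Z ph Md).rule P p thr).T P i ω)
        then some (tru m d0 t κ (((dtL m d0 t κ Z ph Md).rule P p thr).T P i ω) ω) else none) :=
  Dt.D_eq (d := dtL m d0 t κ Z ph Md) (P := P) (p := p) (thr := thr) hMd i ω

/-- no delayed letter at the first steps -/
theorem D_small (hMd : 1 ≤ Md) {j : ℕ} (hj : j < Md) (ω : Ω) :
    ((dtL m d0 t κ Z ph Md).rule P p thr).D (((dtL m d0 t κ Z ph Md).rule P p thr).T P j) ω = none := by
  classical
  set e := (dtL m d0 t κ Z ph Md).rule P p thr with he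
  show (if (((e.T P j ω).drop (Md - 1)).head?.map fun r => r.1.2) = some none ∧
      p.ok 1 ((e.T P j ω).drop Md) then some (tru m d0 t κ ((e.T P j ω).drop Md) ω) else none) = none
  have h1 : (e.T P j ω).drop (Md - 1) = [] := by
    rw [List.drop_eq_nil_iff, Rl.T_length]
    omega
  rw [h1]
  simp

/-- **the delayed letter has few values** -/
theorem few_D_all (h0 : ∀ ω, d0.In (t ω) (κ ω)) (hMd : 1 ≤ Md) (j : ℕ) :
    Few Q (((dtL m d0 t κ Z ph Md).rule P p thr).D (((dtL m d0 t κ Z ph Md).rule P p thr).T P j))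
      (((dtL m d0 t κ Z ph Md).rule P p thr).K₁ (((dtL m d0 t κ Z ph Md).rule P p thr).T P j))
      (2 ^ (3 * m + 12)) := by
  classical
  have hL := isL (m := m) h0 Z ph Md P p thr
  set e := (dtL m d0 t κ Z ph Md).rule P p thr with he
  intro ω hω
  rcases Nat.lt_or_ge j Md with hj | hj
  · refine ⟨{none}, ?_, fun ω' _ _ => ?_⟩
    · rw [card_singleton]
      exact Nat.one_le_two_pow
    · rw [mem_singleton]
      exact D_small hMd hj ω'
  · obtain ⟨i, rfl⟩ : ∃ i, j = i + Md := ⟨j - Md, by omega⟩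
    by_cases hc : e.kd P i ω = none ∧ p.ok 1 (e.T P i ω)
    · refine ⟨(Finset.Ico (0 : ℤ) (2 ^ (2 * m + 6)) ×ˢ
        Finset.Icc (-(2 : ℤ) ^ (m + 4)) (2 ^ (m + 4))).image some, card_image_le.trans (card_box m),
        fun ω' _ hK => ?_⟩
      have hT : e.T P (i + Md) ω' = e.T P (i + Md) ω := congrArg Prod.snd hK
      have hT1 : e.T P (i + 1) ω' = e.T P (i + 1) ω := Rl.T_mono (by omega) hT
      have hT0 : e.T P i ω' = e.T P i ω := Rl.T_mono (by omega) hT
      have hk : e.kd P i ω' = e.kd P i ω := by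
        rw [Rl.T_succ, Rl.T_succ] at hT1
        exact congrArg Prod.snd (congrArg Prod.fst (List.cons.inj hT1).1)
      rw [D_at hMd, if_pos (show e.kd P i ω' = none ∧ p.ok 1 (e.T P i ω') by rw [hk, hT0]; exact hc)]
      exact mem_image_of_mem some (tru_mem hL i ω')
    · refine ⟨{none}, ?_, fun ω' _ hK => ?_⟩
      · rw [card_singleton]
        exact Nat.one_le_two_pow
      · have hT : e.T P (i + Md) ω' = e.T P (i + Md) ω := congrArg Prod.snd hK
        have hT1 : e.T P (i + 1) ω' = e.T P (i + 1) ω := Rl.T_mono (by omega) hT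
        have hT0 : e.T P i ω' = e.T P i ω := Rl.T_mono (by omega) hT
        have hk : e.kd P i ω' = e.kd P i ω := by
          rw [Rl.T_succ, Rl.T_succ] at hT1
          exact congrArg Prod.snd (congrArg Prod.fst (List.cons.inj hT1).1)
        rw [mem_singleton, D_at hMd,
          if_neg (show ¬ (e.kd P i ω' = none ∧ p.ok 1 (e.T P i ω')) by rw [hk, hT0]; exact hc)]

/-- **the delayed letter at a good step** has at most `99` values -/
theorem few_D_good (h0 : ∀ ω, d0.In (t ω) (κ ω)) (hMd : p.M + 2 ≤ Md) (hm : 6 ≤ m) (hp : p.Good)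
    (h : Cn ((dtL m d0 t κ Z ph Md).rule P p thr) P Q n E q) (hn : n ≤ p.n) {j : ℕ} (hj : j ≤ n)
    (hb : ¬ Bad p Md n E j) :
    Few Q (((dtL m d0 t κ Z ph Md).rule P p thr).D (((dtL m d0 t κ Z ph Md).rule P p thr).T P j))
      (((dtL m d0 t κ Z ph Md).rule P p thr).K₁ (((dtL m d0 t κ Z ph Md).rule P p thr).T P j)) 99 := by
  classical
  have hL := isL (m := m) h0 Z ph Md P p thr
  have hI := Dt.is (d := dtL m d0 t κ Z ph Md) (P := P) (p := p) (thr := thr)
  set e := (dtL m d0 t κ Z ph Md).rule P p thr with he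
  have hMd1 : 1 ≤ Md := by omega
  intro ω hω
  rcases Nat.lt_or_ge j Md with hjM | hjM
  · refine ⟨{none}, by simp, fun ω' _ _ => ?_⟩
    rw [mem_singleton]
    exact D_small hMd1 hjM ω'
  · obtain ⟨i, rfl⟩ : ∃ i, j = i + Md := ⟨j - Md, by omega⟩
    have hsame : ∀ ω', e.K₁ (e.T P (i + Md)) ω' = e.K₁ (e.T P (i + Md)) ω →
        e.T P (i + Md) ω' = e.T P (i + Md) ω ∧ e.T P i ω' = e.T P i ω ∧ e.kd P i ω' = e.kd P i ω := by
      intro ω' hK
      have hT : e.T P (i + Md) ω' = e.T P (i + Md) ω := congrArg Prod.snd hK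
      have hT1 : e.T P (i + 1) ω' = e.T P (i + 1) ω := Rl.T_mono (by omega) hT
      have hT0 : e.T P i ω' = e.T P i ω := Rl.T_mono (by omega) hT
      refine ⟨hT, hT0, ?_⟩
      rw [Rl.T_succ, Rl.T_succ] at hT1
      exact congrArg Prod.snd (congrArg Prod.fst (List.cons.inj hT1).1)
    by_cases hc : e.kd P i ω = none ∧ p.ok 1 (e.T P i ω)
    · -- the step is good: a line step, then three steps of the time
      have hi1 : lv n E (some 1) i + p.B₀ < lv n E (some 0) i :=
        (h.ok1_iff (by omega) hω).1 hc.2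
      have hk1 : (le' n E i).2 = none := by rw [← h.kd_eq hω (by omega)]; exact hc.1
      have hg : lv n E none (i + p.M + 2) + 3 ≤ lv n E none (i + Md) := by
        by_contra hcon
        push Not at hcon
        refine hb ⟨by omega, ?_, ?_, ?_⟩
        · rw [Nat.add_sub_cancel]; exact hk1
        · rw [Nat.add_sub_cancel]; exact hi1
        · rw [Nat.add_sub_cancel]; exact hcon
      have hA : lv n E none (i + Md) ≤ p.A := by
        rw [← h.cnt_eq hω hj]
        exact Rl.nA_le (P := P) hI hp (i + Md) (hj.trans hn) ω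
      have hmono : lv n E none (i + p.M + 1) ≤ lv n E none (i + p.M + 2) :=
        h.lv_mono none (by omega) (by omega)
      obtain ⟨i'', g1, g2, g3⟩ := Cn.gap1 hp hI h (i := i) (by omega) hi1 (by omega)
      have hi'n : i'' + 1 ≤ i + Md := by omega
      -- the values
      set v : ℤ := (tru m d0 t κ (e.T P i ω) ω).2 with hv
      refine ⟨(Finset.Icc (v - 48) (v + 48)).image
        (fun z => some ((tru m d0 t κ (e.T P i ω) ω).1, z)), ?_, fun ω' hω' hK => ?_⟩
      · refine card_image_le.trans ?_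
        rw [Int.card_Icc]
        omega
      · obtain ⟨hT, hT0, hkk⟩ := hsame ω' hK
        rw [D_at hMd1, if_pos (show e.kd P i ω' = none ∧ p.ok 1 (e.T P i ω') by
          rw [hkk, hT0]; exact hc), mem_image]
        have ka : cnt none (e.T P i ω) = lv n E none i := h.cnt_eq hω (by omega) none
        have kj : cnt none (e.T P (i + Md) ω) = lv n E none (i + Md) := h.cnt_eq hω hj none
        have ki1 : cnt none (e.T P (i'' + 1) ω) = lv n E none (i'' + 1) :=
          h.cnt_eq hω (by omega) none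
        have kl : cnt (some 1) (e.T P i ω) = lv n E (some 1) i := h.cnt_eq hω (by omega) _
        have kl' : cnt (some 1) (e.T P (i'' + 1) ω) = lv n E (some 1) (i'' + 1) :=
          h.cnt_eq hω (by omega) _
        have hs := h.lv_succ (some 1) (i := i'') (by omega)
        rw [g3, if_pos rfl] at hs
        have hs2 := h.lv_mono (some 1) g1 (show i'' ≤ n by omega)
        have hs3 : lv n E none (i'' + 1) ≤ lv n E none (i + p.M + 2) :=
          h.lv_mono none (by omega) (by omega)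
        have hs4 : lv n E none i ≤ lv n E none (i + p.M + 2) := h.lv_mono none (by omega) (by omega)
        have q1 : (tru m d0 t κ (e.T P i ω') ω').1 = (tru m d0 t κ (e.T P i ω) ω).1 := by
          refine (fst_eq (P := P) hL (i := i) (j := i + Md) (by omega) hT.symm ?_).symm
          rw [ka, kj]
          have : m * (lv n E none i + 3) ≤ m * lv n E none (i + Md) :=
            Nat.mul_le_mul_left m (by omega)
          rw [Nat.mul_add] at this
          omega
        have q2 := snd_near (P := P) hL (by omega) (i := i) (i' := i'' + 1) (j := i + Md)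
          (by omega) hi'n hT.symm (by rw [kl, kl']; omega) (by rw [ki1, kj]; omega)
        refine ⟨(tru m d0 t κ (e.T P i ω') ω').2, ?_, ?_⟩
        · -- the digit of the line
          have pm : (0 : ℝ) < 2 ^ m := by positivity
          have q3 : |(2 : ℝ) ^ (m + 4) * (ld m d0 (e.T P i ω)).uN (t ω) (κ ω) -
              2 ^ (m + 4) * (ld m d0 (e.T P i ω')).uN (t ω') (κ ω')| ≤ 48 := by
            rw [← mul_sub, abs_mul, abs_of_pos (by positivity : (0 : ℝ) < 2 ^ (m + 4))]
            calc (2 : ℝ) ^ (m + 4) * |(ld m d0 (e.T P i ω)).uN (t ω) (κ ω) -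
                (ld m d0 (e.T P i ω')).uN (t ω') (κ ω')| ≤ 2 ^ (m + 4) * (3 / 2 ^ m) := by gcongr
              _ = 48 := by
                rw [pow_add]
                field_simp
                norm_num
          have q4 := abs_le.1 q3
          have f1 : (tru m d0 t κ (e.T P i ω) ω).2 =
            ⌊(2 : ℝ) ^ (m + 4) * (ld m d0 (e.T P i ω)).uN (t ω) (κ ω)⌋ := rfl
          have f2 : (tru m d0 t κ (e.T P i ω') ω').2 =
            ⌊(2 : ℝ) ^ (m + 4) * (ld m d0 (e.T P i ω')).uN (t ω') (κ ω')⌋ := rfl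
          rw [hv, f1, f2]
          set x := (2 : ℝ) ^ (m + 4) * (ld m d0 (e.T P i ω)).uN (t ω) (κ ω) with hx
          set y := (2 : ℝ) ^ (m + 4) * (ld m d0 (e.T P i ω')).uN (t ω') (κ ω') with hy
          have x1 := Int.floor_le x
          have x2 := Int.lt_floor_add_one x
          have y1 := Int.floor_le y
          have y2 := Int.lt_floor_add_one y
          rw [Finset.mem_Icc]
          constructor
          · have : ((⌊x⌋ - 49 : ℤ) : ℝ) < ((⌊y⌋ : ℤ) : ℝ) := by
              push_cast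
              linarith [q4.2]
            have := Int.cast_lt.1 this
            omega
          · have : ((⌊y⌋ : ℤ) : ℝ) < ((⌊x⌋ + 49 : ℤ) : ℝ) := by
              push_cast
              linarith [q4.1]
            have := Int.cast_lt.1 this
            omega
        · rw [← q1]
    · refine ⟨{none}, by simp, fun ω' _ hK => ?_⟩
      obtain ⟨hT, hT0, hkk⟩ := hsame ω' hK
      rw [mem_singleton, D_at hMd1,
        if_neg (show ¬ (e.kd P i ω' = none ∧ p.ok 1 (e.T P i ω')) by rw [hkk, hT0]; exact hc)]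

/-- **the forced letters** -/
theorem few_F (h0 : ∀ ω, d0.In (t ω) (κ ω)) {SP : Finset ℤ}
    (hph : ∀ j ω, 0 < Q.w ω → ph j ω ∈ SP) (hSP : SP.card ≤ 2 ^ (m + 6)) (j : ℕ) (k : Fin 2) :
    Few Q (((dtL m d0 t κ Z ph Md).rule P p thr).F k (((dtL m d0 t κ Z ph Md).rule P p thr).T P j))
      (((dtL m d0 t κ Z ph Md).rule P p thr).K₁ (((dtL m d0 t κ Z ph Md).rule P p thr).T P j))
      (2 ^ (m + 6)) := by
  classical
  have hL := isL (m := m) h0 Z ph Md P p thr
  intro ω hω
  fin_cases k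
  · refine ⟨SP.image fun z => (z, 0), card_image_le.trans hSP, fun ω' hω' _ => ?_⟩
    show ((dtL m d0 t κ Z ph Md).rule P p thr).F 0 _ ω' ∈ _
    rw [Dt.F0]
    exact mem_image_of_mem _ (hph _ ω' hω')
  · refine ⟨(Finset.Icc (-(2 : ℤ) ^ (m + 4)) (2 ^ (m + 4))).image fun z => (z, 0), ?_,
      fun ω' hω' _ => ?_⟩
    · refine card_image_le.trans ?_
      rw [Int.card_Icc]
      have : ((2 : ℤ) ^ (m + 4) + 1 - -(2 : ℤ) ^ (m + 4)) = ((2 ^ (m + 5) + 1 : ℕ) : ℤ) := by
        push_cast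
        ring
      rw [this, Int.toNat_natCast]
      have h1 : 1 ≤ 2 ^ (m + 5) := Nat.one_le_two_pow
      have h2 : 2 ^ (m + 6) = 2 ^ (m + 5) * 2 := pow_succ _ _
      omega
    · show ((dtL m d0 t κ Z ph Md).rule P p thr).F 1 _ ω' ∈ _
      rw [Dt.F1]
      have h2 := (Finset.mem_product.1 (tru_mem (P := P) hL j ω')).2
      exact mem_image_of_mem (fun z : ℤ => (z, (0 : ℤ))) h2

end few

/-! ### Number of bad steps -/

theorem card_blocks {S : Finset ℕ} {N D c : ℕ} (hD : 0 < D) (hS : ∀ i ∈ S, i < N)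
    (h : ∀ i ∈ S, (S.filter fun j => i ≤ j ∧ j < i + D).card ≤ c) : S.card ≤ c * (N / D + 1) := by
  classical
  have h1 : S.card = ∑ k ∈ range (N / D + 1), (S.filter fun j => j / D = k).card := by
    refine Finset.card_eq_sum_card_fiberwise fun i hi => ?_
    rw [Finset.mem_coe, mem_range]
    exact Nat.lt_succ_of_le (Nat.div_le_div_right (hS i hi).le)
  have h2 : ∀ k ∈ range (N / D + 1), (S.filter fun j => j / D = k).card ≤ c := by
    intro k _
    rcases (S.filter fun j => j / D = k).eq_empty_or_nonempty with h2 | h2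
    · rw [h2, card_empty]
      exact Nat.zero_le c
    · set i := (S.filter fun j => j / D = k).min' h2 with hi
      have hi1 := Finset.min'_mem _ h2
      rw [← hi] at hi1
      obtain ⟨hi2, hi3⟩ := mem_filter.1 hi1
      refine (card_le_card fun j hj => ?_).trans (h i hi2)
      obtain ⟨hj1, hj2⟩ := mem_filter.1 hj
      refine mem_filter.2 ⟨hj1, Finset.min'_le _ _ hj, ?_⟩
      have e1 := Nat.div_add_mod j D
      have e2 := Nat.div_add_mod i D
      have e3 := Nat.mod_lt j hD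
      rw [hj2] at e1
      rw [hi3] at e2
      omega
  rw [h1]
  calc ∑ k ∈ range (N / D + 1), (S.filter fun j => j / D = k).card
      ≤ ∑ _k ∈ range (N / D + 1), c := Finset.sum_le_sum h2
    _ = c * (N / D + 1) := by
      rw [sum_const, card_range, smul_eq_mul, mul_comm]

section count

variable {K : ℕ} {δ : Type} {e : Rl Ω K δ γ ζ₁ ζ₂} {P Q : Law Ω} {n : ℕ} {E : List (Lt K)} {q : ℝ}

/-- number of steps of the time in an interval -/
theorem card_int (h : Cn e P Q n E q) {u v : ℕ} (huv : u ≤ v) (hv : v ≤ n) (S : Finset ℕ)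
    (hS : ∀ i ∈ S, u ≤ i ∧ i < v ∧ (le' n E i).2 = none) : S.card + lv n E none u ≤ lv n E none v := by
  classical
  induction v, huv using Nat.le_induction generalizing S with
  | base =>
    have : S = ∅ := Finset.eq_empty_of_forall_notMem fun i hi => by
      have := hS i hi
      omega
    rw [this, card_empty]
    omega
  | succ v huv ih =>
    have h1 := ih (by omega) (S.erase v) fun i hi => by
      obtain ⟨g1, g2⟩ := mem_erase.1 hi
      obtain ⟨g3, g4, g5⟩ := hS i g2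
      exact ⟨g3, by omega, g5⟩
    have h2 := h.lv_succ none (i := v) (by omega)
    by_cases hv' : v ∈ S
    · have h3 := (hS v hv').2.2
      rw [if_pos h3] at h2
      rw [card_erase_of_mem hv'] at h1
      have : 0 < S.card := card_pos.2 ⟨v, hv'⟩
      omega
    · rw [erase_eq_of_notMem hv'] at h1
      have : lv n E none v ≤ lv n E none (v + 1) := h.lv_mono none (Nat.le_succ v) hv
      omega

end count

/-- **number of bad steps** -/
theorem card_bad {e : Rl Ω 2 (ℤ × ℤ) γ ζ₁ ζ₂} {P Q : Law Ω} {n : ℕ} {E : List (Lt 2)} {q : ℝ} {p : Pm}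
    {Md : ℕ} (h : Cn e P Q n E q) (hMd : p.M + 2 ≤ Md) {N : ℕ} (hN : N ≤ n) (S : Finset ℕ)
    (hS : ∀ j ∈ S, j < N ∧ Bad p Md n E j) : S.card ≤ (p.M + 4) * (N / Md + 1) := by
  classical
  refine card_blocks (by omega) (fun i hi => (hS i hi).1) fun j0 hj0 => ?_
  obtain ⟨hN0, b1, b2, b3, b4⟩ := hS j0 hj0
  set i0 := j0 - Md with hi0
  set T := S.filter fun j => j0 ≤ j ∧ j < j0 + Md with hT
  have hsplit : T ⊆ Finset.Ico j0 (j0 + p.M + 2) ∪ T.filter (fun j => j0 + p.M + 2 ≤ j) := by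
    intro j hj
    obtain ⟨g1, g2, g3⟩ := mem_filter.1 hj
    rw [mem_union, mem_Ico, mem_filter]
    by_cases hc : j < j0 + p.M + 2
    · exact Or.inl ⟨g2, hc⟩
    · exact Or.inr ⟨hj, by omega⟩
  have h2 : (T.filter fun j => j0 + p.M + 2 ≤ j).card ≤ 2 := by
    have h3 : ((T.filter fun j => j0 + p.M + 2 ≤ j).image fun j => j - Md).card =
        (T.filter fun j => j0 + p.M + 2 ≤ j).card := by
      refine card_image_of_injOn fun x hx y hy hxy => ?_
      have hx' := (mem_filter.1 (Finset.mem_coe.1 hx)).2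
      have hy' := (mem_filter.1 (Finset.mem_coe.1 hy)).2
      have hxy' : x - Md = y - Md := hxy
      omega
    have h4 := card_int h (u := i0 + p.M + 2) (v := j0) (by omega) (by omega)
      ((T.filter fun j => j0 + p.M + 2 ≤ j).image fun j => j - Md) (by
        intro i hi
        obtain ⟨j, hj, rfl⟩ := mem_image.1 hi
        obtain ⟨g1, g2⟩ := mem_filter.1 hj
        obtain ⟨g3, g4, g5⟩ := mem_filter.1 g1
        have g6 := (hS j g3).2.2.1
        exact ⟨by omega, by omega, g6⟩)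
    rw [h3] at h4
    omega
  calc T.card ≤ (Finset.Ico j0 (j0 + p.M + 2)).card + (T.filter fun j => j0 + p.M + 2 ≤ j).card :=
        (card_le_card hsplit).trans (card_union_le _ _)
    _ ≤ p.M + 4 := by
      rw [Nat.card_Ico]
      omega

end Del

end Vale.Agent.P106.U.H449
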