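import Vale.Agent.P106.U.H565.PF2
import Vale.Agent.P106.U.H661.Yng

/-!
# P106 / U / H449 : the deterministic fields of `S3.F2` (helper449)

Over 823's `Has D R p` (so over the run and over the run with a further letter, `has_ext`):

* `lv_eq` : the level of the index;  `lk_le`, `le_lk` : the precision of the line between the second word before and at the level.
* `deep`, `diag` : the fields, from `D.R v + (B + s) ≤ D.o + D.I v` and `D.R (v + 1) = D.R v + 1` on the young levels.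
* `hi`, `room` : the fields for later caps `≤ B₁` of 523's numbers.
* `deep_diag` : `deep` and `diag` for 661's `Yng.Vs` of any family of second words whose last one is `D.R`.
-/

set_option autoImplicit false

namespace Vale.Agent.P106.U.H449.DetF2

open Finset Vale.Agent.P127 Vale.Agent.P127.Stk Vale.Agent.P106.U.H565
open Vale.Agent.P106.U.H823.NumW Vale.Agent.P106.U.H823.PathNum
open Vale.Agent.P106.U Vale.Agent.P106.U.H449

/-! ### over `Has` -/

section has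

variable {Ω : Type} [Fintype Ω] {τ υ : Type} {D : PN} {R : S3.Run Ω τ υ} {p : S3.Run.Num} (H : Has D R p)

include H

theorem lv_eq (i : ℕ) : S3.lv R i = D.li i := by
  unfold S3.lv
  rw [H.a, H.m]
  exact Nat.mul_div_cancel_left _ D.m1

theorem rk_le (i : ℕ) : R.C.rk i ≤ R.r0 + R.m * D.R (S3.lv R i) := by
  rw [lv_eq H, H.rk, H.r0, H.m]
  exact Nat.add_le_add_left (Nat.mul_le_mul_left _ (D.L.k_le (D.ix i))) _

theorem le_rk (i : ℕ) (h : S3.lv R i ≠ 0) : R.r0 + R.m * D.R (S3.lv R i - 1) ≤ R.C.rk i := by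
  rw [lv_eq H, H.rk, H.r0, H.m] at *
  refine Nat.add_le_add_left (Nat.mul_le_mul_left _ ?_) _
  have h1 := D.L.le_k (D.ix i)
  unfold H823.PathP.Lv.Rm at h1
  rw [if_neg (show D.L.lev (D.ix i) ≠ 0 from h)] at h1
  exact h1

/-- at the a-steps -/
theorem rk_a {i : ℕ} (h : R.IsA i) : R.C.rk i = R.r0 + R.m * D.R (S3.lv R i) := by
  have hi : i < D.N := by
    by_contra h1
    unfold S3.Run.IsA at h
    rw [H.a, H.m] at h
    exact D.not_isA (by omega) h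
  have h1 := (H.lev_of_isA hi h).2
  rw [lv_eq H, H.rk, H.r0, H.m, D.lk_eq hi.le, D.li_eq hi.le, h1]

/-- an index of the level `v + 1` after an a-step of the level `v` -/
theorem lv_add {i j : ℕ} (h : R.C.a j = R.C.a i + R.m) : S3.lv R j = S3.lv R i + 1 := by
  have h1 := D.m1
  rw [lv_eq H, lv_eq H]
  rw [H.a, H.m] at h
  unfold PN.la at h
  have h2 : D.m * D.li j = D.m * (D.li i + 1) := by rw [h]; ring
  exact Nat.eq_of_mul_eq_mul_left h1 h2

/-- **field `deep`** -/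
theorem deep {B : ℕ} {V : Finset ℕ} (h : ∀ v ∈ V, D.R v + (B + p.s) ≤ D.o + D.I v) :
    ∀ i, i ≤ R.n + p.J → S3.lv R i ∈ V → R.C.rk i + R.m * (B + p.s) ≤ R.rI i := by
  intro i _ hi
  have h1 := rk_le H i
  have h2 := h _ hi
  have h3 : R.rI i = R.r0 + R.m * (D.o + D.I (S3.lv R i)) := by
    rw [lv_eq H, H.rI, H.r0, H.m]
    rfl
  rw [h3]
  have h4 : R.m * (D.R (S3.lv R i) + (B + p.s)) ≤ R.m * (D.o + D.I (S3.lv R i)) := Nat.mul_le_mul_left _ h2
  rw [Nat.mul_add] at h4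
  omega

/-- **field `diag`** -/
theorem diag {V : Finset ℕ} (h : ∀ v, (v ∈ V ∨ v + 1 ∈ V) → v + 1 < D.A → D.R (v + 1) = D.R v + 1) :
    ∀ i j, j ≤ R.n + p.J → R.IsA i → R.IsA j → R.C.a j = R.C.a i + R.m → (S3.lv R i ∈ V ∨ S3.lv R j ∈ V) →
      R.C.rk j = R.C.rk i + R.m := by
  intro i j _ hi hj hij hv
  have h1 := lv_add H hij
  have h2 : S3.lv R j < D.A := by
    rw [lv_eq H]
    exact H.levN j
  rw [h1] at hv h2
  have h3 := h _ hv h2
  rw [rk_a H hi, rk_a H hj, h1, h3]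
  ring

omit H in
/-- for a family of second words `RC k a`, `k ≤ kk`, with 661's `Lag`, the last one being `D.R` below `A` : the hypotheses of
`deep` and `diag` for 661's young levels -/
theorem yng {RC : ℕ → ℕ → ℕ} {RI : ℕ → ℕ} {A : ℕ} (hL : H661.Yng.Lag RC RI A 2) {D0 g c kk B s : ℕ} (hD : 2 ≤ D0) (hg : 1 ≤ g)
    (hR : ∀ a ≤ A, D.R a = RC kk a) (hI : ∀ a, D.I a = RI a) (hA : D.A = A) (hB : B + s ≤ D.o + D0) :
    (∀ v ∈ H661.Yng.Vs RC RI A D0 g c kk, D.R v + (B + s) ≤ D.o + D.I v) ∧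
    ∀ v, (v ∈ H661.Yng.Vs RC RI A D0 g c kk ∨ v + 1 ∈ H661.Yng.Vs RC RI A D0 g c kk) → v + 1 < D.A →
      D.R (v + 1) = D.R v + 1 := by
  refine ⟨fun v hv => ?_, fun v hv hA1 => ?_⟩
  · obtain ⟨_, h2, h3, _⟩ := hL.dg hD hv (Nat.le_add_right v g) (Nat.le_add_right v g)
    rw [hR v h3, hI]
    omega
  · rw [hA] at hA1
    have h1 : ∀ e ≤ kk, v < A → RC e (v + 1) = RC e v + 1 := by
      rcases hv with hv | hv
      · exact (hL.dg hD hv (Nat.le_add_right v g) (Nat.le_add_right v g)).2.2.2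
      · exact (hL.dg hD hv (a' := v) (by omega) (by omega)).2.2.2
    rw [hR (v + 1) (by omega), hR v (by omega)]
    exact h1 kk le_rfl (by omega)

/-- **fields `deep` and `diag`** for 661's young levels -/
theorem deep_diag {RC : ℕ → ℕ → ℕ} {RI : ℕ → ℕ} {A : ℕ} (hL : H661.Yng.Lag RC RI A 2) {D0 g c kk B : ℕ} (hD : 2 ≤ D0)
    (hg : 1 ≤ g) (hR : ∀ a ≤ A, D.R a = RC kk a) (hI : ∀ a, D.I a = RI a) (hA : D.A = A) (hB : B + p.s ≤ D.o + D0) :
    (∀ i, i ≤ R.n + p.J → S3.lv R i ∈ H661.Yng.Vs RC RI A D0 g c kk → R.C.rk i + R.m * (B + p.s) ≤ R.rI i) ∧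
    ∀ i j, j ≤ R.n + p.J → R.IsA i → R.IsA j → R.C.a j = R.C.a i + R.m →
      (S3.lv R i ∈ H661.Yng.Vs RC RI A D0 g c kk ∨ S3.lv R j ∈ H661.Yng.Vs RC RI A D0 g c kk) →
      R.C.rk j = R.C.rk i + R.m :=
  ⟨deep H (yng hL hD hg hR hI hA hB).1, diag H (yng hL hD hg hR hI hA hB).2⟩

end has

/-! ### numbers -/

section num

variable {I : H523.Nums.Inp} {K1 : ℝ} {N0 : ℕ}

/-- **field `room`** from `hi` -/
theorem room (hδ : 0 < I.δ1) (hδ3 : 3 * I.δ1 ≤ 1) (m1 : 1 ≤ I.m) {bV : ℕ} (hi : bV ≤ I.num.B₁)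
    (hh : ((8 * (I.m * I.B) : ℕ) : ℝ) ≤ I.δ1 * I.h) : I.num.A' + 2 * bV + 8 * (I.m * I.B) ≤ I.h := by
  have hmr : (0 : ℝ) < I.m := by exact_mod_cast m1
  have hh0 : (0 : ℝ) ≤ I.h := Nat.cast_nonneg _
  have a1 : (I.A'b : ℝ) ≤ (1 - 3 * I.δ1) * I.h / I.m := by
    unfold H523.Nums.Inp.A'b
    exact Nat.floor_le (div_nonneg (mul_nonneg (by linarith) hh0) hmr.le)
  rw [le_div_iff₀ hmr] at a1
  have a2 : (I.B1b : ℝ) ≤ I.δ1 * I.h / I.m := by
    unfold H523.Nums.Inp.B1b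
    exact Nat.floor_le (div_nonneg (mul_nonneg hδ.le hh0) hmr.le)
  rw [le_div_iff₀ hmr] at a2
  have a3 : (bV : ℝ) ≤ I.m * I.B1b := by
    have : bV ≤ I.m * I.B1b := hi
    exact_mod_cast this
  have a4 : ((I.num.A' + 2 * bV + 8 * (I.m * I.B) : ℕ) : ℝ) ≤ I.h := by
    show ((I.m * I.A'b + 2 * bV + 8 * (I.m * I.B) : ℕ) : ℝ) ≤ I.h
    push_cast at hh ⊢
    nlinarith
  exact_mod_cast a4

end num

end Vale.Agent.P106.U.H449.DetF2
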