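import Vale.Agent.P127.U.H824.YPat
import Vale.Agent.P127.U.Mic.Colp

/-!
# P106 / U / H449 : the exploration (path) with several kinds of steps, abstract form (helper449)

No geometry.  A *record* is (status of the kinds, kind of the step, revealed value, delayed letter); a *state* is a
list of records, newest first; kind `none` = step of the time.  The rule (`Rl`) at the random state `T`:

* kind `κ` has status `0` if it is not allowed (`ok κ`), `1` if there is no candidate (`X κ T = none`), `2` if the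
  candidate has probability `< thr` given `(Z₁, T)`, `3` if (`two κ` and) it has probability `< thr` given `Z₂ T`,
  `4` otherwise;
* the forced kind (`frc`, a function of the state) comes first, then the first kind with status `4`, then the time
  (value `Y`); the value of a kind is the candidate if its status is `4` and `F κ` otherwise (forced steps).
* at every step the delayed letter `D` is recorded too (in the application: the true block of an earlier state, which
  is known up to `O(1)` values; it makes the blocks of step `i` exact functions of the state `i + M`).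

* `T` : the random state after `i` steps, exactly nested (`T_mono`).
* `wd` : the word of (status, kind); `wd_card` number of words.
* `Cn` : a law `Q` dominated by `P / p` on which the word is deterministic.
* `cost_one`, `cost_two` : entropy of a revealed record given `(Z₁, T)`, `Z₂ T` at most `log (1 / thr)`.
* `sum_kap_ov`, `sum_coll`, `sum_ev` : small collision probabilities under `Q` (variables revealed `M` steps later).
-/

set_option autoImplicit false

namespace Vale.Agent.P106.U.H449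

open Finset Vale.Agent.P127 Vale.Agent.P127.Stk Vale.Agent.P127.U.Nonat Vale.Agent.P127.U.YPat

/-! ### Sums of conditional relative entropies, variables revealed later -/

section ov

variable {Ω : Type} [Fintype Ω] {S T : Type*} {Q P : Law Ω}

/-- conditional relative entropy of a variable which is a function of a later variable -/
theorem kap_le_klr (hQP : ∀ ω, 0 < Q.w ω → 0 < P.w ω) {U : Type*} (X : Ω → S) (C : Ω → T) (D : Ω → U)
    (h : ∀ ω ω', 0 < P.w ω → 0 < P.w ω' → D ω = D ω' → C ω = C ω' ∧ X ω = X ω') :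
    kap Q P X C ≤ klr Q P D - klr Q P C := by
  have h2 := klr_pair hQP X C
  have h3 := klr_mono hQP D (fun ω => (X ω, C ω)) (fun ω ω' a b e => by
    obtain ⟨e1, e2⟩ := h ω ω' a b e
    rw [e1, e2])
  linarith

theorem klr_nonneg (hQP : ∀ ω, 0 < Q.w ω → 0 < P.w ω) (Z : Ω → T) : 0 ≤ klr Q P Z := by
  have h6 := klr_mono hQP Z (fun _ => ()) (fun _ _ _ _ _ => rfl)
  have h7 : klr Q P (fun _ : Ω => ()) = 0 := by
    have h8 : ∀ R : Law Ω, R.pr (fun _ : Ω => ()) () = 1 := by
      intro R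
      classical
      unfold Law.pr
      simp [R.sum_one]
    unfold klr
    simp only [h8, Real.log_one, sub_zero]
    exact Q.ex_const 0
  linarith

/-- telescoping with overlaps -/
theorem tele_ov (f : ℕ → ℝ) {B : ℝ} (h0 : ∀ i, 0 ≤ f i) (hB : ∀ i, f i ≤ B) (n M : ℕ) :
    ∑ i ∈ range n, (f (i + M) - f i) ≤ M * B := by
  have h1 : ∀ M, ∑ i ∈ range n, (f (i + M) - f i) = ∑ j ∈ range M, (f (n + j) - f j) := by
    intro M
    induction M with
    | zero => simp
    | succ M ih =>
      rw [Finset.sum_range_succ, ← ih]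
      have h2 : ∑ i ∈ range n, (f (i + (M + 1)) - f i) =
          ∑ i ∈ range n, (f (i + M) - f i) + ∑ i ∈ range n, (f (i + 1 + M) - f (i + M)) := by
        rw [← Finset.sum_add_distrib]
        refine Finset.sum_congr rfl fun i _ => ?_
        rw [show i + (M + 1) = i + 1 + M by ring]
        ring
      have h3 : ∑ i ∈ range n, (f (i + 1 + M) - f (i + M)) = f (n + M) - f (0 + M) :=
        Finset.sum_range_sub (fun i => f (i + M)) n
      rw [h2, h3, zero_add]
  rw [h1 M]
  calc ∑ j ∈ range M, (f (n + j) - f j) ≤ ∑ _j ∈ range M, B :=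
        Finset.sum_le_sum fun j _ => by linarith [h0 j, hB (n + j)]
    _ = M * B := by rw [Finset.sum_const, card_range, nsmul_eq_mul]

/-- **sum of the conditional relative entropies**, variable `X i` a function of `F (i + M)` -/
theorem sum_kap_ov {p : ℝ} (hp : 0 < p) (hd : ∀ ω, p * Q.w ω ≤ P.w ω) (F : ℕ → Ω → T) (n M : ℕ)
    (hF : ∀ i, ∀ ω ω', 0 < P.w ω → 0 < P.w ω' → F (i + 1) ω = F (i + 1) ω' → F i ω = F i ω')
    (A : Finset ℕ) (hA : A ⊆ range n) (X : ℕ → Ω → S)
    (hX : ∀ i ∈ A, ∀ ω ω', 0 < P.w ω → 0 < P.w ω' → F (i + M) ω = F (i + M) ω' → X i ω = X i ω') :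
    ∑ i ∈ A, kap Q P (X i) (F i) ≤ M * Real.log (1 / p) := by
  have hQP : ∀ ω, 0 < Q.w ω → 0 < P.w ω := fun ω h => (mul_pos hp h).trans_le (hd ω)
  have hm : ∀ i k, ∀ ω ω', 0 < P.w ω → 0 < P.w ω' → F (i + k) ω = F (i + k) ω' → F i ω = F i ω' := by
    intro i k
    induction k with
    | zero => exact fun ω ω' _ _ e => e
    | succ k ih => exact fun ω ω' a b e => ih ω ω' a b (hF (i + k) ω ω' a b e)
  have hmm : ∀ i, klr Q P (F i) ≤ klr Q P (F (i + M)) := fun i =>
    klr_mono hQP (F (i + M)) (F i) (hm i M)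
  have h1 : ∑ i ∈ A, kap Q P (X i) (F i) ≤ ∑ i ∈ A, (klr Q P (F (i + M)) - klr Q P (F i)) := by
    refine Finset.sum_le_sum fun i hi => ?_
    exact kap_le_klr hQP (X i) (F i) (F (i + M)) fun ω ω' a b e => ⟨hm i M ω ω' a b e, hX i hi ω ω' a b e⟩
  have h2 : ∑ i ∈ A, (klr Q P (F (i + M)) - klr Q P (F i)) ≤
      ∑ i ∈ range n, (klr Q P (F (i + M)) - klr Q P (F i)) :=
    Finset.sum_le_sum_of_subset_of_nonneg hA fun i _ _ => by linarith [hmm i]
  exact h1.trans (h2.trans (tele_ov (fun i => klr Q P (F i)) (fun i => klr_nonneg hQP _)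
    (fun i => klr_le hp hd _) n M))

/-- **sum of the collision probabilities under `Q`** of variables which are light under `P` -/
theorem sum_coll {p : ℝ} (hp : 0 < p) (hd : ∀ ω, p * Q.w ω ≤ P.w ω) (F : ℕ → Ω → T) (n M : ℕ)
    (hF : ∀ i, ∀ ω ω', 0 < P.w ω → 0 < P.w ω' → F (i + 1) ω = F (i + 1) ω' → F i ω = F i ω')
    (A : Finset ℕ) (hA : A ⊆ range n) (X : ℕ → Ω → S)
    (hX : ∀ i ∈ A, ∀ ω ω', 0 < P.w ω → 0 < P.w ω' → F (i + M) ω = F (i + M) ω' → X i ω = X i ω')
    {thr ε : ℝ} (ht : 0 < thr) (hε : thr < ε)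
    (h : ∀ i ∈ A, ∀ ω, 0 < Q.w ω → cp P (X i) (F i) ω ≤ thr) :
    ∑ i ∈ A, colp Q (X i) (F i) ≤
      A.card * ε + (M * Real.log (1 / p) + A.card) / Real.log (ε / thr) := by
  have hQP : ∀ ω, 0 < Q.w ω → 0 < P.w ω := fun ω h => (mul_pos hp h).trans_le (hd ω)
  have hL : 0 < Real.log (ε / thr) := Real.log_pos (by rwa [one_lt_div ht])
  have h1 := sum_kap_ov hp hd F n M hF A hA X hX
  calc ∑ i ∈ A, colp Q (X i) (F i)
      ≤ ∑ i ∈ A, (ε + (kap Q P (X i) (F i) + 1) / Real.log (ε / thr)) :=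
        Finset.sum_le_sum fun i hi => coll_le hQP (X i) (F i) ht hε (h i hi)
    _ = A.card * ε + (∑ i ∈ A, kap Q P (X i) (F i) + A.card) / Real.log (ε / thr) := by
        rw [Finset.sum_add_distrib, Finset.sum_const, nsmul_eq_mul, ← Finset.sum_div,
          Finset.sum_add_distrib, Finset.sum_const, nsmul_eq_mul, mul_one]
    _ ≤ _ := by
        gcongr

end ov

/-! ### The exploration -/

/-- status and kind of a step -/
abbrev Lt (K : ℕ) := (Fin K → Fin 5) × Option (Fin K)

/-- state: (status, kind), revealed value and delayed letter; newest first -/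
abbrev Stt (K : ℕ) (δ γ : Type) := List (Lt K × δ × γ)

/-- the rule -/
structure Rl (Ω : Type) (K : ℕ) (δ γ ζ₁ ζ₂ : Type) where
  /-- first side variable -/
  Z₁ : Ω → ζ₁
  /-- second side variable, with what is known of the state -/
  Z₂ : (Ω → Stt K δ γ) → Ω → ζ₂
  /-- allowed kinds -/
  ok : Fin K → Stt K δ γ → Prop
  /-- kinds with the second condition -/
  two : Fin K → Prop
  /-- candidate -/
  X : Fin K → (Ω → Stt K δ γ) → Ω → Option δ
  /-- forced kind -/
  frc : Stt K δ γ → Option (Fin K)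
  /-- forced value -/
  F : Fin K → (Ω → Stt K δ γ) → Ω → δ
  /-- next block of the time -/
  Y : (Ω → Stt K δ γ) → Ω → δ
  /-- delayed letter -/
  D : (Ω → Stt K δ γ) → Ω → γ
  thr : ℝ

namespace Rl

variable {Ω : Type} [Fintype Ω] {K : ℕ} {δ γ ζ₁ ζ₂ : Type} (e : Rl Ω K δ γ ζ₁ ζ₂)

/-- what is known -/
def K₁ (T : Ω → Stt K δ γ) (ω : Ω) : ζ₁ × Stt K δ γ := (e.Z₁ ω, T ω)

open Classical in
/-- status of a kind -/
noncomputable def sta (P : Law Ω) (T : Ω → Stt K δ γ) (κ : Fin K) (ω : Ω) : Fin 5 :=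
  if ¬ e.ok κ (T ω) then 0 else if e.X κ T ω = none then 1
  else if cp P (e.X κ T) (e.K₁ T) ω < e.thr then 2
  else if e.two κ ∧ cp P (e.X κ T) (e.Z₂ T) ω < e.thr then 3 else 4

open Classical in
/-- kind of the step -/
noncomputable def knd (st : Fin K → Fin 5) (s : Stt K δ γ) : Option (Fin K) :=
  if e.frc s ≠ none then e.frc s
  else if h : ∃ κ, st κ = 4 then some (Finset.min' (univ.filter fun κ => st κ = 4)
    (by obtain ⟨κ, h⟩ := h; exact ⟨κ, by simp [h]⟩)) else none

/-- revealed value -/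
noncomputable def vl (T : Ω → Stt K δ γ) (ω : Ω) (st : Fin K → Fin 5) : Option (Fin K) → δ
  | none => e.Y T ω
  | some κ => if st κ = 4 then (e.X κ T ω).getD (e.F κ T ω) else e.F κ T ω

/-- **the random state after `i` steps** -/
noncomputable def T (P : Law Ω) : ℕ → Ω → Stt K δ γ
  | 0 => fun _ => []
  | i + 1 => fun ω =>
      ((fun κ => e.sta P (T P i) κ ω, e.knd (fun κ => e.sta P (T P i) κ ω) (T P i ω)),
        e.vl (T P i) ω (fun κ => e.sta P (T P i) κ ω)
          (e.knd (fun κ => e.sta P (T P i) κ ω) (T P i ω)), e.D (T P i) ω) :: T P i ω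

/-- status at the step `i` -/
noncomputable def st (P : Law Ω) (i : ℕ) (κ : Fin K) (ω : Ω) : Fin 5 := e.sta P (e.T P i) κ ω

/-- kind of the step `i` -/
noncomputable def kd (P : Law Ω) (i : ℕ) (ω : Ω) : Option (Fin K) :=
  e.knd (fun κ => e.st P i κ ω) (e.T P i ω)

/-- value of the step `i` -/
noncomputable def val (P : Law Ω) (i : ℕ) (ω : Ω) : δ :=
  e.vl (e.T P i) ω (fun κ => e.st P i κ ω) (e.kd P i ω)

/-- the letter of the step `i` -/
noncomputable def lt (P : Law Ω) (i : ℕ) (ω : Ω) : Lt K := (fun κ => e.st P i κ ω, e.kd P i ω)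

/-- **the word** -/
noncomputable def wd (P : Law Ω) (i : ℕ) (ω : Ω) : List (Lt K) := (e.T P i ω).map Prod.fst

variable {e} {P : Law Ω}

@[simp] theorem T_zero (ω : Ω) : e.T P 0 ω = [] := rfl

theorem T_succ (i : ℕ) (ω : Ω) :
    e.T P (i + 1) ω = (e.lt P i ω, e.val P i ω, e.D (e.T P i) ω) :: e.T P i ω := rfl

@[simp] theorem wd_zero (ω : Ω) : e.wd P 0 ω = [] := rfl

theorem wd_succ (i : ℕ) (ω : Ω) : e.wd P (i + 1) ω = e.lt P i ω :: e.wd P i ω := rfl

theorem T_length (i : ℕ) (ω : Ω) : (e.T P i ω).length = i := by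
  induction i with
  | zero => rfl
  | succ i ih => rw [T_succ, List.length_cons, ih]

theorem wd_length (i : ℕ) (ω : Ω) : (e.wd P i ω).length = i := by
  unfold wd
  rw [List.length_map, T_length]

theorem T_drop (i k : ℕ) (ω : Ω) : (e.T P (i + k) ω).drop k = e.T P i ω := by
  induction k with
  | zero => simp
  | succ k ih => rw [← Nat.add_assoc, T_succ, List.drop_succ_cons, ih]

theorem wd_drop (i k : ℕ) (ω : Ω) : (e.wd P (i + k) ω).drop k = e.wd P i ω := by
  unfold wd
  rw [← List.map_drop, T_drop]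

/-- exact nestedness -/
theorem T_mono {i j : ℕ} (h : i ≤ j) {ω ω' : Ω} (hT : e.T P j ω = e.T P j ω') :
    e.T P i ω = e.T P i ω' := by
  obtain ⟨k, rfl⟩ := Nat.exists_eq_add_of_le h
  rw [← T_drop i k ω, ← T_drop i k ω', hT]

theorem wd_mono {i j : ℕ} (h : i ≤ j) {ω ω' : Ω} (hT : e.wd P j ω = e.wd P j ω') :
    e.wd P i ω = e.wd P i ω' := by
  obtain ⟨k, rfl⟩ := Nat.exists_eq_add_of_le h
  rw [← wd_drop i k ω, ← wd_drop i k ω', hT]

theorem T_wd {i : ℕ} {ω ω' : Ω} (h : e.T P i ω = e.T P i ω') : e.wd P i ω = e.wd P i ω' := by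
  unfold wd
  rw [h]

/-! ### The status -/

theorem st_zero {i : ℕ} {κ : Fin K} {ω : Ω} : e.st P i κ ω = 0 ↔ ¬ e.ok κ (e.T P i ω) := by
  classical
  unfold st sta
  split_ifs with h1 h2 h3 h4 <;> simp_all

theorem st_one {i : ℕ} {κ : Fin K} {ω : Ω} : e.st P i κ ω = 1 ↔
    e.ok κ (e.T P i ω) ∧ e.X κ (e.T P i) ω = none := by
  classical
  unfold st sta
  split_ifs with h1 h2 h3 h4 <;> simp_all

theorem st_two {i : ℕ} {κ : Fin K} {ω : Ω} : e.st P i κ ω = 2 ↔
    e.ok κ (e.T P i ω) ∧ e.X κ (e.T P i) ω ≠ none ∧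
      cp P (e.X κ (e.T P i)) (e.K₁ (e.T P i)) ω < e.thr := by
  classical
  unfold st sta
  split_ifs with h1 h2 h3 h4 <;> simp_all

theorem st_three {i : ℕ} {κ : Fin K} {ω : Ω} : e.st P i κ ω = 3 ↔
    e.ok κ (e.T P i ω) ∧ e.X κ (e.T P i) ω ≠ none ∧
      e.thr ≤ cp P (e.X κ (e.T P i)) (e.K₁ (e.T P i)) ω ∧ e.two κ ∧
      cp P (e.X κ (e.T P i)) (e.Z₂ (e.T P i)) ω < e.thr := by
  classical
  unfold st sta
  split_ifs with h1 h2 h3 h4 <;> simp_all

theorem st_four {i : ℕ} {κ : Fin K} {ω : Ω} : e.st P i κ ω = 4 ↔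
    e.ok κ (e.T P i ω) ∧ e.X κ (e.T P i) ω ≠ none ∧
      e.thr ≤ cp P (e.X κ (e.T P i)) (e.K₁ (e.T P i)) ω ∧
      (e.two κ → e.thr ≤ cp P (e.X κ (e.T P i)) (e.Z₂ (e.T P i)) ω) := by
  classical
  unfold st sta
  split_ifs with h1 h2 h3 h4 <;> simp_all

/-- a step of kind `none` is not forced and no kind has status `4` -/
theorem kd_none {i : ℕ} {ω : Ω} (h : e.kd P i ω = none) :
    e.frc (e.T P i ω) = none ∧ ∀ κ : Fin K, e.st P i κ ω ≠ 4 := by
  classical
  unfold kd knd at h
  by_cases hf : e.frc (e.T P i ω) ≠ none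
  · rw [if_pos hf] at h
    exact absurd h hf
  · rw [if_neg hf] at h
    push Not at hf
    refine ⟨hf, fun κ hκ => ?_⟩
    rw [dif_pos ⟨κ, hκ⟩] at h
    exact absurd h (by simp)

/-- a revealed kind is forced or has status `4` -/
theorem kd_some {i : ℕ} {ω : Ω} {κ : Fin K} (h : e.kd P i ω = some κ) :
    e.frc (e.T P i ω) = some κ ∨ (e.frc (e.T P i ω) = none ∧ e.st P i κ ω = 4) := by
  classical
  unfold kd knd at h
  by_cases hf : e.frc (e.T P i ω) ≠ none
  · rw [if_pos hf] at h
    exact Or.inl h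
  · rw [if_neg hf] at h
    push Not at hf
    right
    refine ⟨hf, ?_⟩
    by_cases h1 : ∃ κ, e.st P i κ ω = 4
    · rw [dif_pos h1] at h
      have h2 := Option.some.inj h
      have h3 := Finset.min'_mem (univ.filter fun κ => e.st P i κ ω = 4)
        (by obtain ⟨κ', hκ'⟩ := h1; exact ⟨κ', by simpa using hκ'⟩)
      rw [h2] at h3
      exact (Finset.mem_filter.1 h3).2
    · rw [dif_neg h1] at h
      exact absurd h (by simp)

/-- a forced kind is revealed -/
theorem kd_forced {i : ℕ} {ω : Ω} (h : e.frc (e.T P i ω) ≠ none) :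
    e.kd P i ω = e.frc (e.T P i ω) := by
  classical
  unfold kd knd
  rw [if_pos h]

/-- the value of an unforced step -/
theorem val_some {i : ℕ} {ω : Ω} {κ : Fin K} (h : e.kd P i ω = some κ) (h4 : e.st P i κ ω = 4) :
    e.X κ (e.T P i) ω = some (e.val P i ω) := by
  have h1 := (st_four.1 h4).2.1
  unfold val vl
  rw [h]
  simp only [h4, if_true]
  cases hx : e.X κ (e.T P i) ω with
  | none => exact absurd hx h1
  | some x => rfl

theorem val_none {i : ℕ} {ω : Ω} (h : e.kd P i ω = none) : e.val P i ω = e.Y (e.T P i) ω := by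
  unfold val vl
  rw [h]

theorem val_forced {i : ℕ} {ω : Ω} {κ : Fin K} (h : e.kd P i ω = some κ) (h4 : e.st P i κ ω ≠ 4) :
    e.val P i ω = e.F κ (e.T P i) ω := by
  unfold val vl
  rw [h]
  simp only [h4, if_false]

/-! ### Number of words -/

theorem wd_card (n : ℕ) : (img (e.wd P n)).card ≤ (5 ^ K * (K + 1)) ^ n := by
  classical
  have h2 : img (e.wd P n) ⊆
      (Finset.univ : Finset (List.Vector (Lt K) n)).image List.Vector.toList := by
    intro w hw
    rw [mem_img] at hw
    obtain ⟨ω, rfl⟩ := hw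
    exact Finset.mem_image.2 ⟨⟨e.wd P n ω, wd_length n ω⟩, Finset.mem_univ _, rfl⟩
  refine (Finset.card_le_card h2).trans (Finset.card_image_le.trans ?_)
  rw [Finset.card_univ, card_vector]
  refine le_of_eq ?_
  congr 1
  simp [Lt, Fintype.card_prod]

end Rl

end Vale.Agent.P106.U.H449
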