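import Vale.Agent.P106.U.H61.NrmDefs

/-!
# P106 / U / H449 : from the support to all points (helper449)

* `val_supp`, `XX_supp`, `Dd_supp`, `nex_supp`, `nrm_supp` : the objects depend on the variables on the support only.
* `full` : a system in normal form may be replaced by one for which all hypotheses hold at EVERY point: compose the
  variables with a map `r`, the identity on the support, with values in the support.
-/

set_option autoImplicit false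

namespace Vale.Agent.P106.U.H449

open Finset Vale.Agent.P127 Vale.Agent.P127.Stk Vale.Agent.P106.W Vale.Agent.P106.K

namespace Full

variable {Ω : Type} [Fintype Ω] {S T : Type*} {γ : Type} {P : Law Ω}

theorem pr_supp {X X' : Ω → S} (h : ∀ ω, 0 < P.w ω → X ω = X' ω) (x : S) : P.pr X x = P.pr X' x := by
  classical
  unfold Law.pr
  rw [Finset.sum_filter, Finset.sum_filter]
  refine Finset.sum_congr rfl fun ω _ => ?_
  rcases (P.nn ω).eq_or_lt with h0 | h0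
  · rw [← h0]
    simp
  · rw [h ω h0]

theorem ex_supp {f g : Ω → ℝ} (h : ∀ ω, 0 < P.w ω → f ω = g ω) : P.ex f = P.ex g :=
  le_antisymm (P.ex_mono fun ω hω => (h ω hω).le) (P.ex_mono fun ω hω => (h ω hω).ge)

theorem H_supp {X X' : Ω → S} (h : ∀ ω, 0 < P.w ω → X ω = X' ω) : P.H X = P.H X' := by
  unfold Law.H
  refine ex_supp fun ω hω => ?_
  rw [pr_supp h, h ω hω]

theorem hc_supp {X X' : Ω → S} {Y Y' : Ω → T} (h : ∀ ω, 0 < P.w ω → X ω = X' ω) (h' : ∀ ω, 0 < P.w ω → Y ω = Y' ω) :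
    Stk.hc P X Y = Stk.hc P X' Y' := by
  unfold Stk.hc
  rw [H_supp (P := P) (X := fun ω => (X ω, Y ω)) (X' := fun ω => (X' ω, Y' ω)) fun ω hω => by rw [h ω hω, h' ω hω],
    H_supp h']

variable {l l' : Ω → Ry} {t t' : Ω → ℝ} {C C' : Ω → γ} {W W' : Ω → Cbx} {e e' : Ω → ℕ × ℕ}

theorem val_supp (lam : ℝ) (a : ℕ) (hl : ∀ ω, 0 < P.w ω → l ω = l' ω) (ht : ∀ ω, 0 < P.w ω → t ω = t' ω)
    (hC : ∀ ω, 0 < P.w ω → C ω = C' ω) (hW : ∀ ω, 0 < P.w ω → W ω = W' ω) :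
    val lam P l t C a W = val lam P l' t' C' a W' := by
  unfold val
  rw [hc_supp (P := P) hl (Y := fun ω => (W ω, fl1 a (t ω), C ω)) (Y' := fun ω => (W' ω, fl1 a (t' ω), C' ω))
    fun ω hω => by rw [hW ω hω, ht ω hω, hC ω hω]]
  congr 1
  exact ex_supp fun ω hω => by rw [hW ω hω]

theorem valX_supp (lam k La : ℝ) (a : ℕ) (hl : ∀ ω, 0 < P.w ω → l ω = l' ω) (ht : ∀ ω, 0 < P.w ω → t ω = t' ω)
    (hC : ∀ ω, 0 < P.w ω → C ω = C' ω) (he : ∀ ω, 0 < P.w ω → e ω = e' ω) (hW : ∀ ω, 0 < P.w ω → W ω = W' ω) :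
    valX lam k La P l t C a e W = valX lam k La P l' t' C' a e' W' := by
  unfold valX
  rw [val_supp lam a hl ht hC hW]
  rw [hc_supp (P := P) (X := fun ω => shp (W ω)) (X' := fun ω => shp (W' ω))
    (Y := fun ω => (l ω, fl1 a (t ω), C ω)) (Y' := fun ω => (l' ω, fl1 a (t' ω), C' ω))
    (fun ω hω => by rw [hW ω hω]) fun ω hω => by rw [hl ω hω, ht ω hω, hC ω hω]]
  rw [ex_supp (P := P) (f := fun ω => dsh (W ω) (e ω)) (g := fun ω => dsh (W' ω) (e' ω))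
    fun ω hω => by rw [hW ω hω, he ω hω]]

/-- the image of a point of the support of an extension -/
theorem pos_of_ext {Ω' : Type} [Fintype Ω'] {P' : Law Ω'} {π : Ω' → Ω} (hπ : ∀ ω, P'.pr π ω = P.w ω) {ω : Ω'}
    (hω : 0 < P'.w ω) : 0 < P.w (π ω) := by
  rw [← hπ]
  exact P'.pr_pos π hω

theorem xSet_sub (c lam k La : ℝ) (L a : ℕ) (hl : ∀ ω, 0 < P.w ω → l ω = l' ω) (ht : ∀ ω, 0 < P.w ω → t ω = t' ω)
    (hC : ∀ ω, 0 < P.w ω → C ω = C' ω) (he : ∀ ω, 0 < P.w ω → e ω = e' ω) :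
    xSet c lam k La P l t C e L a ⊆ xSet c lam k La P l' t' C' e' L a := by
  rintro v ⟨Ω', hF, P', π, W, hπ, hlb, rfl⟩
  have hp : ∀ ω, 0 < P'.w ω → 0 < P.w (π ω) := fun ω hω => pos_of_ext hπ hω
  refine ⟨Ω', hF, P', π, W, hπ, fun ω hω => ?_, ?_⟩
  · rw [← hl _ (hp ω hω), ← ht _ (hp ω hω)]
    exact hlb ω hω
  · exact valX_supp lam k La a (fun ω hω => hl _ (hp ω hω)) (fun ω hω => ht _ (hp ω hω))
      (fun ω hω => hC _ (hp ω hω)) (fun ω hω => he _ (hp ω hω)) fun _ _ => rfl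

theorem XX_supp (c lam k La : ℝ) (L a : ℕ) (hl : ∀ ω, 0 < P.w ω → l ω = l' ω) (ht : ∀ ω, 0 < P.w ω → t ω = t' ω)
    (hC : ∀ ω, 0 < P.w ω → C ω = C' ω) (he : ∀ ω, 0 < P.w ω → e ω = e' ω) :
    XX c lam k La P l t C e L a = XX c lam k La P l' t' C' e' L a := by
  unfold XX
  congr 1
  exact Set.Subset.antisymm (xSet_sub c lam k La L a hl ht hC he)
    (xSet_sub c lam k La L a (fun ω hω => (hl ω hω).symm) (fun ω hω => (ht ω hω).symm)
      (fun ω hω => (hC ω hω).symm) fun ω hω => (he ω hω).symm)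

theorem Dd_supp (a : ℕ) (hl : ∀ ω, 0 < P.w ω → l ω = l' ω) (ht : ∀ ω, 0 < P.w ω → t ω = t' ω)
    (hC : ∀ ω, 0 < P.w ω → C ω = C' ω) : Dd P l t C a = Dd P l' t' C' a := by
  unfold Dd
  congr 1
  exact hc_supp (fun ω hω => by rw [ht ω hω]) fun ω hω => by rw [hl ω hω, hC ω hω]

/-- **near-extremal systems depend on the support only** -/
theorem nex_supp {c lam N k β d : ℝ} {L h q : ℕ} (hl : ∀ ω, 0 < P.w ω → l ω = l' ω)
    (ht : ∀ ω, 0 < P.w ω → t ω = t' ω) (hC : ∀ ω, 0 < P.w ω → C ω = C' ω) (hW : ∀ ω, 0 < P.w ω → W ω = W' ω)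
    (H : NEx c lam N k β d P l t C L h q W) : NEx c lam N k β d P l' t' C' L h q W' where
  ok ω hω := by rw [← hl ω hω, ← ht ω hω]; exact H.ok ω hω
  hL := H.hL
  lb ω hω := by rw [← hl ω hω, ← ht ω hω, ← hW ω hω]; exact H.lb ω hω
  ex := by
    have h1 := H.ex
    rw [XX_supp c lam k 0 L 0 hl ht hC (e := fun _ => (0, q)) (e' := fun _ => (0, q)) (fun _ _ => rfl),
      Dd_supp h hl ht hC, val_supp lam h hl ht hC hW] at h1
    exact h1

open Vale.Agent.P106.U.H61 in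
/-- **the normal form depends on the support only** -/
theorem nrm_supp {K0 K1 lam N k β d : ℝ} {Rm L h q r0 : ℕ} {S : Cbx} (hl : ∀ ω, 0 < P.w ω → l ω = l' ω)
    (ht : ∀ ω, 0 < P.w ω → t ω = t' ω) (hW : ∀ ω, 0 < P.w ω → W ω = W' ω)
    (H : Nrm K0 K1 Rm lam N k β d P l t L h q r0 W S) : Nrm K0 K1 Rm lam N k β d P l' t' L h q r0 W' S where
  nex := nex_supp hl ht (fun _ _ => rfl) hW H.nex
  str ω hω := by rw [← hl ω hω, ← ht ω hω, ← hW ω hω]; exact H.str ω hω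
  t1 ω hω := by rw [← ht ω hω]; exact H.t1 ω hω
  slb ω hω := by rw [← hl ω hω, ← ht ω hω, ← hW ω hω]; exact H.slb ω hω
  nu := by
    obtain ⟨ν, ρ, h1, h2, h3⟩ := H.nu
    exact ⟨ν, ρ, h1, h2, fun ω hω => by rw [← hl ω hω, ← ht ω hω, ← hW ω hω]; exact h3 ω hω⟩
  rm := H.rm
  r0q := H.r0q
  qr0 := H.qr0

/-- a retraction to the support -/
theorem exists_ret (P : Law Ω) : ∃ r : Ω → Ω, (∀ ω, 0 < P.w (r ω)) ∧ ∀ ω, 0 < P.w ω → r ω = ω := by
  classical
  obtain ⟨ω0, h0⟩ : ∃ ω, 0 < P.w ω := by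
    by_contra hcon
    push Not at hcon
    have : (1 : ℝ) ≤ 0 := by
      rw [← P.sum_one]
      exact Finset.sum_nonpos fun ω _ => hcon ω
    linarith
  refine ⟨fun ω => if 0 < P.w ω then ω else ω0, fun ω => ?_, fun ω hω => if_pos hω⟩
  by_cases h : 0 < P.w ω
  · simp only [if_pos h]
    exact h
  · simp only [if_neg h]
    exact h0

open Vale.Agent.P106.U.H61 in
/-- **normal form, with all variables composed with a retraction to the support** -/
theorem full {K0 K1 lam N k β d : ℝ} {Rm L h q r0 : ℕ} {S : Cbx}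
    (H : Nrm K0 K1 Rm lam N k β d P l t L h q r0 W S) :
    ∃ r : Ω → Ω, (∀ ω, 0 < P.w (r ω)) ∧ (∀ ω, 0 < P.w ω → r ω = ω) ∧
      Nrm K0 K1 Rm lam N k β d P (fun ω => l (r ω)) (fun ω => t (r ω)) L h q r0 (fun ω => W (r ω)) S := by
  obtain ⟨r, h1, h2⟩ := exists_ret P
  exact ⟨r, h1, h2, nrm_supp (fun ω hω => by rw [h2 ω hω]) (fun ω hω => by rw [h2 ω hω])
    (fun ω hω => by rw [h2 ω hω]) H⟩

end Full

end Vale.Agent.P106.U.H449
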