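import Vale.Agent.P106.U.H449.Wrd1
import Vale.Agent.P106.U.H824.Gh

/-!
# P106 / U / H449 : word 1, the rule with heavy lines (helper449)

Data `Dt` : `Z` (the ray and side letters), `tb j` = the first `j` blocks of the time, `ph j` = the first `j` blocks of
the own slope, `V s` = the true cell (time block, block of the deviation from the line of the state `s`), `mem b v` = the
line `b` meets the cell `v`, `enc` encoding of lines, `fl` forced line.

`rule P p thr` : candidates: `φ` = next block; line = first heavy line (greedy list given `(Z, T)`, helper824's `Gh`)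
through the true cell; delayed letter = the true cell of the state `Md` steps ago, if that step was a step of the time
with an allowed line.

* `st0`, `st1` : statuses at the steps of the time.
* `sum_phi` : the next block of the slope is nonatomic given `(Z, T i)` at most steps of the time.
* `sum_line` : at most steps of the time no line (function of `(Z, T i)`) is heavy.
-/

set_option autoImplicit false

namespace Vale.Agent.P106.U.H449

open Finset Vale.Agent.P127 Vale.Agent.P127.Stk Vale.Agent.P127.U.Nonat Vale.Agent.P127.U.YPat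

/-- states of word 1 -/
abbrev S1 := Stt 2 (ℤ × ℤ) (Option (ℤ × ℤ))

/-- data of word 1 -/
structure Dt (Ω ζ ι : Type) where
  /-- ray and side letters -/
  Z : Ω → ζ
  /-- blocks of the time -/
  tb : ℕ → Ω → ℤ
  /-- blocks of the own slope -/
  ph : ℕ → Ω → ℤ
  /-- true cell of a state -/
  V : S1 → Ω → ℤ × ℤ
  /-- incidence -/
  mem : ι → ℤ × ℤ → Prop
  /-- encoding of the lines -/
  enc : ι → ℤ × ℤ
  /-- forced line -/
  fl : S1 → Ω → ι
  /-- delay -/
  Md : ℕ

namespace Dt

variable {Ω : Type} [Fintype Ω] {ζ ι : Type} (d : Dt Ω ζ ι)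

open Classical in
/-- **the rule** -/
noncomputable def rule (P : Law Ω) (p : Pm) (thr : ℝ) : Rl Ω 2 (ℤ × ℤ) (Option (ℤ × ℤ)) ζ Unit where
  Z₁ := d.Z
  Z₂ := fun _ _ => ()
  ok := p.ok
  two := fun _ => False
  X := fun κ T ω => if κ = 0 then some (d.ph (cnt (some 0) (T ω) + 1) ω, 0)
    else (Gh.idx P (fun ω => d.V (T ω) ω) (fun ω => (d.Z ω, T ω)) d.mem thr ω).map d.enc
  frc := p.frc
  F := fun κ T ω => if κ = 0 then (d.ph (cnt (some 0) (T ω) + 1) ω, 0) else d.enc (d.fl (T ω) ω)
  Y := fun T ω => (d.tb (cnt none (T ω) + 1) ω, 0)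
  D := fun T ω => if (((T ω).drop (d.Md - 1)).head?.map fun r => r.1.2) = some none ∧
      p.ok 1 ((T ω).drop d.Md) then some (d.V ((T ω).drop d.Md) ω) else none
  thr := thr

variable {d} {P Q : Law Ω} {p : Pm} {thr : ℝ}

theorem is : Rl.Is p (d.rule P p thr) := ⟨rfl, rfl⟩

theorem X0 (T : Ω → S1) (ω : Ω) :
    (d.rule P p thr).X 0 T ω = some (d.ph (cnt (some 0) (T ω) + 1) ω, 0) := by
  unfold rule
  simp only [if_true]

theorem F0 (T : Ω → S1) (ω : Ω) :
    (d.rule P p thr).F 0 T ω = (d.ph (cnt (some 0) (T ω) + 1) ω, 0) := by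
  unfold rule
  simp only [if_true]

theorem X1 (T : Ω → S1) (ω : Ω) :
    (d.rule P p thr).X 1 T ω = (Gh.idx P (fun ω => d.V (T ω) ω) (fun ω => (d.Z ω, T ω))
      d.mem thr ω).map d.enc := by
  unfold rule
  simp only [show ¬ ((1 : Fin 2) = 0) by decide, if_false]

theorem F1 (T : Ω → S1) (ω : Ω) : (d.rule P p thr).F 1 T ω = d.enc (d.fl (T ω) ω) := by
  unfold rule
  simp only [show ¬ ((1 : Fin 2) = 0) by decide, if_false]

/-- the value of a `φ`-step -/
theorem val0 {i : ℕ} {ω : Ω} (h : (d.rule P p thr).kd P i ω = some 0) :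
    (d.rule P p thr).val P i ω = (d.ph (cnt (some 0) ((d.rule P p thr).T P i ω) + 1) ω, 0) := by
  classical
  by_cases h4 : (d.rule P p thr).st P i 0 ω = 4
  · have h1 := Rl.val_some h h4
    rw [X0] at h1
    exact (Option.some.inj h1).symm
  · have h1 := Rl.val_forced h h4
    rw [h1, F0]

/-- the delayed letter at the step `i + Md` -/
theorem D_eq (hMd : 1 ≤ d.Md) (i : ℕ) (ω : Ω) :
    (d.rule P p thr).D ((d.rule P p thr).T P (i + d.Md)) ω =
      (open Classical in if (d.rule P p thr).kd P i ω = none ∧ p.ok 1 ((d.rule P p thr).T P i ω)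
        then some (d.V ((d.rule P p thr).T P i ω) ω) else none) := by
  classical
  set e := d.rule P p thr with he
  have h1 : (e.T P (i + d.Md) ω).drop d.Md = e.T P i ω := Rl.T_drop i d.Md ω
  have h2 : (e.T P (i + d.Md) ω).drop (d.Md - 1) = e.T P (i + 1) ω := by
    have := Rl.T_drop (e := e) (P := P) (i + 1) (d.Md - 1) ω
    rwa [show i + 1 + (d.Md - 1) = i + d.Md by omega] at this
  show (if (((e.T P (i + d.Md) ω).drop (d.Md - 1)).head?.map fun r => r.1.2) = some none ∧
      p.ok 1 ((e.T P (i + d.Md) ω).drop d.Md) then some (d.V ((e.T P (i + d.Md) ω).drop d.Md) ω)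
      else none) = _
  rw [h1, h2, Rl.T_succ]
  have h3 : ((((e.lt P i ω, e.val P i ω, e.D (e.T P i) ω) :: e.T P i ω) : S1).head?.map
      fun r => r.1.2) = some (e.kd P i ω) := rfl
  rw [h3]
  by_cases hk : e.kd P i ω = none
  · rw [hk]
    simp
  · have h4 : ¬ (some (e.kd P i ω) = some none) := fun h => hk (Option.some.inj h)
    rw [if_neg (fun h => h4 h.1), if_neg (fun h => hk h.1)]

/-- statuses of the slope at a step of the time -/
theorem st0 {i : ℕ} {ω : Ω} (h : (d.rule P p thr).kd P i ω = none)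
    (ho : p.ok 0 ((d.rule P p thr).T P i ω)) : (d.rule P p thr).st P i 0 ω = 2 := by
  classical
  set e := d.rule P p thr with he
  have h1 : e.st P i 0 ω ≠ 4 := (Rl.kd_none h).2 0
  have h2 : e.st P i 0 ω ≠ 0 := fun hc => (Rl.st_zero.1 hc) ho
  have h3 : e.st P i 0 ω ≠ 1 := fun hc => by
    have h4 := (Rl.st_one.1 hc).2
    have h5 : e.X 0 (e.T P i) ω = some (d.ph (cnt (some 0) (e.T P i ω) + 1) ω, 0) := X0 _ _
    rw [h5] at h4
    exact absurd h4 (by simp)
  have h4 : e.st P i 0 ω ≠ 3 := fun hc => (Rl.st_three.1 hc).2.2.2.1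
  generalize e.st P i 0 ω = x at h1 h2 h3 h4
  fin_cases x <;> simp_all

theorem cp_comp {S S' T : Type*} (P : Law Ω) (X : Ω → S) (f : S → S') (Y : Ω → T) (ω : Ω) :
    cp P X Y ω ≤ cp P (fun ω => f (X ω)) Y ω := by
  classical
  unfold cp
  refine div_le_div_of_nonneg_right ?_ (P.pr_nonneg _ _)
  unfold Law.pr
  refine Finset.sum_le_sum_of_subset_of_nonneg ?_ fun ω _ _ => P.nn ω
  intro ω' hω'
  simp only [Finset.mem_filter, Finset.mem_univ, true_and, Prod.mk.injEq] at hω' ⊢
  exact ⟨by rw [hω'.1], hω'.2⟩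

/-- statuses of the line at a step of the time -/
theorem st1 (ht : 0 < thr) {i : ℕ} {ω : Ω} (hω : 0 < P.w ω)
    (h : (d.rule P p thr).kd P i ω = none)
    (ho : p.ok 1 ((d.rule P p thr).T P i ω)) : (d.rule P p thr).st P i 1 ω = 1 := by
  classical
  set e := d.rule P p thr with he
  have h1 : e.st P i 1 ω ≠ 4 := (Rl.kd_none h).2 1
  have h2 : e.st P i 1 ω ≠ 0 := fun hc => (Rl.st_zero.1 hc) ho
  have h3 : e.st P i 1 ω ≠ 2 := fun hc => by
    obtain ⟨_, h5, h6⟩ := Rl.st_two.1 hc
    have h7 : e.X 1 (e.T P i) = fun ω => (Gh.idx P (fun ω => d.V (e.T P i ω) ω)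
        (fun ω => (d.Z ω, e.T P i ω)) d.mem thr ω).map d.enc := by
      funext ω
      exact X1 _ _
    have h8 : Gh.idx P (fun ω => d.V (e.T P i ω) ω) (fun ω => (d.Z ω, e.T P i ω)) d.mem thr ω ≠
        none := by
      intro hn
      rw [h7] at h5
      simp only [hn, Option.map_none, ne_eq, not_true_eq_false] at h5
    have h9 := Gh.idx_cp (mem := d.mem) ht hω h8
    have h10 := cp_comp P (Gh.idx P (fun ω => d.V (e.T P i ω) ω) (fun ω => (d.Z ω, e.T P i ω))
      d.mem thr) (fun o => o.map d.enc) (fun ω => (d.Z ω, e.T P i ω)) ω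
    rw [h7] at h6
    have h11 : e.thr = thr := rfl
    have h12 : e.K₁ (e.T P i) = fun ω => (d.Z ω, e.T P i ω) := rfl
    rw [h11, h12] at h6
    linarith
  have h4 : e.st P i 1 ω ≠ 3 := fun hc => (Rl.st_three.1 hc).2.2.2.1
  generalize e.st P i 1 ω = x at h1 h2 h3 h4
  fin_cases x <;> simp_all

/-- if no line is a candidate, the greedy index is `none` -/
theorem idx_none {i : ℕ} {ω : Ω} (h : (d.rule P p thr).st P i 1 ω = 1) :
    Gh.idx P (fun ω => d.V ((d.rule P p thr).T P i ω) ω)
      (fun ω => (d.Z ω, (d.rule P p thr).T P i ω)) d.mem thr ω = none := by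
  classical
  set e := d.rule P p thr with he
  have h1 := (Rl.st_one.1 h).2
  have h7 : e.X 1 (e.T P i) ω = (Gh.idx P (fun ω => d.V (e.T P i ω) ω)
      (fun ω => (d.Z ω, e.T P i ω)) d.mem thr ω).map d.enc := X1 _ _
  rw [h7] at h1
  exact Option.map_eq_none_iff.1 h1

/-- what is known at the step `i` -/
noncomputable def Us (d : Dt Ω ζ ι) (P : Law Ω) (p : Pm) (thr : ℝ) (i : ℕ) (ω : Ω) : ζ × S1 :=
  (d.Z ω, (d.rule P p thr).T P i ω)

theorem Us_nest (i : ℕ) {ω ω' : Ω} (h : d.Us P p thr (i + 1) ω = d.Us P p thr (i + 1) ω') :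
    d.Us P p thr i ω = d.Us P p thr i ω' := by
  unfold Us at h ⊢
  obtain ⟨h1, h2⟩ := Prod.mk.inj h
  exact Prod.ext h1 (Rl.T_mono (Nat.le_succ i) h2)

/-- the next block of the slope is known `M + 1` steps later -/
theorem ph_known {i : ℕ} {ω ω' : Ω} (h : d.Us P p thr (i + (p.M + 1)) ω = d.Us P p thr (i + (p.M + 1)) ω')
    (ho : p.ok 0 ((d.rule P p thr).T P i ω)) :
    d.ph (cnt (some 0) ((d.rule P p thr).T P i ω) + 1) ω =
      d.ph (cnt (some 0) ((d.rule P p thr).T P i ω) + 1) ω' := by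
  classical
  set e := d.rule P p thr with he
  have hT : e.T P (i + (p.M + 1)) ω = e.T P (i + (p.M + 1)) ω' := (Prod.mk.inj h).2
  have hex : ∃ j, i ≤ j ∧ j ≤ i + p.M ∧ e.kd P j ω = some 0 :=
    Rl.gap0 (P := P) (d.is (P := P) (p := p) (thr := thr)) i ω ho
  set j := Nat.find hex with hj
  obtain ⟨h1, h2, h3⟩ := Nat.find_spec hex
  rw [← hj] at h1 h2 h3
  have hcnt : ∀ k, i ≤ k → k ≤ j → cnt (some 0) (e.T P k ω) = cnt (some 0) (e.T P i ω) := by
    intro k hik
    induction k, hik using Nat.le_induction with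
    | base => exact fun _ => rfl
    | succ k hk ih =>
      intro hkj
      rw [Rl.cnt_succ, ih (by omega), if_neg, Nat.add_zero]
      intro hc
      exact Nat.find_min hex (show k < j by omega) ⟨hk, by omega, hc⟩
  have h4 : e.T P (j + 1) ω = e.T P (j + 1) ω' := Rl.T_mono (by omega) hT
  rw [Rl.T_succ, Rl.T_succ] at h4
  have h5 := (List.cons.inj h4).1
  have h6 : e.T P j ω = e.T P j ω' := (List.cons.inj h4).2
  have h7 : e.kd P j ω' = some 0 := by
    have : e.lt P j ω = e.lt P j ω' := (Prod.mk.inj h5).1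
    have h8 : e.kd P j ω = e.kd P j ω' := (Prod.mk.inj this).2
    rw [← h8, h3]
  have h8 : e.val P j ω = e.val P j ω' := (Prod.mk.inj (Prod.mk.inj h5).2).1
  rw [val0 h3, val0 h7] at h8
  have h9 := (Prod.mk.inj h8).1
  have h10 : cnt (some 0) (e.T P j ω) = cnt (some 0) (e.T P i ω) := hcnt j h1 le_rfl
  have h9' : d.ph (cnt (some 0) (e.T P j ω) + 1) ω = d.ph (cnt (some 0) (e.T P j ω') + 1) ω' := h9
  rw [← h6, h10] at h9'
  exact h9'

/-- **the slope at the steps of the time** -/
theorem sum_phi {n : ℕ} {E : List (Lt 2)} {q : ℝ} (h : Cn (d.rule P p thr) P Q n E q)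
    (ht : 0 < thr) {ε : ℝ} (hε : thr < ε) (A : Finset ℕ) (hA : ∀ i ∈ A, i < n ∧ (le' n E i).2 = none ∧
      ∀ ω, 0 < Q.w ω → p.ok 0 ((d.rule P p thr).T P i ω)) :
    ∑ i ∈ A, colp Q (d.ph (lv n E (some 0) i + 1)) (d.Us P p thr i) ≤
      A.card * ε + ((p.M + 1 : ℕ) * Real.log (1 / q) + A.card) / Real.log (ε / thr) := by
  classical
  set e := d.rule P p thr with he
  set X : ℕ → Ω → Option ℤ := fun i ω => if p.ok 0 (e.T P i ω) then
    some (d.ph (cnt (some 0) (e.T P i ω) + 1) ω) else none with hXd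
  have key := sum_coll h.hq h.dom (d.Us P p thr) n (p.M + 1)
    (fun i ω ω' _ _ e => Us_nest i e) A (fun i hi => Finset.mem_range.2 (hA i hi).1) X
    (fun i hi ω ω' _ _ e1 => by
      have e2 : e.T P i ω = e.T P i ω' := Rl.T_mono (Nat.le_add_right i _) (Prod.mk.inj e1).2
      simp only [hXd]
      by_cases ho : p.ok 0 (e.T P i ω)
      · rw [if_pos ho, if_pos (by rw [← e2]; exact ho), ← e2]
        exact congrArg some (ph_known e1 ho)
      · rw [if_neg ho, if_neg (by rw [← e2]; exact ho)]) ht hε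
    (fun i hi ω hω => by
      obtain ⟨h1, h2, h3⟩ := hA i hi
      have h4 := h3 ω hω
      have h5 := (Rl.st_two.1 (st0 (by rw [h.kd_eq hω h1, h2]) h4)).2.2
      refine le_trans (le_of_eq ?_) h5.le
      -- the two variables have the same conditional probability
      have hPω := h.pos hω
      unfold cp
      congr 1
      unfold Law.pr
      rw [Finset.sum_filter, Finset.sum_filter]
      refine Finset.sum_congr rfl fun ω' _ => ?_
      have hX0 : ∀ ω, e.X 0 (e.T P i) ω = some (d.ph (cnt (some 0) (e.T P i ω) + 1) ω, 0) :=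
        fun ω => X0 _ _
      have hiff : ((X i ω', d.Us P p thr i ω') = (X i ω, d.Us P p thr i ω)) ↔
          ((e.X 0 (e.T P i) ω', e.K₁ (e.T P i) ω') = (e.X 0 (e.T P i) ω, e.K₁ (e.T P i) ω)) := by
        have hX : e.T P i ω' = e.T P i ω → (X i ω' = X i ω ↔
            e.X 0 (e.T P i) ω' = e.X 0 (e.T P i) ω) := by
          intro g3
          simp only [hXd]
          rw [if_pos h4, if_pos (show p.ok 0 (e.T P i ω') by rw [g3]; exact h4), hX0, hX0,
            Option.some_inj, Option.some_inj, Prod.mk_inj]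
          simp
        constructor
        · intro g
          have g1 : X i ω' = X i ω := congrArg Prod.fst g
          have g2 : d.Us P p thr i ω' = d.Us P p thr i ω := congrArg Prod.snd g
          exact Prod.ext ((hX (congrArg Prod.snd g2)).1 g1) g2
        · intro g
          have g1 : e.X 0 (e.T P i) ω' = e.X 0 (e.T P i) ω := congrArg Prod.fst g
          have g2 : e.K₁ (e.T P i) ω' = e.K₁ (e.T P i) ω := congrArg Prod.snd g
          exact Prod.ext ((hX (congrArg Prod.snd g2)).2 g1) g2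
      by_cases hc : (X i ω', d.Us P p thr i ω') = (X i ω, d.Us P p thr i ω)
      · rw [if_pos hc, if_pos (hiff.1 hc)]
      · rw [if_neg hc, if_neg (fun hc' => hc (hiff.2 hc'))])
  refine le_trans (le_of_eq ?_) key
  refine Finset.sum_congr rfl fun i hi => ?_
  obtain ⟨h1, h2, h3⟩ := hA i hi
  -- on the support of `Q` the variables agree
  unfold colp
  refine Q.ex_congr fun ω hω => ?_
  unfold cp
  congr 1
  unfold Law.pr
  rw [Finset.sum_filter, Finset.sum_filter]
  refine Finset.sum_congr rfl fun ω' _ => ?_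
  rcases (Q.nn ω').eq_or_lt with h0 | h0
  · rw [← h0]; simp
  · have g1 : X i ω' = some (d.ph (lv n E (some 0) i + 1) ω') := by
      simp only [hXd]
      rw [if_pos (h3 ω' h0), h.cnt_eq h0 h1.le]
    have g2 : X i ω = some (d.ph (lv n E (some 0) i + 1) ω) := by
      simp only [hXd]
      rw [if_pos (h3 ω hω), h.cnt_eq hω h1.le]
    have hiff : ((d.ph (lv n E (some 0) i + 1) ω', d.Us P p thr i ω') =
        (d.ph (lv n E (some 0) i + 1) ω, d.Us P p thr i ω)) ↔
        ((X i ω', d.Us P p thr i ω') = (X i ω, d.Us P p thr i ω)) := by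
      rw [g1, g2]
      constructor
      · intro g
        have k1 : d.ph (lv n E (some 0) i + 1) ω' = d.ph (lv n E (some 0) i + 1) ω :=
          congrArg Prod.fst g
        have k2 : d.Us P p thr i ω' = d.Us P p thr i ω := congrArg Prod.snd g
        rw [k1, k2]
      · intro g
        have k1 := Option.some.inj (congrArg Prod.fst g)
        have k2 : d.Us P p thr i ω' = d.Us P p thr i ω := congrArg Prod.snd g
        rw [k1, k2]
    by_cases hc : (d.ph (lv n E (some 0) i + 1) ω', d.Us P p thr i ω') =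
        (d.ph (lv n E (some 0) i + 1) ω, d.Us P p thr i ω)
    · exact (if_pos hc).trans (if_pos (hiff.1 hc)).symm
    · exact (if_neg hc).trans (if_neg (fun hc' => hc (hiff.2 hc'))).symm

/-- **the lines at the steps of the time** : `s i` any choice of a line as a function of what is known -/
theorem sum_line {n : ℕ} {E : List (Lt 2)} {q : ℝ} (h : Cn (d.rule P p thr) P Q n E q)
    (ht : 0 < thr) {ε : ℝ} (hε : thr < ε) (hMd : 1 ≤ d.Md) (A : Finset ℕ)
    (hA : ∀ i ∈ A, i < n ∧ (le' n E i).2 = none ∧ ∀ ω, 0 < Q.w ω → p.ok 1 ((d.rule P p thr).T P i ω))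
    (s : ℕ → ζ × S1 → ι) :
    ∑ i ∈ A, prE Q (fun ω => d.mem (s i (d.Us P p thr i ω)) (d.V ((d.rule P p thr).T P i ω) ω)) ≤
      A.card * ε + ((d.Md + 1 : ℕ) * Real.log (1 / q) + A.card) / Real.log (ε / thr) := by
  classical
  set e := d.rule P p thr with he
  set X : ℕ → Ω → Bool := fun i ω => decide (e.kd P i ω = none ∧ p.ok 1 (e.T P i ω) ∧
    e.st P i 1 ω = 1 ∧ d.mem (s i (d.Us P p thr i ω)) (d.V (e.T P i ω) ω)) with hXd
  have key := Gh.sum_ev h.hq h.dom (d.Us P p thr) n (d.Md + 1)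
    (fun i ω ω' _ _ e => Us_nest i e) A (fun i hi => Finset.mem_range.2 (hA i hi).1) X
    (fun i hi ω ω' _ _ e1 => by
      have hT : e.T P (i + (d.Md + 1)) ω = e.T P (i + (d.Md + 1)) ω' := (Prod.mk.inj e1).2
      have e2 : e.T P i ω = e.T P i ω' := Rl.T_mono (Nat.le_add_right i _) hT
      have e3 : e.T P (i + 1) ω = e.T P (i + 1) ω' := Rl.T_mono (by omega) hT
      have e4 : e.lt P i ω = e.lt P i ω' := by
        rw [Rl.T_succ, Rl.T_succ] at e3
        exact (Prod.mk.inj (List.cons.inj e3).1).1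
      have e5 : e.kd P i ω = e.kd P i ω' := (Prod.mk.inj e4).2
      have e6 : e.st P i 1 ω = e.st P i 1 ω' := congrFun (Prod.mk.inj e4).1 1
      have e7 : d.Us P p thr i ω = d.Us P p thr i ω' := Prod.ext (Prod.mk.inj e1).1 e2
      have e8 : e.D (e.T P (i + d.Md)) ω = e.D (e.T P (i + d.Md)) ω' := by
        have hT' : e.T P (i + d.Md + 1) ω = e.T P (i + d.Md + 1) ω' := hT
        rw [Rl.T_succ, Rl.T_succ] at hT'
        exact (Prod.mk.inj (Prod.mk.inj (List.cons.inj hT').1).2).2
      rw [D_eq hMd, D_eq hMd] at e8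
      simp only [hXd]
      by_cases hc : e.kd P i ω = none ∧ p.ok 1 (e.T P i ω)
      · have hc' : e.kd P i ω' = none ∧ p.ok 1 (e.T P i ω') := by
          rw [← e5, ← e2]
          exact hc
        rw [if_pos hc, if_pos hc'] at e8
        rw [← e5, ← e6, ← e7, Option.some.inj e8, ← e2]
      · have hc' : ¬ (e.kd P i ω' = none ∧ p.ok 1 (e.T P i ω')) := by
          rw [← e5, ← e2]
          exact hc
        rw [decide_eq_decide]
        constructor
        · rintro ⟨g1, g2, _⟩
          exact absurd ⟨g1, g2⟩ hc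
        · rintro ⟨g1, g2, _⟩
          exact absurd ⟨g1, g2⟩ hc') ht hε
    (fun i hi ω hω hx => by
      refine (Gh.light (V := fun ω => d.V (e.T P i ω) ω) (Y := d.Us P p thr i) (mem := d.mem) ht (s i)
        (X i) (fun ω' _ hx' => ?_) (h.pos hω) hx).le
      simp only [hXd, decide_eq_true_eq] at hx'
      exact ⟨hx'.2.2.2, idx_none hx'.2.2.1⟩)
  refine le_trans (Finset.sum_le_sum fun i hi => ?_) key
  obtain ⟨h1, h2, h3⟩ := hA i hi
  refine Vale.Agent.P127.U.Path.prE_mono Q fun ω hω hm => ?_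
  simp only [hXd, decide_eq_true_eq]
  have hk : e.kd P i ω = none := by rw [h.kd_eq hω h1, h2]
  exact ⟨hk, h3 ω hω, st1 ht (h.pos hω) hk (h3 ω hω), hm⟩

end Dt

end Vale.Agent.P106.U.H449
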