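import Vale.Agent.P106.U.H449.Ins
import Vale.Agent.P106.U.S3.LightX

/-!
# P106 / U / H449 : light blocks of word 1 given a further condition (helper449)

Over helper404's `S3/LightX`.

* `phiX` : the next block of the own slope given `(Us i, X i)`, at the price of the information.
* `cellX` : no net line (chosen from `(Us i, X i)`) has mass at the steps of the time with allowed line.
-/

set_option autoImplicit false

namespace Vale.Agent.P106.U.H449

open Finset Vale.Agent.P127 Vale.Agent.P127.Stk Vale.Agent.P127.U.Nonat Vale.Agent.P127.U.YPat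

namespace Dt

variable {Ω : Type} [Fintype Ω] {ζ ι : Type} {d : Dt Ω ζ ι} {P Q : Law Ω} {p : Pm} {thr : ℝ}

/-- the next block of the slope is light given what is known -/
theorem ph_light {n : ℕ} {E : List (Lt 2)} {q : ℝ} (h : Cn (d.rule P p thr) P Q n E q)
    {i : ℕ} (h1 : i < n) (h2 : (le' n E i).2 = none) {ω : Ω} (hω : 0 < Q.w ω)
    (h4 : p.ok 0 ((d.rule P p thr).T P i ω)) :
    cp P (fun ω => open Classical in if p.ok 0 ((d.rule P p thr).T P i ω) then
      some (d.ph (cnt (some 0) ((d.rule P p thr).T P i ω) + 1) ω) else none) (d.Us P p thr i) ω ≤ thr := by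
  classical
  set e := d.rule P p thr with he
  have h5 := (Rl.st_two.1 (st0 (by rw [h.kd_eq hω h1, h2]) h4)).2.2
  refine le_trans (le_of_eq ?_) h5.le
  unfold cp
  congr 1
  unfold Law.pr
  rw [Finset.sum_filter, Finset.sum_filter]
  refine Finset.sum_congr rfl fun ω' _ => ?_
  set X : Ω → Option ℤ := fun ω => if p.ok 0 (e.T P i ω) then
    some (d.ph (cnt (some 0) (e.T P i ω) + 1) ω) else none with hXd
  have hX0 : ∀ ω, e.X 0 (e.T P i) ω = some (d.ph (cnt (some 0) (e.T P i ω) + 1) ω, 0) :=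
    fun ω => X0 _ _
  have hX : e.T P i ω' = e.T P i ω → (X ω' = X ω ↔ e.X 0 (e.T P i) ω' = e.X 0 (e.T P i) ω) := by
    intro g3
    simp only [hXd]
    rw [if_pos h4, if_pos (show p.ok 0 (e.T P i ω') by rw [g3]; exact h4), hX0, hX0,
      Option.some_inj, Option.some_inj, Prod.mk_inj]
    simp
  have hiff : ((X ω', d.Us P p thr i ω') = (X ω, d.Us P p thr i ω)) ↔
      ((e.X 0 (e.T P i) ω', e.K₁ (e.T P i) ω') = (e.X 0 (e.T P i) ω, e.K₁ (e.T P i) ω)) := by
    constructor
    · intro g
      have g1 : X ω' = X ω := congrArg Prod.fst g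
      have g2 : d.Us P p thr i ω' = d.Us P p thr i ω := congrArg Prod.snd g
      exact Prod.ext ((hX (congrArg Prod.snd g2)).1 g1) g2
    · intro g
      have g1 : e.X 0 (e.T P i) ω' = e.X 0 (e.T P i) ω := congrArg Prod.fst g
      have g2 : e.K₁ (e.T P i) ω' = e.K₁ (e.T P i) ω := congrArg Prod.snd g
      exact Prod.ext ((hX (congrArg Prod.snd g2)).2 g1) g2
  by_cases hc : (X ω', d.Us P p thr i ω') = (X ω, d.Us P p thr i ω)
  · exact (if_pos hc).trans (if_pos (hiff.1 hc)).symm
  · exact (if_neg hc).trans (if_neg (fun hc' => hc (hiff.2 hc'))).symm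

/-- **the slope at the steps of the time**, given a further condition -/
theorem phiX {n : ℕ} {E : List (Lt 2)} {q : ℝ} (h : Cn (d.rule P p thr) P Q n E q)
    (ht : 0 < thr) {ε : ℝ} (hε : thr < ε) (A : Finset ℕ) (hA : ∀ i ∈ A, i < n ∧ (le' n E i).2 = none ∧
      ∀ ω, 0 < Q.w ω → p.ok 0 ((d.rule P p thr).T P i ω)) {U : Type*} (X : ℕ → Ω → U) :
    ∑ i ∈ A, colp Q (d.ph (lv n E (some 0) i + 1)) (fun ω => (d.Us P p thr i ω, X i ω)) ≤
      (A.card * ε + ((p.M + 1 : ℕ) * Real.log (1 / q) + A.card) / Real.log (ε / thr)) +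
        1 / Real.log (ε / thr) *
          ∑ i ∈ A, mi Q (d.ph (lv n E (some 0) i + 1)) (X i) (d.Us P p thr i) := by
  classical
  set e := d.rule P p thr with he
  set V : ℕ → Ω → Option ℤ := fun i ω => if p.ok 0 (e.T P i ω) then
    some (d.ph (cnt (some 0) (e.T P i ω) + 1) ω) else none with hVd
  have key := S3.sum_collX h.hq h.dom (d.Us P p thr) n (p.M + 1)
    (fun i ω ω' _ _ e => Us_nest i e) A (fun i hi => Finset.mem_range.2 (hA i hi).1) V
    (fun i hi ω ω' _ _ e1 => by
      have e2 : e.T P i ω = e.T P i ω' := Rl.T_mono (Nat.le_add_right i _) (Prod.mk.inj e1).2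
      simp only [hVd]
      by_cases ho : p.ok 0 (e.T P i ω)
      · rw [if_pos ho, if_pos (by rw [← e2]; exact ho), ← e2]
        exact congrArg some (ph_known e1 ho)
      · rw [if_neg ho, if_neg (by rw [← e2]; exact ho)]) ht hε
    (fun i hi ω hω => by
      obtain ⟨h1, h2, h3⟩ := hA i hi
      exact ph_light h h1 h2 hω (h3 ω hω)) X
  have hVe : ∀ i ∈ A, ∀ ω, 0 < Q.w ω → V i ω = some (d.ph (lv n E (some 0) i + 1) ω) := by
    intro i hi ω hω
    obtain ⟨h1, h2, h3⟩ := hA i hi
    simp only [hVd]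
    rw [if_pos (h3 ω hω), h.cnt_eq hω h1.le]
  refine le_trans (Finset.sum_le_sum fun i hi => ?_) (key.trans (add_le_add le_rfl
    (mul_le_mul_of_nonneg_left (Finset.sum_le_sum fun i hi => ?_) (by
      have : 0 < Real.log (ε / thr) := Real.log_pos (by rwa [one_lt_div ht])
      positivity))))
  · exact Vale.Agent.P127.U.Mic.colp_mono_var Q (fun ω => (d.Us P p thr i ω, X i ω))
      (fun ω ω' hω hω' e => by
        rw [hVe i hi ω hω, hVe i hi ω' hω']
        exact congrArg some (congrArg Prod.fst e))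
  · exact mi_mono_left Q (X i) fun ω ω' hω hω' e => by
      rw [hVe i hi ω hω, hVe i hi ω' hω']
      exact congrArg some (congrArg Prod.fst e)

/-- **no net line has mass at the steps of the time**, lines chosen from a further condition -/
theorem cellX {n : ℕ} {E : List (Lt 2)} {q : ℝ} (h : Cn (d.rule P p thr) P Q n E q)
    (ht : 0 < thr) (ht1 : thr < 1) (hMd : 1 ≤ d.Md) (A : Finset ℕ)
    (hA : ∀ i ∈ A, i < n ∧ (le' n E i).2 = none ∧ ∀ ω, 0 < Q.w ω → p.ok 1 ((d.rule P p thr).T P i ω))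
    {U : Type*} (X : ℕ → Ω → U) (s : ℕ → (ζ × S1) × U → ι) :
    ∑ i ∈ A, prE Q (fun ω => d.mem (s i (d.Us P p thr i ω, X i ω))
        (d.V ((d.rule P p thr).T P i ω) ω)) ≤
      ((d.Md + 1 : ℕ) * Real.log (1 / q) + A.card) / Real.log (1 / thr) +
        1 / Real.log (1 / thr) *
          ∑ i ∈ A, mi Q (fun ω => d.V ((d.rule P p thr).T P i ω) ω) (X i) (d.Us P p thr i) := by
  classical
  set e := d.rule P p thr with he
  set V : ℕ → Ω → Option (ℤ × ℤ) := fun i ω => if e.kd P i ω = none ∧ p.ok 1 (e.T P i ω) then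
    some (d.V (e.T P i ω) ω) else none with hVd
  have key := S3.sum_evX h.hq h.dom (d.Us P p thr) n (d.Md + 1)
    (fun i ω ω' _ _ e => Us_nest i e) A (fun i hi => Finset.mem_range.2 (hA i hi).1) V
    (fun i hi ω ω' _ _ e1 => by
      have hT : e.T P (i + (d.Md + 1)) ω = e.T P (i + (d.Md + 1)) ω' := (Prod.mk.inj e1).2
      have e8 : e.D (e.T P (i + d.Md)) ω = e.D (e.T P (i + d.Md)) ω' := by
        have hT' : e.T P (i + d.Md + 1) ω = e.T P (i + d.Md + 1) ω' := hT
        rw [Rl.T_succ, Rl.T_succ] at hT'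
        exact (Prod.mk.inj (Prod.mk.inj (List.cons.inj hT').1).2).2
      rw [D_eq hMd, D_eq hMd] at e8
      exact e8) ht ht1 X
    (fun i v f x => ∃ c, v = some c ∧ d.mem (s i (f, x)) c)
    (fun i hi f hf x A' hA' => by
      refine (S3.sum_pr_ms (P := P) (V i) (d.Us P p thr i) A' f
        (fun ω => Gh.ix d.mem (Gh.gl P (fun ω => d.V (e.T P i ω) ω) (d.Us P p thr i) d.mem thr f)
          (d.V (e.T P i ω) ω) = none ∧ d.mem (s i (f, x)) (d.V (e.T P i ω) ω))
        (fun ω hω hf' hv => ?_)).trans ?_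
      · obtain ⟨c, hc1, hc2⟩ := hA' _ hv
        by_cases hk : e.kd P i ω = none ∧ p.ok 1 (e.T P i ω)
        · simp only [hVd] at hc1
          rw [if_pos hk] at hc1
          have hc3 := Option.some.inj hc1
          rw [← hc3] at hc2
          have h5 := idx_none (d := d) (P := P) (p := p) (thr := thr) (st1 ht hω hk.1 hk.2)
          refine ⟨?_, hc2⟩
          unfold Gh.idx at h5
          rw [← hf']
          exact h5
        · simp only [hVd] at hc1
          rw [if_neg hk] at hc1
          exact absurd hc1 (by simp)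
      · exact ((Gh.gl_spec (mem := d.mem) (V := fun ω => d.V (e.T P i ω) ω) ht hf).2
          (s i (f, x))).le)
  have hVe : ∀ i ∈ A, ∀ ω, 0 < Q.w ω → V i ω = some (d.V (e.T P i ω) ω) := by
    intro i hi ω hω
    obtain ⟨h1, h2, h3⟩ := hA i hi
    simp only [hVd]
    rw [if_pos ⟨by rw [h.kd_eq hω h1, h2], h3 ω hω⟩]
  refine le_trans (Finset.sum_le_sum fun i hi => ?_) (key.trans (add_le_add le_rfl
    (mul_le_mul_of_nonneg_left (Finset.sum_le_sum fun i hi => ?_) (by
      have : 0 < Real.log (1 / thr) := Real.log_pos (by rwa [one_lt_div ht])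
      positivity))))
  · refine Vale.Agent.P127.U.Path.prE_mono Q fun ω hω hm' => ?_
    exact ⟨_, hVe i hi ω hω, hm'⟩
  · exact mi_mono_left Q (X i) fun ω ω' hω hω' e => by
      rw [hVe i hi ω hω, hVe i hi ω' hω']
      exact congrArg some (congrArg Prod.fst e)

end Dt

end Vale.Agent.P106.U.H449
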