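import Vale.Agent.P106.U.H565.RunF
import Vale.Agent.P106.U.H449.RayNum
import Vale.Agent.P106.U.H449.Start

/-!
# P106 / U / H449 : price of the letters of the ray side of the concrete run (helper449), row [PRU] of helper565's RunD

* `prU_c` : field `prU` with the explicit number `gU`.
* `prU_num` : **at most `η h`**, `cr`, `M`, `Md` functions of `η`, `K1`.
* `light_c` : `S3.Run.Light` with `e = T h / m`, `κ₀ = C / m` from the field `time`.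
-/

set_option autoImplicit false

namespace Vale.Agent.P106.U.H449

open Finset Vale.Agent.P127 Vale.Agent.P127.Stk Vale.Agent.P106.U.H565
open Vale.Agent.P127.U.Mic (colp)

namespace PruC

variable {Ω : Type} [Fintype Ω] {c : C2 Ω} {Rm : ℕ} {cc : ℝ} {Ac rc : ℕ}

/-- **prices of the letters of the ray side** -/
theorem prU_c (H : c.Hyp Rm cc Ac rc) (h0 : 0 < c.thr) (h1 : c.thr ≤ 1) :
    Stk.hc c.run.Q (c.run.U 0) c.run.ry + ∑ i ∈ range (c.run.n + c.num.J), Stk.hc c.run.Q (c.run.U (i + 1))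
      (fun ω => (c.run.Z i ω, fl1 (c.run.C.a (i + 1)) (c.run.t ω))) ≤
      Ray.HasU.gU c.I.m c.I.pm c.E1 c.Md c.thr 3 (c.I.pm.A - 1) := by
  have hκ : 1 ≤ c.I.kb := by have := c.good.kb3; omega
  refine (C2.hasU H).prU h0 h1 (SP := Finset.Ico (0 : ℤ) (2 ^ c.I.m))
    (fun j ω _ => Start.phB_mem c.I.m c.I.kb hκ _ j ω) (Start.card_SP c.I.m) ?_
  intro ω hω
  obtain ⟨F, hF, hF'⟩ := H.st.NS ω (C2.sup hω)
  exact ⟨F, hF, fun ω' hω' e => hF' ω' (C2.sup hω') e⟩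

/-- **[PRU]** : at most `η h` -/
theorem prU_num {K1 η : ℝ} (hK1 : 0 ≤ K1) (hη : 0 < η) : ∃ cr : ℝ, 0 < cr ∧ cr ≤ 1 ∧ ∃ M Md : ℕ, 1 ≤ M ∧ M + 2 ≤ Md ∧
    ∃ m0 : ℕ, ∀ m : ℕ, m0 ≤ m → ∃ h0 : ℕ, ∀ (Ω : Type) [Fintype Ω] (c : C2 Ω) (Rm : ℕ) (cc : ℝ) (Ac rc : ℕ),
      c.Hyp Rm cc Ac rc → c.K1 = K1 → c.I.M = M → c.Md = Md → c.I.m = m → c.thr = Ray.thrc cr m → h0 ≤ c.I.h →
      Stk.hc c.run.Q (c.run.U 0) c.run.ry + ∑ i ∈ range (c.run.n + c.num.J), Stk.hc c.run.Q (c.run.U (i + 1))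
        (fun ω => (c.run.Z i ω, fl1 (c.run.C.a (i + 1)) (c.run.t ω))) ≤ η * c.I.h := by
  obtain ⟨cr, hcr0, hcr1, M, Md, hM, hMd, m0, key⟩ := Ray.gU_le hK1 hη
  refine ⟨cr, hcr0, hcr1, M, Md, hM, hMd, max m0 1, fun m hm => ?_⟩
  obtain ⟨h0, key⟩ := key m ((le_max_left _ _).trans hm)
  refine ⟨h0, fun Ω _ c Rm cc Ac rc H eK eM eMd em et hh => ?_⟩
  have hm1 : 1 ≤ m := (le_max_right _ _).trans hm
  have h1 := prU_c H (by rw [et]; exact Ray.thrc_pos cr m) (by rw [et]; exact (Ray.thrc_lt hcr0 hm1).le)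
  rw [et, eMd, em] at h1
  refine h1.trans (key c.I.h hh c.I.pm c.E1 (c.I.pm.A - 1) eM ?_ ((C2.rhy H).Rw_le _))
  have h2 := c.good.n1
  rw [eK, em] at h2
  exact h2

/-- **`Light` of the concrete run** from the field `time` -/
theorem light_c (H : c.Hyp Rm cc Ac rc) {cr T k₂ CA x e₂ κ₂ : ℝ} (ht : c.thr = Ray.thrc cr c.I.m)
    (hT : 0 < T) (hT1 : T ≤ 1) (hcr : 0 < cr) (hk : 0 ≤ k₂) (hCA : 0 ≤ CA) (hx : 0 ≤ x)
    (hm1 : 80 * ((c.I.M + 1) * CA + 1) ≤ T * (cr * c.I.m)) (hm2 : 80 * ((c.Md + 1) * CA + 1) ≤ T * (cr * c.I.m))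
    (hm3 : 64 ≤ T * (cr * c.I.m)) (hA : (c.I.pm.A : ℝ) ≤ x) (hq : Real.log (1 / (c.x1 * c.x2)) ≤ CA * x)
    (he : e₂ ≤ T ^ 2 / 1600 * x) (hκ0 : 0 ≤ κ₂) (hκ : κ₂ ≤ k₂ / c.I.m)
    (htime : ∀ (δ : Type) (X : ℕ → Ω → δ), ∑ i ∈ c.run.aS, colp c.run.Q (c.run.tb i) (fun ω => (c.run.Z i ω, X i ω)) ≤
      e₂ + κ₂ * ∑ i ∈ c.run.aS, mi c.run.Q (c.run.tb i) (X i) (c.run.Z i)) :
    c.run.Light c.num (T * x) ((10 / cr + 200 * k₂ / T + k₂) / c.I.m) := by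
  have HU := C2.hasU H
  rw [ht] at HU
  exact HU.light hT hT1 hcr hk hCA hx hm1 hm2 hm3 hA hq he hκ0 hκ htime

/-- number of the time steps, in blocks of the length `h / m` -/
theorem pmA_le (c : C2 Ω) : (c.I.pm.A : ℝ) ≤ (c.I.h : ℝ) / c.I.m := Nat.cast_div_le

end PruC

end Vale.Agent.P106.U.H449
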