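import Vale.Agent.P106.U.H449.RayDefs
import Vale.Agent.P106.U.H449.Del
import Vale.Agent.P106.U.H823.Cost2
import Vale.Agent.P127.U.CellD

/-!
# P106 / U / H449 : the ray side of a run (helper449)

`Hy` : word 1 under the law `Q` (`Cn`), start strip.  For the functions `Ur`, `Fr`, `Ir`, `alr`, `Vr` of the time level:

* `Um` nested; `Ut` the time, `Uf` the own slope, `Ua` the slope of the line are functions of `(ry, Ur a)`.
* `JV` : the true cell is a function of `(ry, Ur b)` if the word has `Md + 1` steps between the levels `a` and `b`.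
* `alB`, `lin` : size of the slope; rays with the same letter are on one line.
* `prU` : prices.
-/

set_option autoImplicit false

namespace Vale.Agent.P106.U.H449

open Finset Vale.Agent.P127 Vale.Agent.P127.Stk Vale.Agent.P106.U.StripL
open Vale.Agent.P106.U.StripE Vale.Agent.P106.U.InsL Vale.Agent.P106.U.H823
open Vale.Agent.P127.U.CellD (q2 rd)

namespace Ray

variable {Ω : Type} [Fintype Ω] {ρ : Type}

/-- hypotheses on word 1 under the law `Q` -/
structure Hy (m κ0 : ℕ) (d0 : Ld) (tW κ pp : Ω → ℝ) (ry : Ω → ρ) (Md : ℕ) (P : Law Ω) (p : Pm) (thr : ℝ)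
    (E : List (Lt 2)) (Q : Law Ω) (q : ℝ) : Prop where
  s0 : d0.s0 = 0
  a0 : d0.a = 0
  k0 : d0.k = m * κ0
  in0 : ∀ ω, d0.In (tW ω) (κ ω)
  m6 : 6 ≤ m
  good : p.Good
  Md2 : p.M + 2 ≤ Md
  cn : Cn (e1 m κ0 d0 tW κ pp ry Md P p thr) P Q p.n E q

variable {m κ0 : ℕ} {d0 : Ld} {tW κ pp : Ω → ℝ} {ry : Ω → ρ} {Md : ℕ} {P Q : Law Ω} {p : Pm} {thr : ℝ}
  {E : List (Lt 2)} {q : ℝ}

namespace Hy

variable (h : Hy m κ0 d0 tW κ pp ry Md P p thr E Q q)

include h

theorem isL' : IsL m d0 tW κ (e1 m κ0 d0 tW κ pp ry Md P p thr) := isL h.in0 _ _ _ P p thr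

omit h in
theorem isR : Rl.Is p (e1 m κ0 d0 tW κ pp ry Md P p thr) := Dt.is

/-- the number of time steps -/
theorem topA : lv p.n E none p.n = p.A := (Cn.lv_top h.good isR h.cn).1

theorem cnt_none {a : ℕ} (ha : a ≤ p.A) {ω : Ω} (hω : 0 < Q.w ω) :
    cnt none ((e1 m κ0 d0 tW κ pp ry Md P p thr).T P (tw p.n E a) ω) = a := by
  rw [h.cn.cnt_eq hω (Cn.tw_le a), h.cn.tw_lv (by rw [h.topA]; exact ha)]

theorem cnt_R {a : ℕ} (κ' : Fin 2) {ω : Ω} (hω : 0 < Q.w ω) :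
    cnt (some κ') ((e1 m κ0 d0 tW κ pp ry Md P p thr).T P (tw p.n E a) ω) = Rw p.n E κ' a := by
  rw [h.cn.cnt_eq hω (Cn.tw_le a)]
  rfl

omit h in
/-- **nested** -/
theorem Um {a b : ℕ} (hab : a ≤ b) :
    Fn Q (fun ω => (ry ω, Ur m κ0 d0 tW κ pp ry Md P p thr p.n E a ω))
      (fun ω => (ry ω, Ur m κ0 d0 tW κ pp ry Md P p thr p.n E b ω)) := by
  intro ω ω' _ _ e
  simp only [Ur, Prod.mk.injEq] at e ⊢
  exact ⟨e.1, e.2.1, Rl.T_mono (Cn.tw_mono hab) e.2.2⟩

/-- the time is a function of the letter -/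
theorem Ut {a : ℕ} (ha : a ≤ p.A) :
    Fn Q (fun ω => fl1 (m * a) (tW ω)) (fun ω => (ry ω, Ur m κ0 d0 tW κ pp ry Md P p thr p.n E a ω)) := by
  intro ω ω' hω hω' e
  simp only [Ur, Prod.mk.injEq] at e
  have hT := e.2.2
  have h1 := s0_T (P := P) h.isL' (tw p.n E a) ω
  have h2 := s0_T (P := P) h.isL' (tw p.n E a) ω'
  rw [h.cnt_none ha hω] at h1
  rw [h.cnt_none ha hω', ← hT, h1] at h2
  have h3 := Del.tR_inj h2
  rw [h.a0, h.s0, Nat.zero_add, sub_zero, sub_zero] at h3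
  exact h3

omit h [Fintype Ω] in
/-- the block and the digits of the own slope -/
theorem phB_fl {j : ℕ} {ω ω' : Ω} (h1 : phB m κ0 pp (j + 1) ω = phB m κ0 pp (j + 1) ω')
    (h2 : fl1 (m * (κ0 + j)) (pp ω) = fl1 (m * (κ0 + j)) (pp ω')) :
    fl1 (m * (κ0 + (j + 1))) (pp ω) = fl1 (m * (κ0 + (j + 1))) (pp ω') := by
  unfold phB at h1
  have e1 : κ0 + (j + 1) - 1 = κ0 + j := by omega
  rw [e1, h2] at h1
  linarith

omit h in
theorem own_aux (i : ℕ) {ω ω' : Ω} (hz : fl1 (m * κ0) (pp ω) = fl1 (m * κ0) (pp ω'))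
    (hT : (e1 m κ0 d0 tW κ pp ry Md P p thr).T P i ω = (e1 m κ0 d0 tW κ pp ry Md P p thr).T P i ω') :
    fl1 (m * (κ0 + cnt (some 0) ((e1 m κ0 d0 tW κ pp ry Md P p thr).T P i ω))) (pp ω) =
      fl1 (m * (κ0 + cnt (some 0) ((e1 m κ0 d0 tW κ pp ry Md P p thr).T P i ω))) (pp ω') := by
  induction i with
  | zero => exact hz
  | succ i ih =>
    set e := e1 m κ0 d0 tW κ pp ry Md P p thr with he
    have hT0 : e.T P i ω = e.T P i ω' := Rl.T_mono (Nat.le_succ i) hT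
    have ih' := ih hT0
    rw [Rl.cnt_succ]
    by_cases hk : e.kd P i ω = some 0
    · rw [if_pos hk]
      have hT' := hT
      rw [Rl.T_succ, Rl.T_succ] at hT'
      have h5 := (List.cons.inj hT').1
      have hk' : e.kd P i ω' = some 0 := by
        rw [← hk]
        exact (congrArg Prod.snd (congrArg Prod.fst h5)).symm
      have h8 : e.val P i ω = e.val P i ω' := congrArg Prod.fst (congrArg Prod.snd h5)
      have v1 : e.val P i ω = (phB m κ0 pp (cnt (some 0) (e.T P i ω) + 1) ω, 0) := Dt.val0 hk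
      have v2 : e.val P i ω' = (phB m κ0 pp (cnt (some 0) (e.T P i ω') + 1) ω', 0) := Dt.val0 hk'
      rw [v1, v2, ← hT0] at h8
      exact phB_fl (congrArg Prod.fst h8) ih'
    · rw [if_neg hk, Nat.add_zero]
      exact ih'

/-- **the own slope is a function of the letter** -/
theorem Uf {a j : ℕ} (hj : j ≤ Fr κ0 p.n E a) :
    Fn Q (fun ω => fl1 (m * j) (pp ω))
      (fun ω => (ry ω, Ur m κ0 d0 tW κ pp ry Md P p thr p.n E a ω)) := by
  intro ω ω' hω hω' e
  simp only [Ur, Prod.mk.injEq] at e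
  have h1 := own_aux (d0 := d0) (tW := tW) (κ := κ) (ry := ry) (Md := Md) (P := P) (p := p) (thr := thr)
    (tw p.n E a) e.2.1 e.2.2
  rw [h.cnt_R 0 hω] at h1
  exact Del.fl_nest (Nat.mul_le_mul_left m hj) h1

omit h in
/-- the slope of the line is a function of the letter -/
theorem Ua (a : ℕ) : Fn Q (alr m κ0 d0 tW κ pp ry Md P p thr p.n E a)
    (fun ω => (ry ω, Ur m κ0 d0 tW κ pp ry Md P p thr p.n E a ω)) := by
  intro ω ω' _ _ e
  simp only [Ur, Prod.mk.injEq] at e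
  unfold alr
  rw [e.2.2]

/-- **the true cell is a function of a later letter** -/
theorem JV {a b : ℕ} (hb : tw p.n E a + Md + 1 ≤ tw p.n E b) (ha : a < p.A) :
    Fn Q (Vr m κ0 d0 tW κ pp ry Md P p thr p.n E a)
      (fun ω => (ry ω, Ur m κ0 d0 tW κ pp ry Md P p thr p.n E b ω)) := by
  intro ω ω' hω hω' e
  simp only [Ur, Prod.mk.injEq] at e
  unfold Vr
  split_ifs with hc
  · have hT := e.2.2
    set r := e1 m κ0 d0 tW κ pp ry Md P p thr with hr
    set i := tw p.n E a with hi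
    have hin : i < p.n := h.cn.tw_lt (by rw [h.topA]; exact ha)
    have hT1 : r.T P (i + Md + 1) ω = r.T P (i + Md + 1) ω' := Rl.T_mono hb hT
    rw [Rl.T_succ, Rl.T_succ] at hT1
    have h5 : r.D (r.T P (i + Md)) ω = r.D (r.T P (i + Md)) ω' :=
      congrArg Prod.snd (congrArg Prod.snd (List.cons.inj hT1).1)
    have key : ∀ ω, 0 < Q.w ω → r.D (r.T P (i + Md)) ω = some (tru m d0 tW κ (r.T P i ω) ω) := by
      intro ω hω
      have h6 := Del.D_at (m := m) (d0 := d0) (t := tW) (κ := κ)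
        (Z := fun ω => (ry ω, fl1 (m * κ0) (pp ω))) (ph := phB m κ0 pp) (Md := Md) (P := P) (p := p)
        (thr := thr) (by have := h.Md2; omega) i ω
      refine h6.trans (if_pos ⟨?_, ?_⟩)
      · exact (h.cn.kd_eq hω hin).trans (h.cn.tw_kd (by rw [h.topA]; exact ha))
      · exact (h.cn.ok1_iff hin.le hω).2 hc
    rw [key ω hω, key ω' hω'] at h5
    exact Option.some.inj h5
  · rfl

/-- size of the slope -/
theorem alB {a : ℕ} (ha : a ≤ p.A) (hκ : 2 ≤ κ0) {ω : Ω} (hω : 0 < Q.w ω) :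
    |alr m κ0 d0 tW κ pp ry Md P p thr p.n E a ω| * q2 (m * a) ≤ |d0.al| + 1 := by
  have h1 := al_le (P := P) h.isL' (by have := h.m6; omega) (tw p.n E a) ω
  rw [h.cnt_none ha hω, h.a0, h.k0] at h1
  unfold alr q2
  rw [abs_neg]
  have hp : (0 : ℝ) < 2 ^ (m * a) := by positivity
  have e1 : (1 / 2 : ℝ) ^ (m * a) = 1 / 2 ^ (m * a) := by rw [div_pow, one_pow]
  rw [e1, mul_one_div, div_le_iff₀ hp]
  have h2 : (2 : ℝ) ^ (0 + m * a + m + 2) / 2 ^ (m * κ0) ≤ 2 ^ (m * a) := by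
    rw [div_le_iff₀ (by positivity), ← pow_add]
    refine pow_le_pow_right₀ (by norm_num) ?_
    have h3 : m * 2 ≤ m * κ0 := Nat.mul_le_mul_left m hκ
    have h4 := h.m6
    omega
  have h5 : (1 : ℝ) ≤ 2 ^ (m * a) := one_le_pow₀ (by norm_num)
  have h6 : |d0.al| ≤ |d0.al| * 2 ^ (m * a) := le_mul_of_one_le_right (abs_nonneg _) h5
  rw [add_mul, one_mul]
  linarith

/-- **rays with the same letter are on one line** -/
theorem lin {a : ℕ} {ω ω' : Ω} (hω : 0 < Q.w ω)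
    (e : Ur m κ0 d0 tW κ pp ry Md P p thr p.n E a ω = Ur m κ0 d0 tW κ pp ry Md P p thr p.n E a ω') :
    |κ ω' - κ ω + alr m κ0 d0 tW κ pp ry Md P p thr p.n E a ω * (tW ω' - tW ω)| ≤
      2 * q2 (m * Ir κ0 p.n E a) := by
  have hT : (e1 m κ0 d0 tW κ pp ry Md P p thr).T P (tw p.n E a) ω =
      (e1 m κ0 d0 tW κ pp ry Md P p thr).T P (tw p.n E a) ω' := congrArg Prod.snd e
  have u1 := (in_T (P := P) h.isL' (tw p.n E a) ω).u
  have u2 := (in_T (P := P) h.isL' (tw p.n E a) ω').u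
  rw [← hT] at u2
  have hk := ld_k m d0 ((e1 m κ0 d0 tW κ pp ry Md P p thr).T P (tw p.n E a) ω)
  rw [h.cnt_R 1 hω, h.k0, ← Nat.mul_add] at hk
  set d := ld m d0 ((e1 m κ0 d0 tW κ pp ry Md P p thr).T P (tw p.n E a) ω) with hd
  have hp : (0 : ℝ) < 2 ^ d.k := by positivity
  have w1 : |κ ω - d.line (tW ω)| ≤ 1 / 2 ^ d.k := by
    rw [le_div_iff₀ hp, mul_comm]
    exact u1
  have w2 : |κ ω' - d.line (tW ω')| ≤ 1 / 2 ^ d.k := by
    rw [le_div_iff₀ hp, mul_comm]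
    exact u2
  have e1 : κ ω' - κ ω + -d.al * (tW ω' - tW ω) =
      (κ ω' - d.line (tW ω')) - (κ ω - d.line (tW ω)) := by
    unfold Ld.line
    ring
  have e2 : q2 (m * Ir κ0 p.n E a) = 1 / 2 ^ d.k := by
    unfold q2 Ir
    rw [hk, div_pow, one_pow]
  show |κ ω' - κ ω + -d.al * (tW ω' - tW ω)| ≤ _
  rw [e1, e2]
  have := abs_sub (κ ω' - d.line (tW ω')) (κ ω - d.line (tW ω))
  linarith

end Hy

/-! ### Prices -/

/-- the family of the side variables -/
noncomputable def Yk (m κ0 : ℕ) (d0 : Ld) (tW κ pp : Ω → ℝ) (ry : Ω → ρ) (Md : ℕ) (P : Law Ω) (p : Pm) (thr : ℝ)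
    (E : List (Lt 2)) (k : ℕ) (ω : Ω) : ((ρ × ℤ) × S1) × ℤ :=
  ((e1 m κ0 d0 tW κ pp ry Md P p thr).K₁ ((e1 m κ0 d0 tW κ pp ry Md P p thr).T P k) ω,
    fl1 (m * (lv p.n E none k + if (le' p.n E k).2 = none then 1 else 0)) (tW ω))

omit [Fintype Ω] in
/-- the time block -/
theorem tbk_eq (h0 : d0.s0 = 0) (ha : d0.a = 0) {j : ℕ} {ω ω' : Ω}
    (h1 : fl1 (m * (j + 1)) (tW ω) = fl1 (m * (j + 1)) (tW ω')) :
    tbk m d0 j (tW ω) = tbk m d0 j (tW ω') := by
  have h2 : fl1 (m * j) (tW ω) = fl1 (m * j) (tW ω') := Del.fl_nest (Nat.mul_le_mul_left m (Nat.le_succ j)) h1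
  have e1 : tR m d0 (j + 1) (tW ω) = tR m d0 (j + 1) (tW ω') := by
    unfold tR
    rw [h0, ha, Nat.zero_add, sub_zero, sub_zero]
    unfold fl1 at h1
    rw [h1]
  have e2 : tR m d0 j (tW ω) = tR m d0 j (tW ω') := by
    unfold tR
    rw [h0, ha, Nat.zero_add, sub_zero, sub_zero]
    unfold fl1 at h2
    rw [h2]
  rw [tR_succ, tR_succ, e2] at e1
  have e3 := add_left_cancel e1
  have hp : (0 : ℝ) < 2 ^ (d0.a + m * j + m) := by positivity
  rw [div_left_inj' hp.ne'] at e3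
  exact_mod_cast e3

namespace Hy

variable (h : Hy m κ0 d0 tW κ pp ry Md P p thr E Q q)

include h

open Classical in
/-- the sum over the steps of word 1 -/
theorem sum_steps (ht0 : 0 < thr) (ht1 : thr ≤ 1) {A' : ℕ} (hA : A' < p.A) {SP : Finset ℤ}
    (hph : ∀ j ω, 0 < Q.w ω → phB m κ0 pp j ω ∈ SP) (hSP : SP.card ≤ 2 ^ (m + 6)) :
    ∑ k ∈ range (tw p.n E A'), Stk.hc Q ((e1 m κ0 d0 tW κ pp ry Md P p thr).T P (k + 1))
        (Yk m κ0 d0 tW κ pp ry Md P p thr E k) ≤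
      ((Rw p.n E 0 A' + Rw p.n E 1 A' : ℕ) : ℝ) * Real.log (1 / thr) +
        (2 * (tw p.n E A' / (p.M + 1) + 1) : ℕ) * ((m + 6 : ℝ) * Real.log 2) +
        ((tw p.n E A' : ℕ) * Real.log 99 +
          ((p.M + 4) * (tw p.n E A' / Md + 1) : ℕ) * ((3 * m + 12 : ℝ) * Real.log 2)) := by
  set r := e1 m κ0 d0 tW κ pp ry Md P p thr with hr
  set N := tw p.n E A' with hN
  have hNn : N ≤ p.n := Cn.tw_le A'
  set bad : Finset ℕ := (range N).filter fun j => Del.Bad p Md p.n E j with hbad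
  have hMd1 : 1 ≤ Md := by have := h.Md2; omega
  have hcv : Cv r P Q p.n E N (cd m bad) (2 ^ (m + 6)) := by
    refine ⟨ht0, ht1, fun i hi => ?_, fun i hi k _ _ => ?_⟩
    · unfold cd
      split_ifs with hb
      · exact Del.few_D_all (m := m) (Q := Q) h.in0 hMd1 i
      · refine Del.few_D_good (m := m) h.in0 h.Md2 h.m6 h.good h.cn le_rfl (by omega) fun hc => hb ?_
        rw [hbad, mem_filter, mem_range]
        exact ⟨hi, hc⟩
    · exact Del.few_F (m := m) h.in0 hph hSP i k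
  have hNb : ((range N).filter (· ∈ bad)).card ≤ (p.M + 4) * (N / Md + 1) := by
    refine Del.card_bad h.cn h.Md2 hNn _ fun j hj => ?_
    obtain ⟨g1, g2⟩ := mem_filter.1 hj
    rw [hbad] at g2
    exact ⟨mem_range.1 g1, (mem_filter.1 g2).2⟩
  have hAA : ∀ i < N, lv p.n E none i < p.A := by
    intro i hi
    have h1 := h.cn.lv_mono none hi.le hNn
    have h2 := h.cn.tw_lv (a := A') (by rw [h.topA]; omega)
    rw [← hN] at h2
    omega
  have key := sum_del (Q' := Q) (π := id) h.cn (fun w hw => hw) isR hNn hcv hNb hAA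
    (Yk m κ0 d0 tW κ pp ry Md P p thr E) (fun i _ ω ω' _ _ e => congrArg Prod.fst e)
  have hz : ∑ i ∈ (range N).filter (fun i => (le' p.n E i).2 = none),
      Stk.hc Q (fun w => r.Y (r.T P i) (id w)) (Yk m κ0 d0 tW κ pp ry Md P p thr E i) = 0 := by
    refine Finset.sum_eq_zero fun i hi => ?_
    obtain ⟨g1, g2⟩ := mem_filter.1 hi
    rw [mem_range] at g1
    refine hc_zero Q fun ω ω' hω hω' e => ?_
    have e1 : fl1 (m * (lv p.n E none i + 1)) (tW ω) = fl1 (m * (lv p.n E none i + 1)) (tW ω') := by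
      have := congrArg Prod.snd e
      simp only [Yk, if_pos g2] at this
      exact this
    have c1 : cnt none (r.T P i ω) = lv p.n E none i := h.cn.cnt_eq hω (by omega) none
    have c2 : cnt none (r.T P i ω') = lv p.n E none i := h.cn.cnt_eq hω' (by omega) none
    show (tbk m d0 (cnt none (r.T P i ω) + 1 - 1) (tW ω), (0 : ℤ)) =
      (tbk m d0 (cnt none (r.T P i ω') + 1 - 1) (tW ω'), (0 : ℤ))
    rw [c1, c2, Nat.add_sub_cancel, tbk_eq h.s0 h.a0 e1]
  rw [hz, add_zero] at key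
  exact key

omit h in
/-- the side variable is a function of the state, the start letter and the time -/
theorem Yk_fn {k b : ℕ} (hb : lv p.n E none k + (if (le' p.n E k).2 = none then 1 else 0) ≤ b)
    {S : Type*} (W : Ω → S)
    (hW : ∀ ω ω', 0 < Q.w ω → 0 < Q.w ω' → W ω = W ω' → ry ω = ry ω' ∧
      fl1 (m * κ0) (pp ω) = fl1 (m * κ0) (pp ω') ∧ fl1 (m * b) (tW ω) = fl1 (m * b) (tW ω')) :
    Fn Q (Yk m κ0 d0 tW κ pp ry Md P p thr E k)
      (fun ω => (W ω, (e1 m κ0 d0 tW κ pp ry Md P p thr).T P k ω)) := by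
  intro ω ω' hω hω' e
  obtain ⟨h1, h2⟩ := Prod.mk.inj e
  obtain ⟨g1, g2, g3⟩ := hW ω ω' hω hω' h1
  unfold Yk
  refine Prod.ext (Prod.ext (Prod.ext g1 g2) h2) ?_
  exact Del.fl_nest (Nat.mul_le_mul_left m hb) g3

/-- **prices of the letters of the ray side** -/
theorem prU (ht0 : 0 < thr) (ht1 : thr ≤ 1) {A' : ℕ} (hA : A' < p.A) {SP : Finset ℤ}
    (hph : ∀ j ω, 0 < Q.w ω → phB m κ0 pp j ω ∈ SP) (hSP : SP.card ≤ 2 ^ (m + 6)) {NS : ℕ}
    (hNS : Few Q (fun ω => fl1 (m * κ0) (pp ω)) ry NS) :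
    Stk.hc Q (Ur m κ0 d0 tW κ pp ry Md P p thr p.n E 0) ry +
      ∑ a ∈ range A', Stk.hc Q (Ur m κ0 d0 tW κ pp ry Md P p thr p.n E (a + 1))
        (fun ω => ((ry ω, Ur m κ0 d0 tW κ pp ry Md P p thr p.n E a ω), fl1 (m * (a + 1)) (tW ω))) ≤
      Real.log NS + (((Rw p.n E 0 A' + Rw p.n E 1 A' : ℕ) : ℝ) * Real.log (1 / thr) +
        (2 * (tw p.n E A' / (p.M + 1) + 1) : ℕ) * ((m + 6 : ℝ) * Real.log 2) +
        ((tw p.n E A' : ℕ) * Real.log 99 +
          ((p.M + 4) * (tw p.n E A' / Md + 1) : ℕ) * ((3 * m + 12 : ℝ) * Real.log 2))) := by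
  classical
  have key := h.sum_steps ht0 ht1 hA hph hSP
  set r := e1 m κ0 d0 tW κ pp ry Md P p thr with hr
  set G : ℕ → ℝ := fun k => Stk.hc Q (r.T P (k + 1)) (Yk m κ0 d0 tW κ pp ry Md P p thr E k) with hG
  have hTn : ∀ k, Fn Q (r.T P k) (r.T P (k + 1)) := fun k ω ω' _ _ e => Rl.T_mono (Nat.le_succ k) e
  -- the first letter
  have h0 : Stk.hc Q (Ur m κ0 d0 tW κ pp ry Md P p thr p.n E 0) ry ≤
      Real.log NS + ∑ k ∈ range (tw p.n E 0), G k := by
    have a1 : Stk.hc Q (Ur m κ0 d0 tW κ pp ry Md P p thr p.n E 0) ry =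
        Stk.hc Q (fun ω => fl1 (m * κ0) (pp ω)) ry +
          Stk.hc Q (r.T P (tw p.n E 0)) (fun ω => (fl1 (m * κ0) (pp ω), ry ω)) := hc_pair Q _ _ _
    have a2 : Stk.hc Q (fun ω => fl1 (m * κ0) (pp ω)) ry ≤ Real.log NS :=
      hc_few (P := Q) (Q' := Q) (π := id) (fun w hw => hw) hNS (fun _ _ _ _ e => e)
    have a3 := H205.chain (Q := Q) (n := tw p.n E 0) (T := fun i => r.T P i)
      (X := fun i => r.T P (i + 1)) (fun i _ a b _ _ e1 => congrArg Prod.snd e1)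
      (fun ω => (fl1 (m * κ0) (pp ω), ry ω))
    have a4 : Stk.hc Q (r.T P 0) (fun ω => (fl1 (m * κ0) (pp ω), ry ω)) = 0 :=
      hc_zero Q fun _ _ _ _ _ => rfl
    rw [a4, zero_add] at a3
    have a5 : ∑ i ∈ range (tw p.n E 0), Stk.hc Q (r.T P (i + 1))
        (fun ω => ((fl1 (m * κ0) (pp ω), ry ω), r.T P i ω)) ≤ ∑ k ∈ range (tw p.n E 0), G k := by
      refine Finset.sum_le_sum fun k hk => ?_
      rw [mem_range] at hk
      have hkn : k < p.n := hk.trans_le (Cn.tw_le 0)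
      have c1 : lv p.n E none k = 0 := TI.f_first h.cn.ct hk.le
      have c2 : (le' p.n E k).2 ≠ none := by
        intro hc
        have := h.cn.tw_of hkn hc
        rw [c1] at this
        omega
      refine hc_mono_right Q _ (Yk_fn (b := 0) (by rw [c1, if_neg c2]) _ fun ω ω' _ _ e => ?_)
      obtain ⟨e1, e2⟩ := Prod.mk.inj e
      refine ⟨e2, e1, ?_⟩
      have z : ∀ ω, fl1 (m * 0) (tW ω) = 0 := by
        intro ω
        have t0 := (h.in0 ω).t0
        have t1 := (h.in0 ω).t1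
        rw [h.s0, sub_zero] at t0 t1
        rw [h.a0] at t1
        unfold fl1
        rw [Nat.mul_zero, Int.floor_eq_zero_iff]
        exact ⟨by simpa using t0, t1⟩
      rw [z, z]
    linarith
  -- one level
  have h1 : ∀ a < A', Stk.hc Q (Ur m κ0 d0 tW κ pp ry Md P p thr p.n E (a + 1))
      (fun ω => ((ry ω, Ur m κ0 d0 tW κ pp ry Md P p thr p.n E a ω), fl1 (m * (a + 1)) (tW ω))) ≤
      ∑ k ∈ range (tw p.n E (a + 1) - tw p.n E a), G (tw p.n E a + k) := by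
    intro a ha
    set W : Ω → (ρ × (ℤ × S1)) × ℤ := fun ω => ((ry ω, Ur m κ0 d0 tW κ pp ry Md P p thr p.n E a ω),
      fl1 (m * (a + 1)) (tW ω)) with hW
    have hmono : tw p.n E a ≤ tw p.n E (a + 1) := Cn.tw_mono (Nat.le_succ a)
    have haA : a < lv p.n E none p.n := by rw [h.topA]; omega
    have b1 : Stk.hc Q (Ur m κ0 d0 tW κ pp ry Md P p thr p.n E (a + 1)) W ≤
        Stk.hc Q (r.T P (tw p.n E (a + 1))) W := by
      refine hc_mono_left Q fun ω ω' _ _ e => ?_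
      obtain ⟨e1, e2⟩ := Prod.mk.inj e
      have e3 : fl1 (m * κ0) (pp ω) = fl1 (m * κ0) (pp ω') :=
        congrArg Prod.fst (congrArg Prod.snd (congrArg Prod.fst e2))
      exact Prod.ext e3 e1
    have b2 := H205.chain (Q := Q) (n := tw p.n E (a + 1) - tw p.n E a)
      (T := fun i => r.T P (tw p.n E a + i)) (X := fun i => r.T P (tw p.n E a + (i + 1)))
      (fun i _ a b _ _ e1 => congrArg Prod.snd e1) W
    have b3 : Stk.hc Q (r.T P (tw p.n E a + 0)) W = 0 :=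
      hc_zero Q fun ω ω' _ _ e => congrArg Prod.snd (congrArg Prod.snd (congrArg Prod.fst e))
    rw [b3, zero_add] at b2
    have b4 : tw p.n E a + (tw p.n E (a + 1) - tw p.n E a) = tw p.n E (a + 1) := by omega
    simp only [b4] at b2
    refine b1.trans (b2.trans (Finset.sum_le_sum fun k hk => ?_))
    rw [mem_range] at hk
    have hk1 : tw p.n E a + k < tw p.n E (a + 1) := by omega
    have hkn : tw p.n E a + k < p.n := hk1.trans_le (Cn.tw_le _)
    refine hc_mono_right Q _ (Yk_fn (b := a + 1) ?_ W fun ω ω' _ _ e => ?_)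
    · rcases Nat.eq_zero_or_pos k with h0 | h0
      · rw [h0, Nat.add_zero, h.cn.tw_lv haA.le, if_pos (h.cn.tw_kd haA)]
      · have c1 : lv p.n E none (tw p.n E a + k) = a + 1 :=
          TI.f_between h.cn.ct haA (by unfold tw at *; omega) (by unfold tw at *; omega)
        have c2 : (le' p.n E (tw p.n E a + k)).2 ≠ none :=
          h.cn.tw_between haA (by omega) hk1
        rw [c1, if_neg c2]
    · obtain ⟨e1, e2⟩ := Prod.mk.inj e
      obtain ⟨e3, e4⟩ := Prod.mk.inj e1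
      exact ⟨e3, congrArg Prod.fst e4, e2⟩
  -- the sum over the levels
  have h2 : ∀ b ≤ A', ∑ k ∈ range (tw p.n E 0), G k +
      ∑ a ∈ range b, ∑ k ∈ range (tw p.n E (a + 1) - tw p.n E a), G (tw p.n E a + k) =
      ∑ k ∈ range (tw p.n E b), G k := by
    intro b
    induction b with
    | zero => intro _; simp
    | succ b ih =>
      intro hb
      rw [Finset.sum_range_succ, ← add_assoc, ih (by omega), ← Finset.sum_range_add]
      congr 2
      have : tw p.n E b ≤ tw p.n E (b + 1) := Cn.tw_mono (Nat.le_succ b)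
      omega
  have h3 := Finset.sum_le_sum fun a (ha : a ∈ range A') => h1 a (mem_range.1 ha)
  have h4 := h2 A' le_rfl
  linarith

end Hy

end Ray

end Vale.Agent.P106.U.H449
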