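import Vale.Agent.P106.U.H449.Ti
import Vale.Agent.P106.U.H824.InsL

/-!
# P106 / U / H449 : word 1 of a run and the ray side, DEFINITIONS (helper449)

Blocks of `m` digits.  `κ0` = number of blocks of the start slab: start strip `d0` with `d0.s0 = 0`, `d0.a = 0`,
`d0.k = m κ0`; own slope `pp`, start letter `fl1 (m κ0) pp`; `tW` = rounded time, `κ` = value of the functional of `W`
at the time `tW`.

* `phB` : blocks of the own slope.
* `e1` : the rule of word 1, a function of these data and of the law `P`, the parameters `p`, `thr`, `Md`.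
* As functions of the time level `a` (in blocks) of a word `E` (`E.length = n`): `Ur` letter of the ray side, `Fr`, `Ir`
  numbers of blocks of the own slope / of the line, `alr` slope of the line (sign of `Cell.Fu.al`), `Vr` true cell (at the
  steps of the time at which a line step is allowed).
-/

set_option autoImplicit false

namespace Vale.Agent.P106.U.H449

open Finset Vale.Agent.P127 Vale.Agent.P127.Stk Vale.Agent.P106.U.StripL
open Vale.Agent.P106.U.StripE Vale.Agent.P106.U.InsL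

namespace Ray

variable {Ω : Type} [Fintype Ω] {ρ : Type}

omit [Fintype Ω] in
/-- the block `j ≥ 1` of the own slope -/
noncomputable def phB (m κ0 : ℕ) (pp : Ω → ℝ) (j : ℕ) (ω : Ω) : ℤ :=
  fl1 (m * (κ0 + j)) (pp ω) - 2 ^ m * fl1 (m * (κ0 + j - 1)) (pp ω)

/-- **the rule of word 1** -/
noncomputable def e1 (m κ0 : ℕ) (d0 : Ld) (tW κ pp : Ω → ℝ) (ry : Ω → ρ) (Md : ℕ) (P : Law Ω) (p : Pm)
    (thr : ℝ) : Rl Ω 2 (ℤ × ℤ) (Option (ℤ × ℤ)) (ρ × ℤ) Unit :=
  (dtL m d0 tW κ (fun ω => (ry ω, fl1 (m * κ0) (pp ω))) (phB m κ0 pp) Md).rule P p thr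

variable (m κ0 : ℕ) (d0 : Ld) (tW κ pp : Ω → ℝ) (ry : Ω → ρ) (Md : ℕ) (P : Law Ω) (p : Pm) (thr : ℝ)
  (n : ℕ) (E : List (Lt 2))

/-- letter of the ray side at the time level `a` -/
noncomputable def Ur (a : ℕ) (ω : Ω) : ℤ × S1 :=
  (fl1 (m * κ0) (pp ω), (e1 m κ0 d0 tW κ pp ry Md P p thr).T P (tw n E a) ω)

/-- blocks of the own slope at the time level `a` -/
def Fr (a : ℕ) : ℕ := κ0 + Rw n E 0 a

/-- blocks of the line at the time level `a` (= 824's `LinkW2.rI`) -/
def Ir (a : ℕ) : ℕ := κ0 + Rw n E 1 a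

/-- slope in time of the line, sign of `Cell.Fu.al` (`-` 824's `alW`, for `d0.a = 0`) -/
noncomputable def alr (a : ℕ) (ω : Ω) : ℝ :=
  -(ld m d0 ((e1 m κ0 d0 tW κ pp ry Md P p thr).T P (tw n E a) ω)).al

/-- true cell at the time level `a`, if a line step is allowed there -/
noncomputable def Vr (a : ℕ) (ω : Ω) : ℤ × ℤ :=
  if Rw n E 1 a + p.B₀ < Rw n E 0 a then
    tru m d0 tW κ ((e1 m κ0 d0 tW κ pp ry Md P p thr).T P (tw n E a) ω) ω else (0, 0)

end Ray

end Vale.Agent.P106.U.H449
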