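import Vale.Agent.P106.U.H449.Ray
import Vale.Agent.P106.U.H449.InsX

/-!
# P106 / U / H449 : the ray side of a run, light blocks (helper449)

* `alD` : change of the slope of the line between two time levels.
* `lphi` : the next block of the own slope at the time levels where a `φ`-step is allowed, given `(ry, Ur a, X a)`.
* `lcell` : no net line has mass at the time levels where a line step is allowed, lines chosen from `(ry, Ur a, X a)`.
-/

set_option autoImplicit false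

namespace Vale.Agent.P106.U.H449

open Finset Vale.Agent.P127 Vale.Agent.P127.Stk Vale.Agent.P106.U.StripL
open Vale.Agent.P106.U.StripE Vale.Agent.P106.U.InsL Vale.Agent.P106.U.H823
open Vale.Agent.P127.U.CellD (q2 rd)
open Vale.Agent.P127.U.Mic (colp)

namespace Ray

variable {Ω : Type} [Fintype Ω] {ρ : Type}

variable {m κ0 : ℕ} {d0 : Ld} {tW κ pp : Ω → ℝ} {ry : Ω → ρ} {Md : ℕ} {P Q : Law Ω} {p : Pm} {thr : ℝ}
  {E : List (Lt 2)} {q : ℝ}

namespace Hy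

variable (h : Hy m κ0 d0 tW κ pp ry Md P p thr E Q q)

include h

/-- **change of the slope** -/
theorem alD {a b : ℕ} (hab : a ≤ b) (hb : b ≤ p.A) {ω : Ω} (hω : 0 < Q.w ω) :
    |alr m κ0 d0 tW κ pp ry Md P p thr p.n E b ω - alr m κ0 d0 tW κ pp ry Md P p thr p.n E a ω| *
      q2 (m * b) ≤ 2 ^ (m + 2) * q2 (m * Ir κ0 p.n E a) := by
  have h1 := al_T (P := P) h.isL' (by have := h.m6; omega) (Cn.tw_mono (n := p.n) (E := E) hab) ω
  rw [h.cnt_none hb hω, h.cnt_R 1 hω, h.cnt_R 1 hω, h.a0, h.k0, ← Nat.mul_add, ← Nat.mul_add,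
    Nat.zero_add] at h1
  unfold alr
  have e0 : ∀ x y : ℝ, |-x - -y| = |x - y| := fun x y => by
    rw [← abs_neg]
    congr 1
    ring
  rw [e0]
  have hp : (0 : ℝ) < 2 ^ (m * b) := by positivity
  have e1 : q2 (m * b) = 1 / 2 ^ (m * b) := by unfold q2; rw [div_pow, one_pow]
  have e2 : q2 (m * Ir κ0 p.n E a) = 1 / 2 ^ (m * (κ0 + Rw p.n E 1 a)) := by
    unfold q2 Ir; rw [div_pow, one_pow]
  rw [e1, e2, mul_one_div, div_le_iff₀ hp]
  refine h1.trans ?_
  have h2 : (0 : ℝ) < 1 / 2 ^ (m * (κ0 + Rw p.n E 1 b)) := by positivity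
  calc (2 : ℝ) ^ (m * b + m + 2) * (1 / 2 ^ (m * (κ0 + Rw p.n E 1 a)) -
        1 / 2 ^ (m * (κ0 + Rw p.n E 1 b)))
      ≤ 2 ^ (m * b + m + 2) * (1 / 2 ^ (m * (κ0 + Rw p.n E 1 a))) := by
        refine mul_le_mul_of_nonneg_left ?_ (by positivity)
        linarith
    _ = _ := by
        rw [show m * b + m + 2 = (m + 2) + m * b by ring, pow_add]
        ring

omit h in
theorem us_fn (a : ℕ) : Fn Q (fun ω => (ry ω, Ur m κ0 d0 tW κ pp ry Md P p thr p.n E a ω))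
    ((dtL m d0 tW κ (fun ω => (ry ω, fl1 (m * κ0) (pp ω))) (phB m κ0 pp) Md).Us P p thr (tw p.n E a)) := by
  intro ω ω' _ _ e
  have e1 : ry ω = ry ω' := congrArg Prod.fst (congrArg Prod.fst e)
  have e2 : fl1 (m * κ0) (pp ω) = fl1 (m * κ0) (pp ω') := congrArg Prod.snd (congrArg Prod.fst e)
  have e3 : (Ray.e1 m κ0 d0 tW κ pp ry Md P p thr).T P (tw p.n E a) ω =
    (Ray.e1 m κ0 d0 tW κ pp ry Md P p thr).T P (tw p.n E a) ω' := congrArg Prod.snd e
  show (ry ω, (fl1 (m * κ0) (pp ω), (Ray.e1 m κ0 d0 tW κ pp ry Md P p thr).T P (tw p.n E a) ω)) =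
    (ry ω', (fl1 (m * κ0) (pp ω'), (Ray.e1 m κ0 d0 tW κ pp ry Md P p thr).T P (tw p.n E a) ω'))
  rw [e1, e2, e3]

omit h in
theorem fn_us (a : ℕ) :
    Fn Q ((dtL m d0 tW κ (fun ω => (ry ω, fl1 (m * κ0) (pp ω))) (phB m κ0 pp) Md).Us P p thr (tw p.n E a))
    (fun ω => (ry ω, Ur m κ0 d0 tW κ pp ry Md P p thr p.n E a ω)) := by
  intro ω ω' _ _ e
  have e1 : ry ω = ry ω' := congrArg Prod.fst e
  have e2 : fl1 (m * κ0) (pp ω) = fl1 (m * κ0) (pp ω') := congrArg Prod.fst (congrArg Prod.snd e)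
  have e3 : (Ray.e1 m κ0 d0 tW κ pp ry Md P p thr).T P (tw p.n E a) ω =
    (Ray.e1 m κ0 d0 tW κ pp ry Md P p thr).T P (tw p.n E a) ω' := congrArg Prod.snd (congrArg Prod.snd e)
  show ((ry ω, fl1 (m * κ0) (pp ω)), (Ray.e1 m κ0 d0 tW κ pp ry Md P p thr).T P (tw p.n E a) ω) =
    ((ry ω', fl1 (m * κ0) (pp ω')), (Ray.e1 m κ0 d0 tW κ pp ry Md P p thr).T P (tw p.n E a) ω')
  rw [e1, e2, e3]

/-- indices of a set of time levels -/
theorem img_mem {A : Finset ℕ} (hA : ∀ a ∈ A, a < p.A) {i : ℕ} (hi : i ∈ A.image (tw p.n E)) :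
    i < p.n ∧ (le' p.n E i).2 = none ∧ lv p.n E none i ∈ A ∧ tw p.n E (lv p.n E none i) = i := by
  obtain ⟨a, ha, rfl⟩ := mem_image.1 hi
  have h1 : a < lv p.n E none p.n := by rw [h.topA]; exact hA a ha
  refine ⟨h.cn.tw_lt h1, h.cn.tw_kd h1, ?_, ?_⟩
  · rw [h.cn.tw_lv h1.le]
    exact ha
  · rw [h.cn.tw_lv h1.le]

theorem sum_img {A : Finset ℕ} (hA : ∀ a ∈ A, a < p.A) {M : Type*} [AddCommMonoid M] (g : ℕ → M) :
    ∑ i ∈ A.image (tw p.n E), g i = ∑ a ∈ A, g (tw p.n E a) := by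
  refine Finset.sum_image fun a ha b hb hab => ?_
  have h1 := h.cn.tw_lv (a := a) (by rw [h.topA]; exact (hA a ha).le)
  have h2 := h.cn.tw_lv (a := b) (by rw [h.topA]; exact (hA b hb).le)
  rw [hab] at h1
  omega

theorem card_img {A : Finset ℕ} (hA : ∀ a ∈ A, a < p.A) : (A.image (tw p.n E)).card = A.card := by
  have := h.sum_img hA fun _ => (1 : ℕ)
  simpa using this

omit h [Fintype Ω] in
/-- the block from the digits -/
theorem phB_of {j : ℕ} {ω ω' : Ω} (e : fl1 (m * (κ0 + j + 1)) (pp ω) = fl1 (m * (κ0 + j + 1)) (pp ω')) :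
    phB m κ0 pp (j + 1) ω = phB m κ0 pp (j + 1) ω' := by
  have e1 : κ0 + (j + 1) - 1 = κ0 + j := by omega
  have e2 : κ0 + (j + 1) = κ0 + j + 1 := by omega
  have e3 : fl1 (m * (κ0 + j)) (pp ω) = fl1 (m * (κ0 + j)) (pp ω') :=
    Del.fl_nest (Nat.mul_le_mul_left m (Nat.le_succ _)) e
  unfold phB
  rw [e1, e2, e, e3]

/-- **the own slope is light given more** -/
theorem lphi (ht : 0 < thr) {ε : ℝ} (hε : thr < ε) (A : Finset ℕ)
    (hA : ∀ a ∈ A, a < p.A ∧ Rw p.n E 0 a < p.QF ∧ Rw p.n E 0 a < Rw p.n E 1 a + p.B₁)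
    {U : Type*} (X : ℕ → Ω → U) :
    ∑ a ∈ A, colp Q (fun ω => fl1 (m * (Fr κ0 p.n E a + 1)) (pp ω))
        (fun ω => ((ry ω, Ur m κ0 d0 tW κ pp ry Md P p thr p.n E a ω), X a ω)) ≤
      (A.card * ε + ((p.M + 1 : ℕ) * Real.log (1 / q) + A.card) / Real.log (ε / thr)) +
        1 / Real.log (ε / thr) *
          ∑ a ∈ A, mi Q (fun ω => fl1 (m * (Fr κ0 p.n E a + 1)) (pp ω)) (X a)
            (fun ω => (ry ω, Ur m κ0 d0 tW κ pp ry Md P p thr p.n E a ω)) := by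
  classical
  have hA' : ∀ a ∈ A, a < p.A := fun a ha => (hA a ha).1
  set D := dtL m d0 tW κ (fun ω => (ry ω, fl1 (m * κ0) (pp ω))) (phB m κ0 pp) Md with hD
  have hcn : Cn (D.rule P p thr) P Q p.n E q := h.cn
  have key := Dt.phiX hcn ht hε (A.image (tw p.n E)) (fun i hi => by
    obtain ⟨g1, g2, g3, g4⟩ := h.img_mem hA' hi
    refine ⟨g1, g2, fun ω hω => (h.cn.ok0_iff g1.le hω).2 ?_⟩
    obtain ⟨k1, k2, k3⟩ := hA _ g3
    unfold Rw at k2 k3
    rw [g4] at k2 k3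
    exact ⟨k2, k3⟩) (fun i => X (lv p.n E none i))
  rw [h.sum_img hA', h.sum_img hA', h.card_img hA'] at key
  have hlv : ∀ a ∈ A, lv p.n E none (tw p.n E a) = a := fun a ha =>
    h.cn.tw_lv (by rw [h.topA]; exact (hA' a ha).le)
  have hL : 0 < Real.log (ε / thr) := Real.log_pos (by rwa [one_lt_div ht])
  refine le_trans (Finset.sum_le_sum fun a ha => ?_) (key.trans (add_le_add le_rfl
    (mul_le_mul_of_nonneg_left (Finset.sum_le_sum fun a ha => ?_) (by positivity))))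
  · have e1 : lv p.n E none (tw p.n E a) = a := hlv a ha
    have g1 : colp Q (fun ω => fl1 (m * (Fr κ0 p.n E a + 1)) (pp ω))
        (fun ω => ((ry ω, Ur m κ0 d0 tW κ pp ry Md P p thr p.n E a ω), X a ω)) ≤
        colp Q (D.ph (lv p.n E (some 0) (tw p.n E a) + 1))
          (fun ω => ((ry ω, Ur m κ0 d0 tW κ pp ry Md P p thr p.n E a ω), X a ω)) :=
      Vale.Agent.P127.U.Mic.colp_mono_var Q _ fun ω ω' _ _ e => phB_of (congrArg Prod.fst e)
    refine g1.trans ?_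
    rw [e1]
    refine Vale.Agent.P127.U.Mic.colp_mono_cond Q _ fun ω ω' h1 h2 e => ?_
    have k1 := us_fn (Q := Q) (m := m) (κ0 := κ0) (d0 := d0) (tW := tW) (κ := κ) (pp := pp) (ry := ry)
      (Md := Md) (P := P) (p := p) (thr := thr) (E := E) a ω ω' h1 h2 (congrArg Prod.fst e)
    have k2 : X a ω = X a ω' := congrArg Prod.snd e
    simp only at k1
    rw [k1, k2]
  · have e1 : lv p.n E none (tw p.n E a) = a := hlv a ha
    rw [e1]
    rw [mi_congr_cond Q (D.ph (lv p.n E (some 0) (tw p.n E a) + 1)) (X a)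
      (Z := D.Us P p thr (tw p.n E a))
      (Z' := fun ω => (ry ω, Ur m κ0 d0 tW κ pp ry Md P p thr p.n E a ω)) (fn_us a) (us_fn a)]
    exact mi_mono_left Q (X a) fun ω ω' _ _ e => phB_of (congrArg Prod.fst e)

/-- **no net line has mass**, given more -/
theorem lcell (ht : 0 < thr) (ht1 : thr < 1) (A : Finset ℕ)
    (hA : ∀ a ∈ A, a < p.A ∧ Rw p.n E 1 a + p.B₀ < Rw p.n E 0 a)
    {U : Type*} (X : ℕ → Ω → U) (s : ℕ → (ρ × (ℤ × S1)) × U → ℤ × ℤ) :
    ∑ a ∈ A, prE Q (fun ω => inc m (s a ((ry ω, Ur m κ0 d0 tW κ pp ry Md P p thr p.n E a ω), X a ω))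
        (Vr m κ0 d0 tW κ pp ry Md P p thr p.n E a ω)) ≤
      ((Md + 1 : ℕ) * Real.log (1 / q) + A.card) / Real.log (1 / thr) +
        1 / Real.log (1 / thr) *
          ∑ a ∈ A, mi Q (Vr m κ0 d0 tW κ pp ry Md P p thr p.n E a) (X a)
            (fun ω => (ry ω, Ur m κ0 d0 tW κ pp ry Md P p thr p.n E a ω)) := by
  classical
  have hA' : ∀ a ∈ A, a < p.A := fun a ha => (hA a ha).1
  set D := dtL m d0 tW κ (fun ω => (ry ω, fl1 (m * κ0) (pp ω))) (phB m κ0 pp) Md with hD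
  have hcn : Cn (D.rule P p thr) P Q p.n E q := h.cn
  have key := Dt.cellX hcn ht ht1 (by have := h.Md2; show 1 ≤ Md; omega) (A.image (tw p.n E))
    (fun i hi => by
      obtain ⟨g1, g2, g3, g4⟩ := h.img_mem hA' hi
      refine ⟨g1, g2, fun ω hω => (h.cn.ok1_iff g1.le hω).2 ?_⟩
      obtain ⟨k1, k2⟩ := hA _ g3
      unfold Rw at k2
      rw [g4] at k2
      exact k2) (fun i => X (lv p.n E none i))
    (fun i y => s (lv p.n E none i) ((y.1.1.1, (y.1.1.2, y.1.2)), y.2))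
  rw [h.sum_img hA', h.sum_img hA', h.card_img hA'] at key
  have hlv : ∀ a ∈ A, lv p.n E none (tw p.n E a) = a := fun a ha =>
    h.cn.tw_lv (by rw [h.topA]; exact (hA' a ha).le)
  have hL : 0 < Real.log (1 / thr) := Real.log_pos (by rwa [one_lt_div ht])
  have hV : ∀ a ∈ A, Vr m κ0 d0 tW κ pp ry Md P p thr p.n E a =
      fun ω => D.V ((D.rule P p thr).T P (tw p.n E a) ω) ω := by
    intro a ha
    funext ω
    unfold Vr
    rw [if_pos (hA a ha).2]
    rfl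
  refine le_trans (Finset.sum_le_sum fun a ha => ?_) (key.trans (add_le_add le_rfl
    (mul_le_mul_of_nonneg_left (Finset.sum_le_sum fun a ha => ?_) (by positivity))))
  · have e1 : lv p.n E none (tw p.n E a) = a := hlv a ha
    rw [hV a ha]
    refine Vale.Agent.P127.U.Path.prE_mono Q fun ω hω hm' => ?_
    show inc m (s (lv p.n E none (tw p.n E a)) ((ry ω, (fl1 (m * κ0) (pp ω),
      (D.rule P p thr).T P (tw p.n E a) ω)), X (lv p.n E none (tw p.n E a)) ω)) _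
    rw [e1]
    exact hm'
  · have e1 : lv p.n E none (tw p.n E a) = a := hlv a ha
    rw [e1, hV a ha]
    exact (mi_congr_cond Q _ (X a)
      (Z := D.Us P p thr (tw p.n E a))
      (Z' := fun ω => (ry ω, Ur m κ0 d0 tW κ pp ry Md P p thr p.n E a ω)) (fn_us a) (us_fn a)).le

end Hy

end Ray

end Vale.Agent.P106.U.H449
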