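import Vale.Agent.P106.U.H449.RayL

/-!
# P106 / U / H449 : the ray side along the steps of a path (helper449)

`lev i` = time level (in blocks) of the step `i` of a path, `lev 0 = 0`, increments `0` or `1`.

* `prU_run` : prices of the letters `Ur (lev i)`.
* `phi_run`, `cell_run` : light blocks at the time steps of the path.
-/

set_option autoImplicit false

namespace Vale.Agent.P106.U.H449

open Finset Vale.Agent.P127 Vale.Agent.P127.Stk Vale.Agent.P106.U.StripL
open Vale.Agent.P106.U.StripE Vale.Agent.P106.U.InsL Vale.Agent.P106.U.H823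
open Vale.Agent.P127.U.CellD (q2 rd)
open Vale.Agent.P127.U.Mic (colp)

namespace Ray

variable {Ω : Type} [Fintype Ω] {ρ : Type}

/-- levels of the steps -/
structure Lev (lev : ℕ → ℕ) : Prop where
  z : lev 0 = 0
  s : ∀ i, lev (i + 1) = lev i ∨ lev (i + 1) = lev i + 1

theorem Lev.mono {lev : ℕ → ℕ} (hl : Lev lev) : Monotone lev :=
  monotone_nat_of_le_succ fun i => by rcases hl.s i with h | h <;> omega

/-- different time steps have different levels -/
theorem Lev.inj {lev : ℕ → ℕ} (hl : Lev lev) {A : Finset ℕ} (hA : ∀ i ∈ A, lev (i + 1) = lev i + 1) :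
    Set.InjOn lev (A : Set ℕ) := by
  intro i hi j hj hij
  rcases Nat.lt_trichotomy i j with h | h | h
  · have h1 := hl.mono (show i + 1 ≤ j from h)
    have h2 := hA i hi
    omega
  · exact h
  · have h1 := hl.mono (show j + 1 ≤ i from h)
    have h2 := hA j hj
    omega

variable {m κ0 : ℕ} {d0 : Ld} {tW κ pp : Ω → ℝ} {ry : Ω → ρ} {Md : ℕ} {P Q : Law Ω} {p : Pm} {thr : ℝ}
  {E : List (Lt 2)} {q : ℝ}

namespace Hy

variable (h : Hy m κ0 d0 tW κ pp ry Md P p thr E Q q)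

omit h in
/-- sum over the steps from a sum over the levels -/
theorem sum_lev {lev : ℕ → ℕ} (hl : Lev lev) (f g : ℕ → ℝ) (hg : ∀ a, 0 ≤ g a)
    (h0 : ∀ i, lev (i + 1) = lev i → f i ≤ 0) (h1 : ∀ i, lev (i + 1) = lev i + 1 → f i ≤ g (lev i))
    (N : ℕ) : ∑ i ∈ range N, f i ≤ ∑ a ∈ range (lev N), g a := by
  induction N with
  | zero => rw [hl.z]; simp
  | succ N ih =>
    rw [Finset.sum_range_succ]
    rcases hl.s N with h2 | h2
    · rw [h2]
      have := h0 N h2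
      linarith
    · rw [h2, Finset.sum_range_succ]
      have := h1 N h2
      linarith

include h

/-- **prices along the path** -/
theorem prU_run (ht0 : 0 < thr) (ht1 : thr ≤ 1) {lev : ℕ → ℕ} (hl : Lev lev) {N A' : ℕ}
    (hN : lev N ≤ A') (hA : A' < p.A) {SP : Finset ℤ}
    (hph : ∀ j ω, 0 < Q.w ω → phB m κ0 pp j ω ∈ SP) (hSP : SP.card ≤ 2 ^ (m + 6)) {NS : ℕ}
    (hNS : Few Q (fun ω => fl1 (m * κ0) (pp ω)) ry NS) :
    Stk.hc Q (Ur m κ0 d0 tW κ pp ry Md P p thr p.n E (lev 0)) ry +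
      ∑ i ∈ range N, Stk.hc Q (Ur m κ0 d0 tW κ pp ry Md P p thr p.n E (lev (i + 1)))
        (fun ω => ((ry ω, Ur m κ0 d0 tW κ pp ry Md P p thr p.n E (lev i) ω),
          fl1 (m * lev (i + 1)) (tW ω))) ≤
      Real.log NS + (((Rw p.n E 0 A' + Rw p.n E 1 A' : ℕ) : ℝ) * Real.log (1 / thr) +
        (2 * (tw p.n E A' / (p.M + 1) + 1) : ℕ) * ((m + 6 : ℝ) * Real.log 2) +
        ((tw p.n E A' : ℕ) * Real.log 99 +
          ((p.M + 4) * (tw p.n E A' / Md + 1) : ℕ) * ((3 * m + 12 : ℝ) * Real.log 2))) := by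
  have key := h.prU ht0 ht1 hA hph hSP hNS
  have h1 := sum_lev hl
    (fun i => Stk.hc Q (Ur m κ0 d0 tW κ pp ry Md P p thr p.n E (lev (i + 1)))
        (fun ω => ((ry ω, Ur m κ0 d0 tW κ pp ry Md P p thr p.n E (lev i) ω),
          fl1 (m * lev (i + 1)) (tW ω))))
    (fun a => Stk.hc Q (Ur m κ0 d0 tW κ pp ry Md P p thr p.n E (a + 1))
        (fun ω => ((ry ω, Ur m κ0 d0 tW κ pp ry Md P p thr p.n E a ω), fl1 (m * (a + 1)) (tW ω))))
    (fun a => hc_nonneg Q _ _)
    (fun i hi => by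
      refine le_of_eq (hc_zero Q fun ω ω' _ _ e => ?_)
      rw [hi]
      exact congrArg Prod.snd (congrArg Prod.fst e))
    (fun i hi => by
      simp only [hi]
      exact le_rfl) N
  have h2 : ∑ a ∈ range (lev N), Stk.hc Q (Ur m κ0 d0 tW κ pp ry Md P p thr p.n E (a + 1))
        (fun ω => ((ry ω, Ur m κ0 d0 tW κ pp ry Md P p thr p.n E a ω), fl1 (m * (a + 1)) (tW ω))) ≤
      ∑ a ∈ range A', Stk.hc Q (Ur m κ0 d0 tW κ pp ry Md P p thr p.n E (a + 1))
        (fun ω => ((ry ω, Ur m κ0 d0 tW κ pp ry Md P p thr p.n E a ω), fl1 (m * (a + 1)) (tW ω))) :=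
    Finset.sum_le_sum_of_subset_of_nonneg (Finset.range_mono hN) fun a _ _ => hc_nonneg Q _ _
  rw [hl.z]
  linarith

/-- **the own slope at the time steps of the path** -/
theorem phi_run (ht : 0 < thr) {ε : ℝ} (hε : thr < ε) {lev : ℕ → ℕ} (hl : Lev lev) (A : Finset ℕ)
    (hA : ∀ i ∈ A, lev (i + 1) = lev i + 1 ∧ lev i < p.A ∧ Rw p.n E 0 (lev i) < p.QF ∧
      Rw p.n E 0 (lev i) < Rw p.n E 1 (lev i) + p.B₁)
    {U : Type*} (X : ℕ → Ω → U) :
    ∑ i ∈ A, colp Q (fun ω => fl1 (m * (Fr κ0 p.n E (lev i) + 1)) (pp ω))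
        (fun ω => ((ry ω, Ur m κ0 d0 tW κ pp ry Md P p thr p.n E (lev i) ω), X i ω)) ≤
      (A.card * ε + ((p.M + 1 : ℕ) * Real.log (1 / q) + A.card) / Real.log (ε / thr)) +
        1 / Real.log (ε / thr) *
          ∑ i ∈ A, mi Q (fun ω => fl1 (m * (Fr κ0 p.n E (lev i) + 1)) (pp ω)) (X i)
            (fun ω => (ry ω, Ur m κ0 d0 tW κ pp ry Md P p thr p.n E (lev i) ω)) := by
  classical
  have hinj := hl.inj (A := A) fun i hi => (hA i hi).1
  -- a right inverse of `lev` on `A`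
  set g : ℕ → ℕ := fun a => if hx : ∃ i ∈ A, lev i = a then hx.choose else 0 with hg
  have hgl : ∀ i ∈ A, g (lev i) = i := by
    intro i hi
    have hx : ∃ j ∈ A, lev j = lev i := ⟨i, hi, rfl⟩
    simp only [hg]
    rw [dif_pos hx]
    exact hinj hx.choose_spec.1 hi hx.choose_spec.2
  have key := h.lphi ht hε (A.image lev) (fun a ha => by
    obtain ⟨i, hi, rfl⟩ := mem_image.1 ha
    obtain ⟨-, h2, h3, h4⟩ := hA i hi
    exact ⟨h2, h3, h4⟩) (fun a => X (g a))
  rw [Finset.sum_image hinj, Finset.sum_image hinj, Finset.card_image_of_injOn hinj] at key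
  refine le_trans (le_of_eq (Finset.sum_congr rfl fun i hi => ?_)) (key.trans (le_of_eq ?_))
  · rw [hgl i hi]
  · congr 2
    exact Finset.sum_congr rfl fun i hi => by rw [hgl i hi]

/-- **no net line has mass at the time steps of the path** -/
theorem cell_run (ht : 0 < thr) (ht1 : thr < 1) {lev : ℕ → ℕ} (hl : Lev lev) (A : Finset ℕ)
    (hA : ∀ i ∈ A, lev (i + 1) = lev i + 1 ∧ lev i < p.A ∧
      Rw p.n E 1 (lev i) + p.B₀ < Rw p.n E 0 (lev i))
    {U : Type*} (X : ℕ → Ω → U) (s : ℕ → (ρ × (ℤ × S1)) × U → ℤ × ℤ) :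
    ∑ i ∈ A, prE Q (fun ω => inc m
        (s i ((ry ω, Ur m κ0 d0 tW κ pp ry Md P p thr p.n E (lev i) ω), X i ω))
        (Vr m κ0 d0 tW κ pp ry Md P p thr p.n E (lev i) ω)) ≤
      ((Md + 1 : ℕ) * Real.log (1 / q) + A.card) / Real.log (1 / thr) +
        1 / Real.log (1 / thr) *
          ∑ i ∈ A, mi Q (Vr m κ0 d0 tW κ pp ry Md P p thr p.n E (lev i)) (X i)
            (fun ω => (ry ω, Ur m κ0 d0 tW κ pp ry Md P p thr p.n E (lev i) ω)) := by
  classical
  have hinj := hl.inj (A := A) fun i hi => (hA i hi).1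
  set g : ℕ → ℕ := fun a => if hx : ∃ i ∈ A, lev i = a then hx.choose else 0 with hg
  have hgl : ∀ i ∈ A, g (lev i) = i := by
    intro i hi
    have hx : ∃ j ∈ A, lev j = lev i := ⟨i, hi, rfl⟩
    simp only [hg]
    rw [dif_pos hx]
    exact hinj hx.choose_spec.1 hi hx.choose_spec.2
  have key := h.lcell ht ht1 (A.image lev) (fun a ha => by
    obtain ⟨i, hi, rfl⟩ := mem_image.1 ha
    obtain ⟨-, h2, h3⟩ := hA i hi
    exact ⟨h2, h3⟩) (fun a => X (g a)) (fun a => s (g a))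
  rw [Finset.sum_image hinj, Finset.sum_image hinj, Finset.card_image_of_injOn hinj] at key
  refine le_trans (le_of_eq (Finset.sum_congr rfl fun i hi => ?_)) (key.trans (le_of_eq ?_))
  · rw [hgl i hi]
  · congr 2
    exact Finset.sum_congr rfl fun i hi => by rw [hgl i hi]

end Hy

end Ray

end Vale.Agent.P106.U.H449
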