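import Vale.Agent.P127.U.H824.YPat
import Vale.Agent.P127.U.Mic.Colp

/-!
# P106 / U / H449 : the second word (helper384's note 18130 (1)), abstract form (helper449)

Finite law `Q`, variable `Z` (in the application `Z = (W, y_b1)`), germs `A a ξ` (level `a`, precision `ξ`), nested in
`ξ`, `ξ ≤ N a`.  `θ > 1/2`.

* `Kn a ξ z` : some value of `A a ξ` has conditional probability `≥ θ` given `Z = z`.
* `xW a z` : the largest `ξ ≤ N a` with `Kn a ξ z`;  `gW a z` : the value of probability `≥ θ` at this precision.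
* `bad_le` : the germ differs from `gW` with probability `≤ 1 - θ` (given `Z`).
* `lt_of_lt` : beyond `xW` no value has probability `≥ θ` given `Z`.
* `gW_eq` : uniqueness of the value;  `gW_anti` : coarser values of the likely value are likely.
* `xW_succ` : `xW a z ≤ xW (a + 1) z + s` if the germs of neighbouring levels agree;
* `xW_jump` : if `xW` jumps by more than `s` then `xW a z = N a`.
* `wd2` : the word `a ↦ xW a (Z ω)`;  `wd2_card` : at most `2 ^ (B + n * (s + 1) + 1)` values.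
* `cond_cp` : conditioning on a function of `Z` does not change conditional probabilities given `Z`.
-/

set_option autoImplicit false

namespace Vale.Agent.P106.U.H449.W2

open Finset Vale.Agent.P127 Vale.Agent.P127.Stk Vale.Agent.P127.U.Nonat Vale.Agent.P127.U.YPat

variable {Ω : Type} [Fintype Ω] {ζ α : Type}

/-- the data -/
structure Gm (Ω ζ α : Type) where
  /-- what is known -/
  Z : Ω → ζ
  /-- germ of level `a` to the precision `ξ` -/
  A : ℕ → ℕ → Ω → α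
  /-- precision of the germ of level `a` -/
  N : ℕ → ℕ
  θ : ℝ

/-- the hypotheses -/
structure Gm.Ok (G : Gm Ω ζ α) (Q : Law Ω) : Prop where
  t0 : 1 / 2 < G.θ
  t1 : G.θ ≤ 1
  zero : ∀ a, Fn Q (G.A a 0) G.Z
  nest : ∀ a ξ, Fn Q (G.A a ξ) (G.A a (ξ + 1))

namespace Gm

variable (G : Gm Ω ζ α)

/-- the germ of level `a` is known to the precision `ξ` given `Z = z` -/
def Kn (Q : Law Ω) (a ξ : ℕ) (z : ζ) : Prop :=
  ∃ g, G.θ * Q.pr G.Z z ≤ Q.pr (fun ω => (G.A a ξ ω, G.Z ω)) (g, z)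

open Classical in
/-- **precision known given `Z`** -/
noncomputable def xW (Q : Law Ω) (a : ℕ) (z : ζ) : ℕ := Nat.findGreatest (fun ξ => G.Kn Q a ξ z) (G.N a)

open Classical in
/-- the likely value -/
noncomputable def gW [Nonempty α] (Q : Law Ω) (a ξ : ℕ) (z : ζ) : α :=
  if h : G.Kn Q a ξ z then h.choose else Classical.arbitrary α

variable {G} {Q : Law Ω}

theorem xW_le (a : ℕ) (z : ζ) : G.xW Q a z ≤ G.N a := by
  classical
  unfold xW
  exact Nat.findGreatest_le _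

/-- two values of probability `> 1/2` agree -/
theorem val_unique (h0 : 1 / 2 < G.θ) {a ξ : ℕ} {z : ζ} (hz : 0 < Q.pr G.Z z) {g g' : α}
    (h : G.θ * Q.pr G.Z z ≤ Q.pr (fun ω => (G.A a ξ ω, G.Z ω)) (g, z))
    (h' : G.θ * Q.pr G.Z z ≤ Q.pr (fun ω => (G.A a ξ ω, G.Z ω)) (g', z)) : g = g' := by
  classical
  by_contra hne
  have h1 := Q.sum_pr_pair_le (G.A a ξ) G.Z z {g, g'}
  rw [Finset.sum_pair hne] at h1
  nlinarith

theorem Kn_zero (hO : G.Ok Q) (a : ℕ) {z : ζ} (hz : 0 < Q.pr G.Z z) : G.Kn Q a 0 z := by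
  classical
  obtain ⟨ω, hω, hωz⟩ : ∃ ω, 0 < Q.w ω ∧ G.Z ω = z := by
    by_contra hcon
    push Not at hcon
    have : Q.pr G.Z z = 0 := by
      unfold Law.pr
      refine Finset.sum_eq_zero fun ω hω => ?_
      simp only [Finset.mem_filter, Finset.mem_univ, true_and] at hω
      rcases (Q.nn ω).eq_or_lt with h | h
      · exact h.symm
      · exact absurd hω (hcon ω h)
    linarith
  refine ⟨G.A a 0 ω, ?_⟩
  have h1 : Q.pr G.Z z ≤ Q.pr (fun ω => (G.A a 0 ω, G.Z ω)) (G.A a 0 ω, z) := by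
    unfold Law.pr
    rw [Finset.sum_filter, Finset.sum_filter]
    refine Finset.sum_le_sum fun ω' _ => ?_
    rcases (Q.nn ω').eq_or_lt with h0 | h0
    · rw [← h0]; simp
    · by_cases hx : G.Z ω' = z
      · rw [if_pos hx, if_pos (Prod.ext (hO.zero a ω' ω h0 hω (hx.trans hωz.symm)) hx)]
      · rw [if_neg hx]
        split_ifs
        · exact h0.le
        · exact le_rfl
  calc G.θ * Q.pr G.Z z ≤ 1 * Q.pr G.Z z := mul_le_mul_of_nonneg_right hO.t1 hz.le
    _ ≤ _ := by rw [one_mul]; exact h1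

/-- transfer of knowledge to a function of the germ and of `Z` -/
theorem Kn_of_fn {a ξ a' ξ' : ℕ} (hf : Fn Q (G.A a' ξ') (fun ω => (G.A a ξ ω, G.Z ω))) {z : ζ}
    (hz : 0 < Q.pr G.Z z) (h0 : 0 < G.θ) (h : G.Kn Q a ξ z) : G.Kn Q a' ξ' z := by
  classical
  obtain ⟨g, hg⟩ := h
  have hpos : 0 < Q.pr (fun ω => (G.A a ξ ω, G.Z ω)) (g, z) := (mul_pos h0 hz).trans_le hg
  obtain ⟨ω, hω, hωz⟩ : ∃ ω, 0 < Q.w ω ∧ (G.A a ξ ω, G.Z ω) = (g, z) := by
    by_contra hcon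
    push Not at hcon
    have : Q.pr (fun ω => (G.A a ξ ω, G.Z ω)) (g, z) = 0 := by
      unfold Law.pr
      refine Finset.sum_eq_zero fun ω hω => ?_
      simp only [Finset.mem_filter, Finset.mem_univ, true_and] at hω
      rcases (Q.nn ω).eq_or_lt with h | h
      · exact h.symm
      · exact absurd hω (hcon ω h)
    linarith
  refine ⟨G.A a' ξ' ω, hg.trans ?_⟩
  unfold Law.pr
  rw [Finset.sum_filter, Finset.sum_filter]
  refine Finset.sum_le_sum fun ω' _ => ?_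
  rcases (Q.nn ω').eq_or_lt with h0 | h0
  · rw [← h0]; simp
  · by_cases hx : (G.A a ξ ω', G.Z ω') = (g, z)
    · have e1 := hf ω' ω h0 hω (hx.trans hωz.symm)
      rw [if_pos hx, if_pos (Prod.ext e1 (Prod.mk.inj hx).2)]
    · rw [if_neg hx]
      split_ifs
      · exact h0.le
      · exact le_rfl

theorem nest_le (hO : G.Ok Q) (a : ℕ) {ξ ξ' : ℕ} (h : ξ ≤ ξ') : Fn Q (G.A a ξ) (G.A a ξ') := by
  induction ξ', h using Nat.le_induction with
  | base => exact fun _ _ _ _ e => e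
  | succ k _ ih => exact fun ω ω' p p' e => ih ω ω' p p' (hO.nest a k ω ω' p p' e)

theorem Kn_anti (hO : G.Ok Q) (a : ℕ) {ξ ξ' : ℕ} (h : ξ ≤ ξ') {z : ζ} (hz : 0 < Q.pr G.Z z)
    (hk : G.Kn Q a ξ' z) : G.Kn Q a ξ z :=
  Kn_of_fn (fun ω ω' p p' e => nest_le hO a h ω ω' p p' (congrArg Prod.fst e)) hz
    (by linarith [hO.t0]) hk

theorem Kn_xW (hO : G.Ok Q) (a : ℕ) {z : ζ} (hz : 0 < Q.pr G.Z z) : G.Kn Q a (G.xW Q a z) z := by
  classical
  unfold xW
  exact Nat.findGreatest_spec (P := fun ξ => G.Kn Q a ξ z) (Nat.zero_le _) (Kn_zero hO a hz)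

theorem Kn_le (hO : G.Ok Q) (a : ℕ) {ξ : ℕ} {z : ζ} (hz : 0 < Q.pr G.Z z) (h : ξ ≤ G.xW Q a z) :
    G.Kn Q a ξ z := Kn_anti hO a h hz (Kn_xW hO a hz)

theorem not_Kn {a ξ : ℕ} {z : ζ} (h : G.xW Q a z < ξ) (hN : ξ ≤ G.N a) : ¬ G.Kn Q a ξ z := by
  classical
  unfold xW at h
  exact Nat.findGreatest_is_greatest h hN

/-- **beyond the known precision every value is unlikely** -/
theorem lt_of_lt {a ξ : ℕ} {z : ζ} (h : G.xW Q a z < ξ) (hN : ξ ≤ G.N a) (g : α) :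
    Q.pr (fun ω => (G.A a ξ ω, G.Z ω)) (g, z) < G.θ * Q.pr G.Z z := by
  by_contra hcon
  push Not at hcon
  exact not_Kn h hN ⟨g, hcon⟩

theorem gW_spec [Nonempty α] {a ξ : ℕ} {z : ζ} (h : G.Kn Q a ξ z) :
    G.θ * Q.pr G.Z z ≤ Q.pr (fun ω => (G.A a ξ ω, G.Z ω)) (G.gW Q a ξ z, z) := by
  classical
  unfold gW
  rw [dif_pos h]
  exact h.choose_spec

theorem gW_eq [Nonempty α] (h0 : 1 / 2 < G.θ) {a ξ : ℕ} {z : ζ} (hz : 0 < Q.pr G.Z z) {g : α}
    (h : G.θ * Q.pr G.Z z ≤ Q.pr (fun ω => (G.A a ξ ω, G.Z ω)) (g, z)) : G.gW Q a ξ z = g :=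
  val_unique h0 hz (gW_spec ⟨g, h⟩) h

/-- **the germ is the likely value up to probability `1 - θ`**, given `Z` -/
theorem bad_le [Nonempty α] {a ξ : ℕ} {z : ζ} (h : G.Kn Q a ξ z) :
    prE Q (fun ω => G.Z ω = z ∧ G.A a ξ ω ≠ G.gW Q a ξ z) ≤ (1 - G.θ) * Q.pr G.Z z := by
  classical
  have h1 := gW_spec h
  have h2 : prE Q (fun ω => G.Z ω = z ∧ G.A a ξ ω ≠ G.gW Q a ξ z) +
      Q.pr (fun ω => (G.A a ξ ω, G.Z ω)) (G.gW Q a ξ z, z) = Q.pr G.Z z := by
    unfold prE Law.pr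
    rw [Finset.sum_filter, Finset.sum_filter, Finset.sum_filter, ← Finset.sum_add_distrib]
    refine Finset.sum_congr rfl fun ω _ => ?_
    by_cases hz : G.Z ω = z
    · by_cases ha : G.A a ξ ω = G.gW Q a ξ z
      · simp [hz, ha]
      · simp [hz, ha]
    · simp [hz]
  linarith

/-- the same, averaged over `Z`, at any precision below the known one -/
theorem bad_le' [Nonempty α] (hO : G.Ok Q) (a : ℕ) (x : ζ → ℕ) (hx : ∀ z, x z ≤ G.xW Q a z) :
    prE Q (fun ω => G.A a (x (G.Z ω)) ω ≠ G.gW Q a (x (G.Z ω)) (G.Z ω)) ≤ 1 - G.θ := by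
  classical
  have h1 : prE Q (fun ω => G.A a (x (G.Z ω)) ω ≠ G.gW Q a (x (G.Z ω)) (G.Z ω)) =
      ∑ z ∈ img G.Z, prE Q (fun ω => G.Z ω = z ∧ G.A a (x z) ω ≠ G.gW Q a (x z) z) := by
    unfold prE
    rw [← Finset.sum_fiberwise_of_maps_to (g := G.Z) (t := img G.Z)
      (fun ω _ => mem_img.2 ⟨ω, rfl⟩)]
    refine Finset.sum_congr rfl fun z _ => Finset.sum_congr ?_ fun _ _ => rfl
    ext ω
    simp only [Finset.mem_filter, Finset.mem_univ, true_and]
    constructor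
    · rintro ⟨h1, rfl⟩
      exact ⟨rfl, h1⟩
    · rintro ⟨rfl, h1⟩
      exact ⟨h1, rfl⟩
  rw [h1]
  have h2 : ∀ z ∈ img G.Z, prE Q (fun ω => G.Z ω = z ∧ G.A a (x z) ω ≠ G.gW Q a (x z) z) ≤
      (1 - G.θ) * Q.pr G.Z z := by
    intro z _
    rcases (Q.pr_nonneg G.Z z).eq_or_lt with h0 | h0
    · have h3 : prE Q (fun ω => G.Z ω = z ∧ G.A a (x z) ω ≠ G.gW Q a (x z) z) ≤ Q.pr G.Z z := by
        unfold prE Law.pr
        refine Finset.sum_le_sum_of_subset_of_nonneg ?_ fun ω _ _ => Q.nn ω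
        intro ω hω
        simp only [mem_filter, mem_univ, true_and] at hω ⊢
        exact hω.1
      rw [← h0] at h3 ⊢
      rw [mul_zero]
      exact h3
    · exact bad_le (Kn_le hO a h0 (hx z))
  refine (Finset.sum_le_sum h2).trans ?_
  rw [← Finset.mul_sum, Q.sum_pr_image, mul_one]

/-- neighbouring levels -/
theorem xW_succ (hO : G.Ok Q) {a s : ℕ} (hN : G.N a ≤ G.N (a + 1) + s)
    (hc : ∀ ξ, ξ ≤ G.N a → Fn Q (G.A (a + 1) (ξ - s)) (fun ω => (G.A a ξ ω, G.Z ω)))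
    {z : ζ} (hz : 0 < Q.pr G.Z z) : G.xW Q a z ≤ G.xW Q (a + 1) z + s := by
  classical
  have h1 := xW_le (G := G) (Q := Q) a z
  have h2 := Kn_of_fn (hc _ h1) hz (by linarith [hO.t0]) (Kn_xW hO a hz)
  have h3 : G.xW Q a z - s ≤ G.xW Q (a + 1) z := by
    unfold xW
    refine Nat.le_findGreatest ?_ h2
    have : G.xW Q a z - s ≤ G.N (a + 1) := by omega
    exact this
  omega

/-- **a jump of the known precision starts at a level where everything is known** -/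
theorem xW_jump (hO : G.Ok Q) {a s : ℕ}
    (hc : ∀ ξ, ξ ≤ G.N a → ξ + s ≤ G.N (a + 1) →
      Fn Q (G.A a ξ) (fun ω => (G.A (a + 1) (ξ + s) ω, G.Z ω)))
    {z : ζ} (hz : 0 < Q.pr G.Z z) (hj : G.xW Q a z + s < G.xW Q (a + 1) z) : G.xW Q a z = G.N a := by
  by_contra hne
  have h1 := xW_le (G := G) (Q := Q) a z
  have h2 := xW_le (G := G) (Q := Q) (a + 1) z
  have h3 : G.xW Q a z + 1 ≤ G.N a := by omega
  have h4 := Kn_of_fn (hc (G.xW Q a z + 1) h3 (by omega)) hz (by linarith [hO.t0])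
    (Kn_le hO (a + 1) hz (ξ := G.xW Q a z + 1 + s) (by omega))
  exact not_Kn (Nat.lt_succ_self _) h3 h4

end Gm

/-! ### The word -/

/-- number of functions `f` on `{0, .., n}` with values `≤ B` and `f a ≤ f (a + 1) + s` -/
theorem card_path {Ω : Type} [Fintype Ω] (n B s : ℕ) (f : Ω → Fin (n + 1) → ℕ)
    (hB : ∀ ω a, f ω a ≤ B) (hs : ∀ ω (a : ℕ) (h : a + 1 < n + 1), f ω ⟨a, by omega⟩ ≤ f ω ⟨a + 1, h⟩ + s) :
    (img f).card ≤ 2 ^ (B + n * (s + 1) + 1) := by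
  classical
  set φ : (Fin (n + 1) → ℕ) → Finset ℕ := fun g => univ.image fun a : Fin (n + 1) =>
    g a + a * (s + 1) with hφ
  have hmono : ∀ ω, StrictMono fun a : Fin (n + 1) => f ω a + (a : ℕ) * (s + 1) := by
    intro ω
    rw [Fin.strictMono_iff_lt_succ]
    intro i
    have h1 := hs ω i.1 (by omega)
    have e1 : (i.castSucc : Fin (n + 1)) = ⟨i.1, by omega⟩ := rfl
    have e2 : (i.succ : Fin (n + 1)) = ⟨i.1 + 1, by omega⟩ := rfl
    show f ω i.castSucc + (i.castSucc : Fin (n + 1)).1 * (s + 1) <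
      f ω i.succ + (i.succ : Fin (n + 1)).1 * (s + 1)
    rw [e1, e2]
    show f ω ⟨i.1, _⟩ + i.1 * (s + 1) < f ω ⟨i.1 + 1, _⟩ + (i.1 + 1) * (s + 1)
    have e3 : (i.1 + 1) * (s + 1) = i.1 * (s + 1) + (s + 1) := by ring
    omega
  have hinj : Set.InjOn φ (img f : Set (Fin (n + 1) → ℕ)) := by
    intro g hg g' hg' h
    rw [Finset.mem_coe, mem_img] at hg hg'
    obtain ⟨ω, rfl⟩ := hg
    obtain ⟨ω', rfl⟩ := hg'
    have h1 : Set.range (fun a : Fin (n + 1) => f ω a + (a : ℕ) * (s + 1)) =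
        Set.range (fun a : Fin (n + 1) => f ω' a + (a : ℕ) * (s + 1)) := by
      have h2 := congrArg (fun F : Finset ℕ => (F : Set ℕ)) h
      simpa [hφ, Finset.coe_image] using h2
    have h2 := (StrictMono.range_inj (hmono ω) (hmono ω')).1 h1
    funext a
    have h3 : f ω a + (a : ℕ) * (s + 1) = f ω' a + (a : ℕ) * (s + 1) := congrFun h2 a
    omega
  have hsub : (img f).image φ ⊆ (Finset.range (B + n * (s + 1) + 1)).powerset := by
    intro F hF
    rw [Finset.mem_image] at hF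
    obtain ⟨g, hg, rfl⟩ := hF
    rw [mem_img] at hg
    obtain ⟨ω, rfl⟩ := hg
    rw [Finset.mem_powerset]
    intro x hx
    rw [hφ, Finset.mem_image] at hx
    obtain ⟨a, _, rfl⟩ := hx
    rw [Finset.mem_range]
    have h1 := hB ω a
    have h2 : (a : ℕ) * (s + 1) ≤ n * (s + 1) := Nat.mul_le_mul_right _ (by omega)
    omega
  rw [← Finset.card_image_of_injOn hinj]
  refine (Finset.card_le_card hsub).trans (le_of_eq ?_)
  rw [Finset.card_powerset, Finset.card_range]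

namespace Gm

variable (G : Gm Ω ζ α)

/-- **the second word** -/
noncomputable def wd2 (Q : Law Ω) (n : ℕ) (ω : Ω) : Fin (n + 1) → ℕ := fun a => G.xW Q a (G.Z ω)

variable {G} {Q : Law Ω}

/-- **number of words** -/
theorem wd2_card (hO : G.Ok Q) (n B s : ℕ) (hB : ∀ a ≤ n, G.N a ≤ B)
    (hN : ∀ a < n, G.N a ≤ G.N (a + 1) + s)
    (hc : ∀ a < n, ∀ ξ, ξ ≤ G.N a → Fn Q (G.A (a + 1) (ξ - s)) (fun ω => (G.A a ξ ω, G.Z ω))) :
    (img (G.wd2 Q n)).card ≤ 2 ^ (B + n * (s + 1) + 1) := by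
  classical
  refine card_path n B s (G.wd2 Q n) (fun ω a => (xW_le _ _).trans (hB a (by omega))) ?_
  intro ω a h
  show G.xW Q a (G.Z ω) ≤ G.xW Q (a + 1) (G.Z ω) + s
  rcases (Q.pr_nonneg G.Z (G.Z ω)).eq_or_lt with h0 | h0
  · have h1 : G.xW Q (a + 1) (G.Z ω) = G.N (a + 1) := by
      refine le_antisymm (xW_le _ _) ?_
      unfold xW
      refine Nat.le_findGreatest le_rfl ?_
      refine ⟨G.A (a + 1) (G.N (a + 1)) ω, ?_⟩
      rw [← h0, mul_zero]
      exact Q.pr_nonneg _ _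
    have h2 := xW_le (G := G) (Q := Q) a (G.Z ω)
    have h3 := hN a (by omega)
    omega
  · exact xW_succ hO (hN a (by omega)) (hc a (by omega)) h0

end Gm

/-! ### Conditioning on a function of `Z` -/

/-- probabilities after conditioning on a function of `Z` -/
theorem cond_pr_fn {β S : Type*} (Q : Law Ω) (Z : Ω → ζ) (f : ζ → β) {b : β}
    (hb : 0 < Q.pr (fun ω => f (Z ω)) b) (X : Ω → S) (x : S) {z : ζ} (hz : f z = b) :
    (Q.cond (fun ω => f (Z ω)) b).pr (fun ω => (X ω, Z ω)) (x, z) =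
      Q.pr (fun ω => (X ω, Z ω)) (x, z) / Q.pr (fun ω => f (Z ω)) b := by
  classical
  rw [Q.cond_pr _ _ hb]
  congr 1
  unfold Law.pr
  refine Finset.sum_congr ?_ fun _ _ => rfl
  ext ω
  simp only [Finset.mem_filter, Finset.mem_univ, true_and, Prod.mk.injEq]
  constructor
  · rintro ⟨h1, _⟩
    exact h1
  · rintro ⟨h1, h2⟩
    exact ⟨⟨h1, h2⟩, by rw [h2, hz]⟩

theorem cond_pr_fn' {β : Type*} (Q : Law Ω) (Z : Ω → ζ) (f : ζ → β) {b : β}
    (hb : 0 < Q.pr (fun ω => f (Z ω)) b) {z : ζ} (hz : f z = b) :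
    (Q.cond (fun ω => f (Z ω)) b).pr Z z = Q.pr Z z / Q.pr (fun ω => f (Z ω)) b := by
  classical
  rw [Q.cond_pr _ _ hb]
  congr 1
  unfold Law.pr
  refine Finset.sum_congr ?_ fun _ _ => rfl
  ext ω
  simp only [Finset.mem_filter, Finset.mem_univ, true_and, Prod.mk.injEq]
  constructor
  · rintro ⟨h1, _⟩
    exact h1
  · intro h1
    exact ⟨h1, by rw [h1, hz]⟩

/-- **conditional probabilities given `Z` do not change** -/
theorem cond_cp {β S : Type*} (Q : Law Ω) (Z : Ω → ζ) (f : ζ → β) {b : β}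
    (hb : 0 < Q.pr (fun ω => f (Z ω)) b) (X : Ω → S) {ω : Ω} (hω : f (Z ω) = b) :
    cp (Q.cond (fun ω => f (Z ω)) b) X Z ω = cp Q X Z ω := by
  unfold cp
  rw [cond_pr_fn Q Z f hb X _ hω, cond_pr_fn' Q Z f hb hω, div_div_div_cancel_right₀ hb.ne']

namespace Gm

variable {G : Gm Ω ζ α} {Q : Law Ω}

/-- **the law conditioned on the second word `e`** -/
structure Res [Nonempty α] (G : Gm Ω ζ α) (Q Q2 : Law Ω) (n : ℕ) (e : Fin (n + 1) → ℕ) (p : ℝ) : Prop where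
  hp : 0 < p
  dom : ∀ ω, p * Q2.w ω ≤ Q.w ω
  sup : ∀ ω, 0 < Q2.w ω → ∀ a : Fin (n + 1), G.xW Q a (G.Z ω) = e a
  /-- conditional laws given `Z` do not change -/
  cpe : ∀ {S : Type} (X : Ω → S) ω, 0 < Q2.w ω → cp Q2 X G.Z ω = cp Q X G.Z ω
  pre : ∀ {S : Type} (X : Ω → S) ω, 0 < Q2.w ω → ∀ x,
    Q2.pr (fun ω => (X ω, G.Z ω)) (x, G.Z ω) / Q2.pr G.Z (G.Z ω) =
      Q.pr (fun ω => (X ω, G.Z ω)) (x, G.Z ω) / Q.pr G.Z (G.Z ω)
  /-- the germ is a function of `Z` up to probability `1 - θ` -/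
  near : ∀ a : Fin (n + 1), prE Q2 (fun ω => G.A a (e a) ω ≠ G.gW Q a (e a) (G.Z ω)) ≤ 1 - G.θ
  /-- beyond the word no value is likely -/
  far : ∀ a : Fin (n + 1), ∀ ξ, e a < ξ → ξ ≤ G.N a → ∀ ω, 0 < Q2.w ω → ∀ g,
    Q2.pr (fun ω => (G.A a ξ ω, G.Z ω)) (g, G.Z ω) < G.θ * Q2.pr G.Z (G.Z ω)
  le : ∀ a : Fin (n + 1), e a ≤ G.N a

theorem res [Nonempty α] (hO : G.Ok Q) {n : ℕ} {e : Fin (n + 1) → ℕ} (he : 0 < Q.pr (G.wd2 Q n) e) :
    G.Res Q (Q.cond (G.wd2 Q n) e) n e (Q.pr (G.wd2 Q n) e) := by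
  classical
  have hw : (G.wd2 Q n) = fun ω => (fun z => fun a : Fin (n + 1) => G.xW Q a z) (G.Z ω) := rfl
  set f : ζ → Fin (n + 1) → ℕ := fun z => fun a : Fin (n + 1) => G.xW Q a z with hf
  set p := Q.pr (G.wd2 Q n) e with hpdef
  have hpf : 0 < Q.pr (fun ω => f (G.Z ω)) e := he
  have hQ2 : ∀ ω, (Q.cond (G.wd2 Q n) e).w ω = if G.wd2 Q n ω = e then Q.w ω / p else 0 :=
    fun ω => by
      rw [Q.cond_w _ _ he ω]
      by_cases h : G.wd2 Q n ω = e
      · rw [if_pos h, if_pos h]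
      · rw [if_neg h, if_neg h]
  have hsup : ∀ ω, 0 < (Q.cond (G.wd2 Q n) e).w ω → f (G.Z ω) = e ∧ 0 < Q.w ω := by
    intro ω hω
    rw [hQ2] at hω
    split_ifs at hω with hc
    · refine ⟨hc, ?_⟩
      by_contra hcon
      push Not at hcon
      have : Q.w ω / p ≤ 0 := div_nonpos_of_nonpos_of_nonneg hcon he.le
      linarith
    · exact absurd hω (lt_irrefl _)
  have hpr : ∀ {S : Type} (X : Ω → S) ω, 0 < (Q.cond (G.wd2 Q n) e).w ω → ∀ x,
      (Q.cond (G.wd2 Q n) e).pr (fun ω => (X ω, G.Z ω)) (x, G.Z ω) =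
        Q.pr (fun ω => (X ω, G.Z ω)) (x, G.Z ω) / p := fun X ω hω x =>
    cond_pr_fn Q G.Z f hpf X x (hsup ω hω).1
  have hpz : ∀ ω, 0 < (Q.cond (G.wd2 Q n) e).w ω →
      (Q.cond (G.wd2 Q n) e).pr G.Z (G.Z ω) = Q.pr G.Z (G.Z ω) / p := fun ω hω =>
    cond_pr_fn' Q G.Z f hpf (hsup ω hω).1
  refine ⟨he, ?_, ?_, ?_, ?_, ?_, ?_, ?_⟩
  · intro ω
    rw [hQ2]
    split_ifs
    · rw [mul_div_cancel₀ _ he.ne']
    · rw [mul_zero]
      exact Q.nn ω
  · intro ω hω a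
    exact congrFun (hsup ω hω).1 a
  · intro S X ω hω
    exact cond_cp Q G.Z f hpf X (hsup ω hω).1
  · intro S X ω hω x
    rw [hpr X ω hω x, hpz ω hω, div_div_div_cancel_right₀ he.ne']
  · intro a
    -- fibre by fibre
    set Q2 := Q.cond (G.wd2 Q n) e with hQ2d
    have h1 : prE Q2 (fun ω => G.A a (e a) ω ≠ G.gW Q a (e a) (G.Z ω)) =
        ∑ z ∈ img G.Z, prE Q2 (fun ω => G.Z ω = z ∧ G.A a (e a) ω ≠ G.gW Q a (e a) z) := by
      unfold prE
      rw [← Finset.sum_fiberwise_of_maps_to (g := G.Z) (t := img G.Z)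
        (fun ω _ => mem_img.2 ⟨ω, rfl⟩)]
      refine Finset.sum_congr rfl fun z _ => Finset.sum_congr ?_ fun _ _ => rfl
      ext ω
      simp only [Finset.mem_filter, Finset.mem_univ, true_and]
      constructor
      · rintro ⟨h1, rfl⟩
        exact ⟨rfl, h1⟩
      · rintro ⟨rfl, h1⟩
        exact ⟨h1, rfl⟩
    rw [h1]
    have h2 : ∀ z ∈ img G.Z, prE Q2 (fun ω => G.Z ω = z ∧ G.A a (e a) ω ≠ G.gW Q a (e a) z) ≤
        (1 - G.θ) * Q2.pr G.Z z := by
      intro z _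
      by_cases hz : f z = e
      · have e1 : Q2.pr G.Z z = Q.pr G.Z z / p := cond_pr_fn' Q G.Z f hpf hz
        have e2 : prE Q2 (fun ω => G.Z ω = z ∧ G.A a (e a) ω ≠ G.gW Q a (e a) z) =
            prE Q (fun ω => G.Z ω = z ∧ G.A a (e a) ω ≠ G.gW Q a (e a) z) / p := by
          unfold prE
          rw [Finset.sum_div]
          refine Finset.sum_congr rfl fun ω hω => ?_
          simp only [Finset.mem_filter, Finset.mem_univ, true_and] at hω
          rw [hQ2, if_pos (show G.wd2 Q n ω = e from by rw [hw]; show f (G.Z ω) = e; rw [hω.1, hz])]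
        rw [e1, e2, ← mul_div_assoc]
        refine div_le_div_of_nonneg_right ?_ he.le
        rcases (Q.pr_nonneg G.Z z).eq_or_lt with h0 | h0
        · have h3 : prE Q (fun ω => G.Z ω = z ∧ G.A a (e a) ω ≠ G.gW Q a (e a) z) ≤ Q.pr G.Z z := by
            unfold prE Law.pr
            refine Finset.sum_le_sum_of_subset_of_nonneg ?_ fun ω _ _ => Q.nn ω
            intro ω hω
            simp only [mem_filter, mem_univ, true_and] at hω ⊢
            exact hω.1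
          rw [← h0] at h3 ⊢
          rw [mul_zero]
          exact h3
        · refine bad_le (Kn_le hO a h0 ?_)
          have := congrFun hz a
          exact this.ge
      · have h3 : prE Q2 (fun ω => G.Z ω = z ∧ G.A a (e a) ω ≠ G.gW Q a (e a) z) = 0 := by
          unfold prE
          refine Finset.sum_eq_zero fun ω hω => ?_
          simp only [Finset.mem_filter, Finset.mem_univ, true_and] at hω
          rw [hQ2, if_neg]
          intro hcon
          refine hz ?_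
          rw [← hω.1]
          exact hcon
        rw [h3]
        exact mul_nonneg (by linarith [hO.t1]) (Q2.pr_nonneg _ _)
    refine (Finset.sum_le_sum h2).trans ?_
    rw [← Finset.mul_sum, Q2.sum_pr_image, mul_one]
  · intro a ξ h1 h2 ω hω g
    rw [hpr _ ω hω g, hpz ω hω, ← mul_div_assoc]
    refine div_lt_div_of_pos_right ?_ he
    refine lt_of_lt ?_ h2 g
    have := congrFun (hsup ω hω).1 a
    exact this.le.trans_lt h1
  · intro a
    obtain ⟨ω, hω⟩ : ∃ ω, 0 < (Q.cond (G.wd2 Q n) e).w ω := by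
      by_contra hcon
      push Not at hcon
      have : ∑ ω, (Q.cond (G.wd2 Q n) e).w ω ≤ 0 := Finset.sum_nonpos fun ω _ => hcon ω
      rw [Law.sum_one] at this
      linarith
    have h1 : G.xW Q a (G.Z ω) = e a := congrFun (hsup ω hω).1 a
    rw [← h1]
    exact xW_le _ _

end Gm

end Vale.Agent.P106.U.H449.W2
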